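import Mathlib.Analysis.Calculus.Rademacher
import Mathlib.Analysis.Calculus.Deriv.MeanValue
import Mathlib.Analysis.Calculus.BumpFunction.Convolution
import Mathlib.Analysis.Calculus.ParametricIntegral
import Mathlib.Analysis.Calculus.FDeriv.Measurable
import Mathlib.Analysis.Calculus.ContDiff.RCLike
import Mathlib.Analysis.Convex.Continuous
import Mathlib.Analysis.InnerProductSpace.Calculus

/-!
# X261, BT (helper19), balayage part A: real analysis

* `SC C f` : `f - C ‖·‖²` is concave; `exists_sc` : inf-convolution;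
* `c11` : a pointwise limit of `C²` functions with bounded second derivatives is `C^{1,1}`;
* `taylor2` : second order expansion where the gradient is differentiable;
* `hasFDerivAt_conv` : derivative of the mollification of a Lipschitz map.
-/

set_option autoImplicit false
set_option linter.unusedSectionVars false

open Set Filter Topology Metric MeasureTheory Asymptotics
open scoped Convolution NNReal

namespace Crest.Agent.X261.BT.Bal

noncomputable section

section sc

variable {E : Type*} [NormedAddCommGroup E] [InnerProductSpace ℝ E]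

/-- semiconcavity: `f - C ‖·‖²` is concave -/
def SC (C : ℝ) (f : E → ℝ) : Prop :=
  ∀ a b : E, ∀ s t : ℝ, 0 ≤ s → 0 ≤ t → s + t = 1 →
    s * f a + t * f b ≤ f (s • a + t • b) + C * (s * t * ‖a - b‖ ^ 2)

theorem nsq_comb (a b y : E) {s t : ℝ} (h : s + t = 1) :
    s * ‖a - y‖ ^ 2 + t * ‖b - y‖ ^ 2 = ‖s • a + t • b - y‖ ^ 2 + s * t * ‖a - b‖ ^ 2 := by
  obtain rfl : t = 1 - s := by linarith
  have e1 : s • a + (1 - s) • b - y = s • (a - y) + (1 - s) • (b - y) := by module
  have e2 : a - b = (a - y) - (b - y) := by abel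
  rw [e1, e2]
  generalize a - y = p
  generalize b - y = q
  rw [norm_add_sq_real, norm_sub_sq_real, norm_smul, norm_smul, inner_smul_left, inner_smul_right]
  simp only [Real.norm_eq_abs, mul_pow, sq_abs, conj_trivial]
  ring

theorem sc_nsq (A m : ℝ) (y : E) : SC A fun z : E => A * ‖z - y‖ ^ 2 + m := by
  intro a b s t _ _ h
  have := nsq_comb a b y h
  have e : m = (s + t) * m := by rw [h, one_mul]
  linear_combination A * this - e

theorem SC.add {C D : ℝ} {f g : E → ℝ} (hf : SC C f) (hg : SC D g) :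
    SC (C + D) fun z => f z + g z := by
  intro a b s t hs ht h
  have h1 := hf a b s t hs ht h
  have h2 := hg a b s t hs ht h
  linarith

theorem SC.cont [FiniteDimensional ℝ E] {C : ℝ} {f : E → ℝ} (hf : SC C f) : Continuous f := by
  have h1 : ConcaveOn ℝ univ fun z => f z - C * ‖z‖ ^ 2 := by
    refine ⟨convex_univ, fun a _ b _ s t hs ht h => ?_⟩
    have h1 := hf a b s t hs ht h
    have h2 := nsq_comb a b 0 h
    simp only [sub_zero] at h2
    simp only [smul_eq_mul]
    linear_combination h1 - C * h2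
  have h2 : Continuous fun z => f z - C * ‖z‖ ^ 2 :=
    continuousOn_univ.1 (h1.continuousOn isOpen_univ)
  have h3 : Continuous fun z : E => C * ‖z‖ ^ 2 := by fun_prop
  exact (h2.add h3).congr fun z => by simp

theorem SC.diff2 {C : ℝ} {f : E → ℝ} (hf : SC C f) (x h : E) :
    f (x + h) + f (x - h) - 2 * f x ≤ 2 * C * ‖h‖ ^ 2 := by
  have h1 := hf (x + h) (x - h) (1 / 2) (1 / 2) (by norm_num) (by norm_num) (by norm_num)
  have e1 : (1 / 2 : ℝ) • (x + h) + (1 / 2 : ℝ) • (x - h) = x := by module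
  have e2 : x + h - (x - h) = (2 : ℝ) • h := by module
  rw [e1, e2, norm_smul, Real.norm_two] at h1
  linarith

/-- inf-convolution -/
theorem exists_sc {b : E → ℝ} (hb : UniformContinuous b) {B : ℝ} (hB : ∀ y, |b y| ≤ B) {ε : ℝ}
    (hε : 0 < ε) : ∃ (C : ℝ) (g : E → ℝ), 0 ≤ C ∧ SC C g ∧ ∀ y, |g y - b y| ≤ ε := by
  obtain ⟨δ, hδ, h1⟩ := Metric.uniformContinuous_iff.1 hb ε hε
  have hB0 : 0 ≤ B := (abs_nonneg _).trans (hB 0)
  have hC : 0 ≤ 2 * B / δ ^ 2 := by positivity
  set C := 2 * B / δ ^ 2 with hCd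
  have hbd : ∀ z : E, BddBelow (range fun y => b y + C * ‖z - y‖ ^ 2) := fun z =>
    ⟨-B, by
      rintro _ ⟨y, rfl⟩
      have := (abs_le.1 (hB y)).1
      have : 0 ≤ C * ‖z - y‖ ^ 2 := by positivity
      linarith⟩
  refine ⟨C, fun z => ⨅ y, (b y + C * ‖z - y‖ ^ 2), hC, fun a c s t hs ht h => ?_, fun z => ?_⟩
  · rw [← sub_le_iff_le_add]
    refine le_ciInf fun y => ?_
    have h2 := mul_le_mul_of_nonneg_left (ciInf_le (hbd a) y) hs
    have h3 := mul_le_mul_of_nonneg_left (ciInf_le (hbd c) y) ht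
    have h4 := nsq_comb a c y h
    have e : b y = (s + t) * b y := by rw [h, one_mul]
    linear_combination h2 + h3 + C * h4 - e
  · have h2 := ciInf_le (hbd z) z
    simp only [sub_self, norm_zero] at h2
    have h3 : b z - ε ≤ ⨅ y, (b y + C * ‖z - y‖ ^ 2) := le_ciInf fun y => by
      by_cases hy : dist z y < δ
      · have := (abs_lt.1 (Real.dist_eq _ _ ▸ h1 hy)).2
        have : 0 ≤ C * ‖z - y‖ ^ 2 := by positivity
        linarith
      · rw [not_lt, dist_eq_norm] at hy
        have h4 : C * δ ^ 2 ≤ C * ‖z - y‖ ^ 2 := by gcongr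
        have h5 : C * δ ^ 2 = 2 * B := by rw [hCd]; field_simp
        have := (abs_le.1 (hB y)).1
        have := (abs_le.1 (hB z)).2
        linarith
    rw [abs_le]
    constructor <;> linarith

end sc

section taylor

variable {E : Type*} [NormedAddCommGroup E] [NormedSpace ℝ E]

theorem le_of_deriv {g g' : ℝ → ℝ} {s : ℝ} (hs : 0 ≤ s) (h : ∀ t, HasDerivAt g (g' t) t)
    (h0 : ∀ t ∈ Icc 0 s, g' t ≤ 0) : g s ≤ g 0 :=
  antitoneOn_of_deriv_nonpos (convex_Icc 0 s) (fun t _ => (h t).continuousAt.continuousWithinAt)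
    (fun t _ => (h t).differentiableAt.differentiableWithinAt)
    (fun t ht => by rw [(h t).deriv]; exact h0 t (interior_subset ht))
    (left_mem_Icc.2 hs) (right_mem_Icc.2 hs) hs

theorem hasDerivAt_line {F : Type*} [NormedAddCommGroup F] [NormedSpace ℝ F] {f : E → F}
    (hf : Differentiable ℝ f) (x h : E) (t : ℝ) :
    HasDerivAt (fun t : ℝ => f (x + t • h)) (fderiv ℝ f (x + t • h) h) t := by
  have h1 : HasDerivAt (fun t : ℝ => x + t • h) h t := by
    simpa using ((hasDerivAt_id t).smul_const h).const_add x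
  exact (hf _).hasFDerivAt.comp_hasDerivAt t h1

theorem taylor_le {f : E → ℝ} (hf : ContDiff ℝ 2 f) {C : ℝ} (x h : E)
    (hC : ∀ y, fderiv ℝ (fderiv ℝ f) y h h ≤ C) : f (x + h) ≤ f x + fderiv ℝ f x h + C / 2 := by
  have hd : Differentiable ℝ f := hf.differentiable (by norm_num)
  have hd2 : Differentiable ℝ (fderiv ℝ f) :=
    (hf.fderiv_right (m := 1) (by norm_num)).differentiable (by norm_num)
  have h1 : ∀ s, 0 ≤ s → fderiv ℝ f (x + s • h) h - C * s ≤ fderiv ℝ f x h := fun s hs => by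
    have := le_of_deriv (g := fun t : ℝ => fderiv ℝ f (x + t • h) h - C * t) hs
      (fun t => (((hasDerivAt_line hd2 x h t).clm_apply (hasDerivAt_const t h)).sub
        ((hasDerivAt_id t).const_mul C))) fun t _ => by
          have := hC (x + t • h)
          simp only [map_zero, add_zero, mul_one]
          linarith
    simpa using this
  have h2 := le_of_deriv (g := fun t : ℝ => f (x + t • h) - t * fderiv ℝ f x h - C / 2 * t ^ 2)
    zero_le_one (fun t => ((hasDerivAt_line hd x h t).sub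
      ((hasDerivAt_id t).mul_const _)).sub ((hasDerivAt_pow 2 t).const_mul (C / 2))) fun t ht => by
        have := h1 t ht.1
        simp only [one_mul, Nat.cast_ofNat, Nat.add_one_sub_one, pow_one]
        linarith
  simp only [one_smul, one_mul, one_pow, mul_one, zero_smul, add_zero, zero_mul, sub_zero] at h2
  linarith

theorem taylor_abs {f : E → ℝ} (hf : ContDiff ℝ 2 f) {C : ℝ} (x h : E)
    (hC : ∀ y, |fderiv ℝ (fderiv ℝ f) y h h| ≤ C) : |f (x + h) - f x - fderiv ℝ f x h| ≤ C / 2 := by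
  have h1 := taylor_le hf x h fun y => (abs_le.1 (hC y)).2
  have e : fderiv ℝ (fun z => -f z) = fun z => -fderiv ℝ f z := funext fun z => fderiv_fun_neg
  have h2 := taylor_le hf.neg x h (C := C) fun y => by
    rw [e, fderiv_fun_neg]
    have := (abs_le.1 (hC y)).1
    simp only [_root_.neg_apply]
    linarith
  rw [e] at h2
  simp only [_root_.neg_apply] at h2
  rw [abs_le]
  constructor <;> linarith

theorem exists_grad [FiniteDimensional ℝ E] {w : E → ℝ} {f : ℕ → E → ℝ}
    (hf : ∀ j, ContDiff ℝ 2 (f j)) {C : ℝ}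
    (hC : ∀ j y h, |fderiv ℝ (fderiv ℝ (f j)) y h h| ≤ C * ‖h‖ ^ 2)
    (hl : ∀ x, Tendsto (fun j => f j x) atTop (𝓝 (w x))) (x : E) :
    ∃ G : E →L[ℝ] ℝ, ∀ h, |w (x + h) - w x - G h| ≤ C / 2 * ‖h‖ ^ 2 := by
  have h1 : ∀ j h, |f j (x + h) - f j x - fderiv ℝ (f j) x h| ≤ C / 2 * ‖h‖ ^ 2 := fun j h => by
    have := taylor_abs (hf j) x h fun y => hC j y h
    linarith
  have hU : (hyperfilter ℕ : Filter ℕ) ≤ atTop := Nat.cofinite_eq_atTop ▸ hyperfilter_le_cofinite
  have h2 : ∀ h, ∃ L : ℝ, Tendsto (fun j => fderiv ℝ (f j) x h) (hyperfilter ℕ) (𝓝 L) := fun h => by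
    have h3 := ((hl (x + h)).sub (hl x)).eventually (closedBall_mem_nhds _ one_pos)
    obtain ⟨L, -, hL⟩ := (isCompact_closedBall (w (x + h) - w x) (1 + C / 2 * ‖h‖ ^ 2)).ultrafilter_le_nhds
      ((hyperfilter ℕ).map fun j => fderiv ℝ (f j) x h) (by
        rw [Ultrafilter.coe_map, le_principal_iff, Filter.mem_map]
        filter_upwards [hU h3] with j hj
        have h4 := abs_le.1 (h1 j h)
        have h5 := abs_le.1 (Real.dist_eq _ _ ▸ mem_closedBall.1 hj)
        rw [mem_preimage, mem_closedBall, Real.dist_eq, abs_le]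
        constructor <;> linarith [h4.1, h4.2, h5.1, h5.2])
    exact ⟨L, hL⟩
  choose L hL using h2
  let G : E →ₗ[ℝ] ℝ := linearMapOfTendsto L (fun j => (fderiv ℝ (f j) x : E →ₗ[ℝ] ℝ))
    (tendsto_pi_nhds.2 hL)
  refine ⟨LinearMap.toContinuousLinearMap G, fun h => ?_⟩
  exact le_of_tendsto' (((((hl (x + h)).sub (hl x)).mono_left hU).sub (hL h)).abs) fun j => h1 j h

theorem c11_of_grad {w : E → ℝ} {C : ℝ} (hC : 0 ≤ C)
    (H : ∀ x, ∃ G : E →L[ℝ] ℝ, ∀ h, |w (x + h) - w x - G h| ≤ C * ‖h‖ ^ 2) :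
    Differentiable ℝ w ∧ ∃ K, LipschitzWith K (fderiv ℝ w) := by
  choose G hG using H
  have h1 : ∀ x, HasFDerivAt w (G x) x := fun x => by
    rw [hasFDerivAt_iff_isLittleO_nhds_zero]
    refine IsBigO.trans_isLittleO (g := fun h : E => ‖h‖ ^ 2) (IsBigO.of_bound C ?_)
      (isLittleO_norm_pow_id one_lt_two)
    exact Eventually.of_forall fun h => by simpa using hG x h
  refine ⟨fun x => (h1 x).differentiableAt, (6 * C).toNNReal,
    LipschitzWith.of_dist_le' fun x y => ?_⟩
  rw [(h1 x).fderiv, (h1 y).fderiv, dist_eq_norm, dist_eq_norm]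
  rcases eq_or_ne x y with rfl | hxy
  · simp
  have hd : 0 < ‖x - y‖ := norm_pos_iff.2 (sub_ne_zero.2 hxy)
  refine ContinuousLinearMap.opNorm_le_of_unit_norm (by positivity) fun h hh => ?_
  set d := ‖x - y‖ with hdd
  have e1 : ‖d • h‖ = d := by rw [norm_smul, hh, mul_one, Real.norm_of_nonneg hd.le]
  have a1 := abs_le.1 (hG x (d • h))
  have a2 := abs_le.1 (hG y (x - y + d • h))
  have a3 := abs_le.1 (hG y (x - y))
  have e2 : y + (x - y + d • h) = x + d • h := by abel
  have e3 : y + (x - y) = x := by abel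
  have e4 : C * ‖x - y + d • h‖ ^ 2 ≤ C * (d + d) ^ 2 := by
    have := norm_add_le (x - y) (d • h)
    rw [e1] at this
    gcongr
  rw [e1, map_smul, smul_eq_mul] at a1
  rw [e2, map_add, map_smul, smul_eq_mul] at a2
  rw [e3] at a3
  rw [Real.norm_eq_abs, _root_.sub_apply, ← mul_le_mul_iff_right₀ hd,
    ← abs_of_pos hd, ← abs_mul, abs_of_pos hd, abs_le]
  constructor <;> nlinarith [a1.1, a1.2, a2.1, a2.2, a3.1, a3.2]

/-- a pointwise limit of `C²` functions with bounded second derivatives is `C^{1,1}` -/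
theorem c11 [FiniteDimensional ℝ E] {w : E → ℝ} {f : ℕ → E → ℝ}
    (hf : ∀ j, ContDiff ℝ 2 (f j)) {C : ℝ} (h0 : 0 ≤ C)
    (hC : ∀ j y h, |fderiv ℝ (fderiv ℝ (f j)) y h h| ≤ C * ‖h‖ ^ 2)
    (hl : ∀ x, Tendsto (fun j => f j x) atTop (𝓝 (w x))) :
    Differentiable ℝ w ∧ ∃ K, LipschitzWith K (fderiv ℝ w) :=
  c11_of_grad (by positivity) (exists_grad hf hC hl)

/-- second order expansion -/
theorem taylor2 {w : E → ℝ} (hw : Differentiable ℝ w) {x : E}
    (hx : DifferentiableAt ℝ (fderiv ℝ w) x) {ε : ℝ} (hε : 0 < ε) :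
    ∃ ρ > 0, ∀ h : E, ‖h‖ < ρ →
      w x + fderiv ℝ w x h + fderiv ℝ (fderiv ℝ w) x h h / 2 - ε * ‖h‖ ^ 2 ≤ w (x + h) := by
  have h1 := hasFDerivAt_iff_isLittleO_nhds_zero.1 hx.hasFDerivAt
  obtain ⟨ρ, hρ, h2⟩ := Metric.eventually_nhds_iff.1 (h1.bound hε)
  refine ⟨ρ, hρ, fun h hh => ?_⟩
  set G := fderiv ℝ w x
  set H := fderiv ℝ (fderiv ℝ w) x
  have h3 := le_of_deriv
    (g := fun t : ℝ => t * G h + H h h / 2 * t ^ 2 - t * (ε * ‖h‖ ^ 2) - w (x + t • h))
    zero_le_one (fun t => ((((hasDerivAt_id t).mul_const _).add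
      ((hasDerivAt_pow 2 t).const_mul (H h h / 2))).sub ((hasDerivAt_id t).mul_const _)).sub
      (hasDerivAt_line hw x h t)) fun t ht => by
        have h4 : ‖t • h‖ ≤ ‖h‖ := by
          rw [norm_smul, Real.norm_of_nonneg ht.1]
          exact mul_le_of_le_one_left (norm_nonneg _) ht.2
        have h5 := h2 (y := t • h) (by rw [dist_zero_right]; exact h4.trans_lt hh)
        have h6 := (fderiv ℝ w (x + t • h) - G - H (t • h)).le_of_opNorm_le h5 h
        have h7 : ε * ‖t • h‖ * ‖h‖ ≤ ε * ‖h‖ * ‖h‖ := by gcongr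
        have h8 := (abs_le.1 (h6.trans h7)).1
        simp only [_root_.sub_apply, map_smul, _root_.smul_apply,
          smul_eq_mul] at h8
        simp only [one_mul, Nat.cast_ofNat, Nat.add_one_sub_one, pow_one]
        linarith
  simp only [one_smul, one_mul, one_pow, mul_one, zero_smul, add_zero, zero_mul] at h3
  linarith

end taylor

section conv

variable {E : Type*} [NormedAddCommGroup E] [NormedSpace ℝ E] [FiniteDimensional ℝ E]
  [MeasurableSpace E] [BorelSpace E] {μ : Measure E} [μ.IsAddHaarMeasure]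
  {F : Type*} [NormedAddCommGroup F] [NormedSpace ℝ F] [FiniteDimensional ℝ F]

variable (μ) in
/-- mollification -/
abbrev cv (φ : ContDiffBump (0 : E)) (g : E → F) : E → F :=
  φ.normed μ ⋆[ContinuousLinearMap.lsmul ℝ ℝ, μ] g

theorem aesm_fderiv (f : E → F) : AEStronglyMeasurable (fderiv ℝ f) μ := by
  borelize (E →L[ℝ] F)
  have := FiniteDimensional.complete ℝ F
  exact (measurable_fderiv ℝ f).aestronglyMeasurable

theorem hasFDerivAt_conv (φ : ContDiffBump (0 : E)) {f : E → F} (hc : Continuous f) (x : E)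
    {K : ℝ≥0} (hL : LipschitzOnWith K f (ball x (φ.rOut + 1)))
    (hd : ∀ᵐ y ∂μ, DifferentiableAt ℝ f y) :
    HasFDerivAt (cv μ φ f) (cv μ φ (fderiv ℝ f) x) x := by
  have := FiniteDimensional.complete ℝ F
  have hq := quasiMeasurePreserving_sub_left_of_right_invariant μ x
  have hcF : ∀ y, Continuous fun t => φ.normed μ t • f (y - t) := fun y =>
    φ.continuous_normed.smul (hc.comp (continuous_const.sub continuous_id))
  refine (hasFDerivAt_integral_of_dominated_loc_of_lip' (μ := μ) (s := ball x 1)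
    (F := fun y t => φ.normed μ t • f (y - t)) (F' := fun t => φ.normed μ t • fderiv ℝ f (x - t))
    (bound := fun t => φ.normed μ t * K) (ball_mem_nhds x one_pos)
    (fun y _ => (hcF y).aestronglyMeasurable)
    ((hcF x).integrable_of_hasCompactSupport φ.hasCompactSupport_normed.smul_right)
    (φ.continuous_normed.aestronglyMeasurable.smul
      ((aesm_fderiv f).comp_quasiMeasurePreserving hq))
    (Eventually.of_forall fun t y hy => ?_) (φ.integrable_normed.mul_const _) ?_).2
  · by_cases ht : t ∈ ball (0 : E) φ.rOut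
    · rw [mem_ball, dist_zero_right] at ht
      rw [mem_ball, dist_eq_norm] at hy
      have h1 : ∀ z, ‖z - x‖ < 1 → z - t ∈ ball x (φ.rOut + 1) := fun z hz => by
        rw [mem_ball, dist_eq_norm, sub_right_comm]
        linarith [norm_sub_le (z - x) t]
      have h2 := hL.norm_sub_le (h1 y hy) (h1 x (by simp))
      rw [sub_sub_sub_cancel_right] at h2
      rw [← smul_sub, norm_smul, Real.norm_of_nonneg (φ.nonneg_normed t), mul_assoc]
      exact mul_le_mul_of_nonneg_left h2 (φ.nonneg_normed t)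
    · rw [← φ.support_normed_eq (μ := μ)] at ht
      simp [Function.notMem_support.1 ht]
  · filter_upwards [hq.ae hd] with t ht
    have h1 := (ht.hasFDerivAt.comp x ((hasFDerivAt_id x).sub_const t)).const_smul (φ.normed μ t)
    simp only [ContinuousLinearMap.comp_id] at h1
    exact h1

/-- second derivatives of the mollification of a `C^{1,1}` function -/
theorem fderiv2_conv (φ : ContDiffBump (0 : E)) {w : E → ℝ} (hw : Differentiable ℝ w) {K : ℝ≥0}
    (hK : LipschitzWith K (fderiv ℝ w)) (x : E) :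
    fderiv ℝ (fderiv ℝ (cv μ φ w)) x = cv μ φ (fderiv ℝ (fderiv ℝ w)) x := by
  have h1 : ContDiff ℝ 1 w := contDiff_one_iff_fderiv.2 ⟨hw, hK.continuous⟩
  have h2 : fderiv ℝ (cv μ φ w) = cv μ φ (fderiv ℝ w) := funext fun y => by
    have := FiniteDimensional.proper ℝ E
    obtain ⟨L, hL⟩ := h1.contDiffOn.exists_lipschitzOnWith one_ne_zero
      (convex_closedBall y (φ.rOut + 1)) (isCompact_closedBall _ _)
    exact (hasFDerivAt_conv φ hw.continuous y (hL.mono ball_subset_closedBall)
      (Eventually.of_forall hw)).fderiv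
  rw [h2]
  exact (hasFDerivAt_conv φ hK.continuous x hK.lipschitzOnWith hK.ae_differentiableAt).fderiv

theorem locInt_fderiv {f : E → F} {K : ℝ≥0} (hK : LipschitzWith K f) :
    LocallyIntegrable (fderiv ℝ f) μ :=
  (locallyIntegrable_const (K : ℝ)).mono (aesm_fderiv f)
    (Eventually.of_forall fun x => by simpa using norm_fderiv_le_of_lipschitz ℝ hK)

theorem norm_conv_le (φ : ContDiffBump (0 : E)) {g : E → F} {K : ℝ} (h : ∀ x, ‖g x‖ ≤ K) (x : E) :
    ‖cv μ φ g x‖ ≤ K := by
  have h1 : ∫ t, φ.normed μ t * K ∂μ = K := by rw [integral_mul_const, φ.integral_normed, one_mul]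
  rw [← h1]
  refine norm_integral_le_of_norm_le (φ.integrable_normed.mul_const _)
    (Eventually.of_forall fun t => ?_)
  rw [ContinuousLinearMap.lsmul_apply, norm_smul, Real.norm_of_nonneg (φ.nonneg_normed t)]
  exact mul_le_mul_of_nonneg_left (h _) (φ.nonneg_normed t)

end conv

end

end Crest.Agent.X261.BT.Bal
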