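import Crest.Agent.X261.BT.MxB
import Crest.Agent.X261.BT.BalA

/-!
# X261, BT (helper19), balayage part B: envelopes on `Cn n`

* `GP f` : continuous, sub-mean values on all discs; `cp_glue` : gluing of a maximum in a ball;
* `env v` : the psh envelope on `Cn n`, semiconcave if `v` is;
* `exists_deg` : a bump-maximal function has degenerate Levi form where it is twice differentiable;
* `tendsto_int` : the Monge-Ampere mass of the mollifications of such a function tends to `0`;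
* `exists_small` : smooth psh approximations with small Monge-Ampere mass.
-/

set_option autoImplicit false
set_option linter.unusedSectionVars false

open Set Filter Topology Complex MeasureTheory Function Metric Real
open scoped ContDiff Matrix ComplexConjugate ComplexOrder Convolution NNReal

namespace Crest.Agent.X261.BT.Bal

open Crest.Agent.R275.Geo Crest.Agent.R275.EDR890
open Crest.Agent.R273.Hess_333 Crest.Agent.R273.HessB_333
open Crest.Agent.R281.Rich_710 (PshL dav cj_jc qf_hess psd_of_qf le_dav_of_lvE lvE_ge_of_le conv_le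
  conv_apply disc_subset dav_congr unif_near integrable_mul_bump lvE_smul qf_nonneg symm2)
open Crest.Agent.R257.HoB_843 (lvE)
open Crest.Agent.R273.SerD_945 (qf qf_eq)

noncomputable section

variable {n : ℕ}

/-! ### discs -/

theorem cint {O : Set (Cn n)} {f : Cn n → ℝ} (hf : ContinuousOn f O) {x v : Cn n}
    (hd : ∀ w : ℂ, ‖w‖ ≤ 1 → x + w • v ∈ O) : CircleIntegrable (fun w : ℂ => f (x + w • v)) 0 1 :=
  ContinuousOn.circleIntegrable zero_le_one
    (hf.comp (by fun_prop) fun w hw => hd w (by simpa using (mem_sphere_zero_iff_norm.1 hw).le))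

theorem cint' {f : Cn n → ℝ} (hf : Continuous f) (x v : Cn n) :
    CircleIntegrable (fun w : ℂ => f (x + w • v)) 0 1 :=
  cint (O := univ) hf.continuousOn fun _ _ => mem_univ _

theorem dav_le {f g : Cn n → ℝ} {x y v : Cn n}
    (hf : CircleIntegrable (fun w : ℂ => f (x + w • v)) 0 1)
    (hg : CircleIntegrable (fun w : ℂ => g (y + w • v)) 0 1) {c : ℝ}
    (h : ∀ w : ℂ, ‖w‖ = 1 → f (x + w • v) ≤ g (y + w • v) + c) : dav f x v ≤ dav g y v + c := by
  have h1 := circleAverage_mono hf (hg.add (circleIntegrable_const c 0 1))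
    fun w hw => h w (by simpa using hw)
  rwa [circleAverage_add hg (circleIntegrable_const c 0 1), circleAverage_const] at h1

theorem cp_le_dav {O : Set (Cn n)} (hO : IsOpen O) {u : Cn n → ℝ} (h : CP O u) {x v : Cn n}
    (hd : ∀ w : ℂ, ‖w‖ ≤ 1 → x + w • v ∈ O) : u x ≤ dav u x v := by
  have hK : IsCompact ((fun w : ℂ => x + w • v) '' closedBall 0 1) :=
    (isCompact_closedBall _ _).image (by fun_prop)
  have hm : ∀ w : ℂ, ‖w‖ ≤ 1 → x + w • v ∈ (fun w : ℂ => x + w • v) '' closedBall 0 1 :=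
    fun w hw => ⟨w, by simpa using hw, rfl⟩
  obtain ⟨S, hS⟩ := exists_mo hO hK (by rintro _ ⟨w, hw, rfl⟩; exact hd w (by simpa using hw))
  refine le_of_forall_pos_le_add fun ε hε => ?_
  obtain ⟨j, h1, h2⟩ := ((Metric.tendstoUniformlyOn_iff.1 (hS.lim u h.1) _ (half_pos hε)).and
    (hS.psd u h)).exists
  have hs := hS.sm j u h.1
  have h3 := le_dav_of_lvE (f := S j u) (z := x) (v := v) (c := 0) fun w hw =>
    ⟨hs.contDiffAt.of_le (WithTop.coe_le_coe.2 le_top), (psd_iff hs.contDiffAt).1 (h2 _ (hm w hw)) v⟩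
  have h4 := dav_le (cint' hs.continuous x v) (cint h.1 hd) (c := ε / 2) fun w hw => by
    have := abs_lt.1 (Real.dist_eq _ _ ▸ h1 _ (hm w hw.le))
    linarith [this.1]
  have h5 := abs_lt.1 (Real.dist_eq _ _ ▸ h1 _ (hm 0 (by simp)))
  simp only [zero_smul, add_zero] at h5
  linarith [h5.2]

theorem cp_max {O : Set (Cn n)} (hO : IsOpen O) {u v : Cn n → ℝ} (hu : CP O u) (hv : CP O v) :
    CP O fun y => max (u y) (v y) := by
  have hc : ContinuousOn (fun y => max (u y) (v y)) O := hu.1.sup hv.1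
  refine ⟨hc, fun z hz => ?_⟩
  obtain ⟨r, hr, hb⟩ := Metric.isOpen_iff.1 hO z hz
  refine ⟨r / 2, half_pos hr, fun x hx w hw => ?_⟩
  have hd : ∀ t : ℂ, ‖t‖ ≤ 1 → x + t • w ∈ O := fun t ht =>
    hb (by simpa [mul_div_cancel₀] using disc_subset hx hw ht)
  have h1 := dav_le (g := fun y => max (u y) (v y)) (cint hu.1 hd) (cint hc hd) (c := 0)
    fun t _ => by simp
  have h2 := dav_le (g := fun y => max (u y) (v y)) (cint hv.1 hd) (cint hc hd) (c := 0)
    fun t _ => by simp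
  exact max_le ((cp_le_dav hO hu hd).trans (by linarith)) ((cp_le_dav hO hv hd).trans (by linarith))

theorem cp_of_loc {O : Set (Cn n)} {f : Cn n → ℝ}
    (h : ∀ z ∈ O, ∃ V g, IsOpen V ∧ z ∈ V ∧ CP V g ∧ ∀ y ∈ V, f y = g y) : CP O f := by
  refine ⟨fun z hz => ?_, fun z hz => ?_⟩
  · obtain ⟨V, g, hV, hzV, hg, he⟩ := h z hz
    exact ((hg.1.congr he).continuousAt (hV.mem_nhds hzV)).continuousWithinAt
  · obtain ⟨V, g, hV, hzV, hg, he⟩ := h z hz
    obtain ⟨r, hr, hb⟩ := Metric.isOpen_iff.1 hV z hzV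
    refine ⟨r / 2, half_pos hr, fun x hx w hw => ?_⟩
    have hd : ∀ t : ℂ, ‖t‖ ≤ 1 → x + t • w ∈ V := fun t ht =>
      hb (by simpa [mul_div_cancel₀] using disc_subset hx hw ht)
    rw [he x (by simpa using hd 0 (by simp)), dav_congr (g := g) fun t ht => he _ (hd t ht.le)]
    exact cp_le_dav hV hg hd

open Classical in
/-- the maximum of `w` and `T` in a ball, `w` outside -/
def gl (x : Cn n) (ρ : ℝ) (w T : Cn n → ℝ) (y : Cn n) : ℝ :=
  if y ∈ ball x ρ then max (w y) (T y) else w y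

theorem gl_in {x y : Cn n} {ρ : ℝ} (w T : Cn n → ℝ) (h : y ∈ ball x ρ) :
    gl x ρ w T y = max (w y) (T y) := if_pos h

theorem gl_out {x y : Cn n} {ρ : ℝ} (w T : Cn n → ℝ) (h : y ∉ ball x ρ) : gl x ρ w T y = w y :=
  if_neg h

theorem gl_eq {x y : Cn n} {ρ : ℝ} {w T : Cn n → ℝ} (h : y ∈ ball x ρ → T y ≤ w y) :
    gl x ρ w T y = w y := by
  by_cases hy : y ∈ ball x ρ
  · rw [gl_in _ _ hy, max_eq_left (h hy)]
  · exact gl_out _ _ hy

theorem gl_le {x y : Cn n} {ρ c : ℝ} {w T : Cn n → ℝ} (h0 : w y ≤ c) (h : y ∈ ball x ρ → T y ≤ c) :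
    gl x ρ w T y ≤ c := by
  by_cases hy : y ∈ ball x ρ
  · rw [gl_in _ _ hy]; exact max_le h0 (h hy)
  · rw [gl_out _ _ hy]; exact h0

theorem cp_glue {W : Set (Cn n)} (hW : IsOpen W) {w T : Cn n → ℝ} (hw : CP W w) {x : Cn n}
    {ρ ρ' : ℝ} (hB : ball x ρ ⊆ W) (hT : CP (ball x ρ) T) (hρ : ρ' < ρ)
    (h : ∀ y ∈ ball x ρ, ρ' < ‖y - x‖ → T y ≤ w y) : CP W (gl x ρ w T) := by
  refine cp_of_loc fun z hz => ?_
  by_cases h1 : z ∈ ball x ρ
  · exact ⟨_, _, isOpen_ball, h1, cp_max isOpen_ball (hw.mono hB) hT, fun y hy => gl_in _ _ hy⟩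
  · refine ⟨W ∩ {y | ρ' < ‖y - x‖}, w, hW.inter (isOpen_lt continuous_const (by fun_prop)),
      ⟨hz, ?_⟩, hw.mono inter_subset_left, fun y hy => gl_eq fun h2 => h y h2 hy.2⟩
    rw [mem_ball, dist_eq_norm, not_lt] at h1
    exact hρ.trans_le h1

/-! ### envelopes -/

/-- continuous with sub-mean values on all discs -/
structure GP (f : Cn n → ℝ) : Prop where
  cont : Continuous f
  sub : ∀ x v, f x ≤ dav f x v

theorem GP.cp {f : Cn n → ℝ} (h : GP f) (O : Set (Cn n)) : CP O f :=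
  ⟨h.cont.continuousOn, fun _ _ => ⟨1, one_pos, fun x _ v _ => h.sub x v⟩⟩

theorem GP.of_cp {f : Cn n → ℝ} (h : CP univ f) : GP f :=
  ⟨continuousOn_univ.1 h.1, fun _ _ => cp_le_dav isOpen_univ h fun _ _ => mem_univ _⟩

theorem GP.comb {f g : Cn n → ℝ} (hf : GP f) (hg : GP g) {s t : ℝ} (hs : 0 ≤ s) (ht : 0 ≤ t)
    (a b : Cn n) (c : ℝ) : GP fun y => s * f (y + a) + t * g (y + b) + c := by
  have h1 := hf.cont
  have h2 := hg.cont
  refine ⟨by fun_prop, fun x v => ?_⟩
  have e : dav (fun y => s * f (y + a) + t * g (y + b) + c) x v =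
      s * dav f (x + a) v + t * dav g (x + b) v + c := by
    have i1 := (cint' h1 (x + a) v).const_smul (a := s)
    have i2 := (cint' h2 (x + b) v).const_smul (a := t)
    unfold dav
    rw [← smul_eq_mul s, ← smul_eq_mul t, ← circleAverage_smul, ← circleAverage_smul,
      ← circleAverage_add i1 i2, ← circleAverage_const c 0 1,
      ← circleAverage_add (i1.add i2) (circleIntegrable_const c 0 1), circleAverage_const]
    congr 1
    funext w
    simp only [Pi.add_apply, Pi.smul_apply, smul_eq_mul, add_right_comm x]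
  rw [e]
  have := mul_le_mul_of_nonneg_left (hf.sub (x + a) v) hs
  have := mul_le_mul_of_nonneg_left (hg.sub (x + b) v) ht
  linarith

theorem GP.add_const {f : Cn n → ℝ} (hf : GP f) (c : ℝ) : GP fun y => f y + c := by
  simpa using hf.comb hf zero_le_one le_rfl 0 0 c

/-- the envelope -/
def env (v : Cn n → ℝ) (z : Cn n) : ℝ := sSup ((fun ψ : Cn n → ℝ => ψ z) '' {ψ | GP ψ ∧ ψ ≤ v})

theorem le_env {v ψ : Cn n → ℝ} (hψ : GP ψ) (h : ψ ≤ v) (z : Cn n) : ψ z ≤ env v z :=
  le_csSup ⟨v z, by rintro _ ⟨χ, hχ, rfl⟩; exact hχ.2 z⟩ ⟨ψ, ⟨hψ, h⟩, rfl⟩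

theorem env_le {v : Cn n → ℝ} (h0 : ∃ ψ, GP ψ ∧ ψ ≤ v) (z : Cn n) : env v z ≤ v z :=
  csSup_le (Nonempty.image _ h0) (by rintro _ ⟨χ, hχ, rfl⟩; exact hχ.2 z)

theorem exists_env {v : Cn n → ℝ} (h0 : ∃ ψ, GP ψ ∧ ψ ≤ v) (z : Cn n) {ε : ℝ} (hε : 0 < ε) :
    ∃ ψ, GP ψ ∧ ψ ≤ v ∧ env v z - ε < ψ z := by
  obtain ⟨_, ⟨ψ, hψ, rfl⟩, h⟩ := exists_lt_of_lt_csSup (Nonempty.image _ h0)
    (sub_lt_self (env v z) hε)
  exact ⟨ψ, hψ.1, hψ.2, h⟩

theorem env_sc {v : Cn n → ℝ} (h0 : ∃ ψ, GP ψ ∧ ψ ≤ v) {C : ℝ} (hv : SC C v) : SC C (env v) := by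
  intro a b s t hs ht h
  refine le_of_forall_pos_le_add fun ε hε => ?_
  obtain ⟨f, hf, hfv, h1⟩ := exists_env h0 a hε
  obtain ⟨g, hg, hgv, h2⟩ := exists_env h0 b hε
  set m := s • a + t • b with hm
  have h3 := le_env (hf.comb hg hs ht (a - m) (b - m) (-(C * (s * t * ‖a - b‖ ^ 2)))) (v := v)
    (fun y => by
      have h4 := hv (y + (a - m)) (y + (b - m)) s t hs ht h
      have e1 : s • (y + (a - m)) + t • (y + (b - m)) = (s + t) • (y - m) + m := by
        rw [hm]; module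
      have e2 : y + (a - m) - (y + (b - m)) = a - b := by abel
      rw [e1, e2, h, one_smul, sub_add_cancel] at h4
      have h5 := mul_le_mul_of_nonneg_left (hfv (y + (a - m))) hs
      have h6 := mul_le_mul_of_nonneg_left (hgv (y + (b - m))) ht
      change _ + _ + _ ≤ _
      linarith) m
  simp only [add_sub_cancel] at h3
  have h5 := mul_le_mul_of_nonneg_left h1.le hs
  have h6 := mul_le_mul_of_nonneg_left h2.le ht
  have e : ε = (s + t) * ε := by rw [h, one_mul]
  linarith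

theorem env_gp {v : Cn n → ℝ} (h0 : ∃ ψ, GP ψ ∧ ψ ≤ v) (hc : Continuous (env v)) : GP (env v) := by
  refine ⟨hc, fun x w => le_of_forall_pos_le_add fun ε hε => ?_⟩
  obtain ⟨f, hf, hfv, h1⟩ := exists_env h0 x hε
  have h2 := dav_le (cint' hf.cont x w) (cint' hc x w) (c := 0) fun t _ => by
    simpa using le_env hf hfv _
  linarith [hf.sub x w]

/-! ### quadratic polynomials and the bump -/

theorem gp_quad (x : Cn n) (a : ℝ) (G : Cn n →L[ℝ] ℝ) (B : Cn n →L[ℝ] Cn n →L[ℝ] ℝ)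
    (hB : ∀ v, 0 ≤ B v v + B (I • v) (I • v)) : GP fun y => a + G (y - x) + B (y - x) (y - x) := by
  have h1 : ∀ y, HasFDerivAt (fun y => a + G (y - x) + B (y - x) (y - x))
      (G + (B + B.flip) (y - x)) y := fun y => by
    have h2 : HasFDerivAt (fun y => y - x) (ContinuousLinearMap.id ℝ (Cn n)) y :=
      (hasFDerivAt_id y).sub_const x
    refine (((G.hasFDerivAt.comp y h2).const_add a).add
      ((B.hasFDerivAt.comp y h2).clm_apply h2)).congr_fderiv ?_
    ext h
    simp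
  have e : fderiv ℝ (fun y => a + G (y - x) + B (y - x) (y - x)) =
      fun y => G + (B + B.flip) (y - x) := funext fun y => (h1 y).fderiv
  have h2 : ∀ y, fderiv ℝ (fun y => G + (B + B.flip) (y - x)) y = B + B.flip := fun y => by
    have := (((B + B.flip).hasFDerivAt.comp y ((hasFDerivAt_id y).sub_const x)).const_add G).fderiv
    simp only [ContinuousLinearMap.comp_id] at this
    exact this
  have hs : ContDiff ℝ 2 fun y => a + G (y - x) + B (y - x) (y - x) := by fun_prop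
  refine ⟨hs.continuous, fun y v => ?_⟩
  have h3 := le_dav_of_lvE (f := fun y => a + G (y - x) + B (y - x) (y - x)) (z := y) (v := v)
    (c := 0) fun w _ => ⟨hs.contDiffAt, by
      unfold lvE
      rw [e, h2]
      simp only [_root_.add_apply, ContinuousLinearMap.flip_apply]
      linarith [hB v]⟩
  rwa [add_zero] at h3

/-- the real inner product as a bilinear map -/
def inn (n : ℕ) : Cn n →L[ℝ] Cn n →L[ℝ] ℝ := innerSL ℝ

theorem inn_self (w : Cn n) : inn n w w = ‖w‖ ^ 2 := real_inner_self_eq_norm_sq w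

theorem gp_nsq (x : Cn n) {A : ℝ} (hA : 0 ≤ A) (m : ℝ) : GP fun y => A * ‖y - x‖ ^ 2 + m := by
  have h1 : ∀ w : Cn n, (A • inn n) w w = A * ‖w‖ ^ 2 := fun w => by
    rw [← inn_self]; rfl
  have h2 := gp_quad x m 0 (A • inn n) fun v => by rw [h1, h1]; positivity
  simp only [h1, _root_.zero_apply, add_zero] at h2
  simpa only [add_comm m] using h2

theorem exists_deg {w : Cn n → ℝ} (hw : GP w) (hd : Differentiable ℝ w) {x : Cn n}
    (hx : DifferentiableAt ℝ (fderiv ℝ w) x) {δ r : ℝ} (hδ : 0 < δ) (hr : 0 < r)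
    (hmax : ∀ ψ, GP ψ → (∀ y, y ∉ ball x r → ψ y = w y) → (∀ y, ψ y ≤ w y + δ) → ψ x ≤ w x) :
    ∃ v, v ≠ 0 ∧ lvE w x v ≤ 0 := by
  by_contra hcon
  push Not at hcon
  obtain ⟨c, hc, h1⟩ := (isCompact_sphere (0 : Cn n) 1).exists_forall_le' (f := lvE w x)
    (by unfold lvE; fun_prop) fun v hv => hcon v (ne_zero_of_mem_unit_sphere ⟨v, hv⟩)
  have h2 : ∀ v, c * ‖v‖ ^ 2 ≤ lvE w x v := fun v => by
    rcases eq_or_ne v 0 with rfl | hv
    · simp [lvE]
    have h3 := h1 (‖v‖⁻¹ • v) (by simp [norm_smul, hv])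
    have h4 : 0 < ‖v‖ := norm_pos_iff.2 hv
    rw [lvE_smul, inv_pow, ← div_eq_inv_mul, le_div_iff₀ (by positivity)] at h3
    exact h3
  -- two sided Taylor expansion
  obtain ⟨ρ₀, hρ₀, h3⟩ := taylor2 hd hx (ε := c / 4) (by positivity)
  obtain ⟨ρ, hρ, a1, a2, a3⟩ : ∃ ρ : ℝ, 0 < ρ ∧ ρ ≤ ρ₀ ∧ ρ ≤ r ∧ c * ρ ^ 2 ≤ δ := by
    have h4 : Tendsto (fun ρ : ℝ => c * ρ ^ 2) (𝓝[>] 0) (𝓝 0) :=
      tendsto_nhdsWithin_of_tendsto_nhds
        ((by fun_prop : Continuous fun ρ : ℝ => c * ρ ^ 2).tendsto' 0 0 (by simp))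
    have h5 : ∀ {a : ℝ}, 0 < a → ∀ᶠ ρ in 𝓝[>] (0 : ℝ), ρ ≤ a := fun ha =>
      nhdsWithin_le_nhds (ge_mem_nhds ha)
    obtain ⟨ρ, ⟨b1, b2, b3⟩, b4⟩ := (((h5 hρ₀).and ((h5 hr).and
      (h4.eventually (ge_mem_nhds hδ)))).and self_mem_nhdsWithin).exists
    exact ⟨ρ, b4, b1, b2, b3⟩
  set H := fderiv ℝ (fderiv ℝ w) x with hH
  have e : ∀ v : Cn n, ((1 / 2 : ℝ) • H - c • inn n) v v = H v v / 2 - c * ‖v‖ ^ 2 := fun v => by
    rw [← inn_self]
    change (1 / 2 : ℝ) * H v v - c * inn n v v = _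
    ring
  have hT := gp_quad x (w x + c * ρ ^ 2 / 2) (fderiv ℝ w x)
    ((1 / 2 : ℝ) • H - c • inn n) fun v => by
      have h4 := h2 v
      unfold lvE at h4
      rw [e, e, norm_smul, Complex.norm_I, one_mul]
      linarith
  simp only [e] at hT
  have h4 : ∀ y ∈ ball x ρ, w x + c * ρ ^ 2 / 2 + fderiv ℝ w x (y - x) +
      (H (y - x) (y - x) / 2 - c * ‖y - x‖ ^ 2) ≤ w y + c * (ρ ^ 2 / 2 - 3 / 4 * ‖y - x‖ ^ 2) := by
    intro y hy
    have h5 := h3 (y - x) ((mem_ball_iff_norm.1 hy).trans_le a1)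
    rw [add_sub_cancel] at h5
    linarith
  have h5 := hmax _ (GP.of_cp (cp_glue isOpen_univ (hw.cp _) (subset_univ _) (hT.cp (ball x ρ))
    (ρ' := 9 / 10 * ρ) (by linarith) fun y hy hy' => by
      have h6 := h4 y hy
      have h7 : (9 / 10 * ρ) ^ 2 ≤ ‖y - x‖ ^ 2 := by gcongr
      have h8 : c * (ρ ^ 2 / 2 - 3 / 4 * ‖y - x‖ ^ 2) ≤ 0 :=
        mul_nonpos_of_nonneg_of_nonpos hc.le (by nlinarith)
      linarith))
    (fun y hy => gl_out _ _ fun h6 => hy (ball_subset_ball a2 h6))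
    fun y => gl_le (by linarith) fun hy => by
      have h6 := h4 y hy
      have h7 : 0 ≤ c * ‖y - x‖ ^ 2 := by positivity
      have h8 : 0 ≤ c * ρ ^ 2 := by positivity
      linarith
  rw [gl_in _ _ (mem_ball_self hρ)] at h5
  have h6 := (le_max_right _ _).trans h5
  have h7 : 0 < c * ρ ^ 2 := by positivity
  simp only [sub_self, map_zero, norm_zero] at h6
  linarith

/-! ### mollification -/

/-- the bump functions -/
def bf (j : ℕ) : ContDiffBump (0 : Cn n) :=
  ⟨1 / ((j : ℝ) + 1) / 2, 1 / ((j : ℝ) + 1), by positivity, half_lt_self (by positivity)⟩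

theorem bf_lim : Tendsto (fun j => (bf (n := n) j).rOut) atTop (𝓝 0) :=
  tendsto_one_div_add_atTop_nhds_zero_nat

theorem sm_cv (φ : ContDiffBump (0 : Cn n)) {w : Cn n → ℝ} (hw : Continuous w) :
    ContDiff ℝ ∞ (cv volume φ w) :=
  φ.hasCompactSupport_normed.contDiff_convolution_left _ φ.contDiff_normed hw.locallyIntegrable

theorem GP.sp_cv {w : Cn n → ℝ} (hw : GP w) (φ : ContDiffBump (0 : Cn n)) :
    Sp univ (cv volume φ w) := by
  have hs := sm_cv φ hw.cont
  refine ⟨hs, fun z _ => CP.psd (O := univ) (GP.cp ⟨hs.continuous, fun x v => ?_⟩ _) (mem_univ _)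
    hs.contDiffAt⟩
  simpa using conv_le (μ := volume) φ hw.cont (x := x) (v := v) (c := 0) fun t _ => by
    simpa using hw.sub _ v

theorem diff2_cv {w : Cn n → ℝ} (hw : Continuous w) {C : ℝ}
    (h : ∀ x h, w (x + h) + w (x - h) - 2 * w x ≤ C * ‖h‖ ^ 2) (φ : ContDiffBump (0 : Cn n))
    (x v : Cn n) : fderiv ℝ (fderiv ℝ (cv volume φ w)) x v v ≤ C * ‖v‖ ^ 2 := by
  have h1 : ∀ h, cv volume φ w (x + h) + cv volume φ w (x - h) - 2 * cv volume φ w x ≤
      C * ‖h‖ ^ 2 := fun a => by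
    have i : ∀ y : Cn n, Integrable fun t => φ.normed volume t * w (y - t) := fun y =>
      integrable_mul_bump φ (by fun_prop)
    have e : C * ‖a‖ ^ 2 = ∫ t, φ.normed volume t * (C * ‖a‖ ^ 2) := by
      rw [integral_mul_const, φ.integral_normed, one_mul]
    simp only [cv, conv_apply]
    have i2 : Integrable fun t => φ.normed volume t * w (x + a - t) +
      φ.normed volume t * w (x - a - t) := (i _).add (i _)
    rw [e, ← integral_add (i _) (i _), ← integral_const_mul, ← integral_sub i2 ((i _).const_mul _)]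
    refine integral_mono (i2.sub ((i _).const_mul _)) (φ.integrable_normed.mul_const _) fun t => ?_
    have h2 := mul_le_mul_of_nonneg_left (h (x - t) a) (φ.nonneg_normed (μ := volume) t)
    simp only [add_sub_right_comm x a t, sub_right_comm x a t]
    linarith
  refine le_of_forall_pos_le_add fun ε hε => ?_
  have h2 := (symm2 ((sm_cv φ hw).contDiffAt.of_le (WithTop.coe_le_coe.2 le_top) (x := x))).bound
    (show 0 < ε / (‖v‖ ^ 2 + 1) by positivity)
  have h3 : Tendsto (fun s : ℝ => s • v) (𝓝[>] 0) (𝓝 0) :=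
    tendsto_nhdsWithin_of_tendsto_nhds
      ((by fun_prop : Continuous fun s : ℝ => s • v).tendsto' 0 0 (by simp))
  obtain ⟨s, h4, hs⟩ := ((h3.eventually h2).and self_mem_nhdsWithin).exists
  have hs' : 0 < s ^ 2 := pow_pos hs 2
  have h5 := h1 (s • v)
  have h6 := (abs_le.1 h4).1
  have h7 : ε / (‖v‖ ^ 2 + 1) * ‖v‖ ^ 2 ≤ ε := by
    rw [div_mul_eq_mul_div, div_le_iff₀ (by positivity)]
    nlinarith
  simp only [map_smul, _root_.smul_apply, smul_eq_mul, norm_smul, mul_pow, Real.norm_eq_abs, sq_abs,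
    abs_mul, abs_pow, abs_norm] at h5 h6
  rw [← mul_le_mul_iff_right₀ hs']
  nlinarith

theorem GP.c11 {w : Cn n → ℝ} (hw : GP w) {C : ℝ} (hC : 0 ≤ C) (hs : SC C w) :
    Differentiable ℝ w ∧ ∃ K, LipschitzWith K (fderiv ℝ w) := by
  refine Bal.c11 (f := fun j => cv volume (bf j) w)
    (fun j => (sm_cv _ hw.cont).of_le (WithTop.coe_le_coe.2 le_top)) (C := 2 * C) (by positivity)
    (fun j y h => ?_) fun x => ContDiffBump.convolution_tendsto_right_of_continuous bf_lim hw.cont x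
  have h1 := diff2_cv hw.cont hs.diff2 (bf j) y h
  have h2 := diff2_cv hw.cont hs.diff2 (bf j) y (I • h)
  have h3 := (psd_iff (sm_cv _ hw.cont).contDiffAt).1 ((hw.sp_cv (bf j)).2 y (mem_univ _)) h
  rw [norm_smul, Complex.norm_I, one_mul] at h2
  unfold lvE at h3
  rw [abs_le]
  constructor <;> linarith

/-- the complex Hessian as a function of the second derivative -/
def hs (H : Cn n →L[ℝ] Cn n →L[ℝ] ℝ) : MC n := Matrix.of fun a b =>
  1 / 4 * ((H (EuclideanSpace.single a 1) (EuclideanSpace.single b 1) : ℂ) +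
    I * H (EuclideanSpace.single a 1) (EuclideanSpace.single b I) -
    I * H (EuclideanSpace.single a I) (EuclideanSpace.single b 1) +
    H (EuclideanSpace.single a I) (EuclideanSpace.single b I))

theorem hess_eq_hs {u : Cn n → ℝ} {z : Cn n} (hu : ContDiffAt ℝ ∞ u z) :
    hess u z = hs (fderiv ℝ (fderiv ℝ u) z) := by
  ext a b
  rw [hess_apply, wd, fderiv_wd (contDiffAt_cu hu)]
  simp only [wdL, ContinuousLinearMap.comp_apply, wdLc_apply, fderiv2_cu hu, cI, hs, Matrix.of_apply,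
    smul_eq_mul, cond_true, cond_false]
  linear_combination (-1 / 4 : ℂ) * (fderiv ℝ (fderiv ℝ u) z (EuclideanSpace.single a I)
    (EuclideanSpace.single b I) : ℂ) * I_mul_I

theorem cont_hs : Continuous (hs (n := n)) :=
  continuous_matrix fun a b => by simp only [hs, Matrix.of_apply]; fun_prop

theorem exists_bd_ball {F : Type*} [NormedAddCommGroup F] [NormedSpace ℝ F] [FiniteDimensional ℝ F]
    {f : F → ℝ} (hf : Continuous f) (K : ℝ) : ∃ B, ∀ H : F, ‖H‖ ≤ K → ‖f H‖ ≤ B := by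
  have := FiniteDimensional.proper ℝ F
  obtain ⟨B, hB⟩ := (isCompact_closedBall (0 : F) K).exists_bound_of_continuousOn hf.continuousOn
  exact ⟨B, fun H h => hB H (mem_closedBall_zero_iff.2 h)⟩

theorem tendsto_int {w : Cn n → ℝ} (hw : GP w) (hd : Differentiable ℝ w) {K : ℝ≥0}
    (hK : LipschitzWith K (fderiv ℝ w)) {U : Set (Cn n)} {φ : Cn n → ℝ} (hφ : Tst U φ)
    (hdeg : ∀ x ∈ U, DifferentiableAt ℝ (fderiv ℝ w) x → ∃ v, v ≠ 0 ∧ lvE w x v ≤ 0) :
    Tendsto (fun j => ∫ z, φ z * mh (fun _ => cv volume (bf j) w) z) atTop (𝓝 0) := by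
  set F : (Cn n →L[ℝ] Cn n →L[ℝ] ℝ) → ℝ := fun H => n.factorial * (hs H).det.re with hF
  have hFc : Continuous F := continuous_const.mul (continuous_re.comp cont_hs.matrix_det)
  have hsm : ∀ j, ContDiff ℝ ∞ (cv volume (bf j) w) := fun j => sm_cv _ hw.cont
  have e : ∀ j z, mh (fun _ => cv volume (bf j) w) z =
      F (fderiv ℝ (fderiv ℝ (cv volume (bf j) w)) z) := fun j z => by
    rw [mh_same, hess_eq_hs (hsm j).contDiffAt]
  obtain ⟨B, hB⟩ := exists_bd_ball (F := Cn n →L[ℝ] Cn n →L[ℝ] ℝ) hFc K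
  have h0 : (0 : ℝ) = ∫ _ : Cn n, (0 : ℝ) := by simp
  rw [h0]
  refine tendsto_integral_of_dominated_convergence (fun z => ‖φ z‖ * B)
    (fun j => (hφ.cont.mul (cont_mh fun _ => hsm j)).aestronglyMeasurable)
    ((hφ.cont.integrable_of_hasCompactSupport hφ.cpt).norm.mul_const _)
    (fun j => Eventually.of_forall fun z => ?_) ?_
  · rw [norm_mul, e]
    refine mul_le_mul_of_nonneg_left (hB _ ?_) (norm_nonneg _)
    rw [fderiv2_conv _ hd hK]
    exact norm_conv_le _ (fun y => norm_fderiv_le_of_lipschitz ℝ hK) z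
  · filter_upwards [hK.ae_differentiableAt (μ := volume),
      ContDiffBump.ae_convolution_tendsto_right_of_locallyIntegrable (φ := bf) (K := 2) bf_lim
        (Eventually.of_forall fun j => by simp only [bf]; linarith)
        (locInt_fderiv (μ := volume) hK)] with z h1 h2
    by_cases hz : z ∈ U
    swap
    · simp [hφ.zero_off hz]
    obtain ⟨v, hv, h3⟩ := hdeg z hz h1
    have h4 : Tendsto (fun j => fderiv ℝ (fderiv ℝ (cv volume (bf j) w)) z) atTop
        (𝓝 (fderiv ℝ (fderiv ℝ w) z)) := h2.congr fun j => (fderiv2_conv _ hd hK z).symm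
    set H := fderiv ℝ (fderiv ℝ w) z with hH
    have h5 : Tendsto (fun j => hess (cv volume (bf j) w) z) atTop (𝓝 (hs H)) :=
      ((cont_hs.tendsto _).comp h4).congr fun j => (hess_eq_hs (hsm j).contDiffAt).symm
    have hq : ∀ y, Tendsto (fun j => qf (hess (cv volume (bf j) w) z) y) atTop (𝓝 (qf (hs H) y)) :=
      fun y => ((continuous_re.comp (continuous_const.dotProduct
        (continuous_id.matrix_mulVec continuous_const))).tendsto _).comp h5
    have h6 : (hs H).IsHermitian :=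
      tendsto_nhds_unique (((continuous_id.matrix_conjTranspose.tendsto _).comp h5).congr
        fun j => (hess_herm (hsm j).contDiffAt).eq) h5
    have h7 : (hs H).PosSemidef := psd_of_qf h6 fun y =>
      ge_of_tendsto' (hq y) fun j => qf_nonneg ((hw.sp_cv _).2 z (mem_univ _)) y
    have h8 : qf (hs H) (R281.Rich_710.jc v) = lvE w z v := by
      refine tendsto_nhds_unique (hq _) ?_
      simp only [fun j => qf_hess (hsm j).contDiffAt (z := z) (R281.Rich_710.jc v), cj_jc]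
      unfold lvE
      exact (((by fun_prop : Continuous fun H : Cn n →L[ℝ] Cn n →L[ℝ] ℝ =>
        1 / 4 * (H v v + H (I • v) (I • v))).tendsto _).comp h4)
    have h9 : (hs H).det = 0 := by
      refine Matrix.exists_mulVec_eq_zero_iff.1 ⟨R281.Rich_710.jc v, fun h => hv ?_, ?_⟩
      · rw [← cj_jc v, h]; ext a; simp [R281.Rich_710.cj]
      · rw [← h7.dotProduct_mulVec_zero_iff, qf_eq h6,
          le_antisymm (h8.trans_le h3) (qf_nonneg h7 _), ofReal_zero]
    have h10 := ((hFc.tendsto _).comp h4).const_mul (φ z)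
    simp only [hF, h9, zero_re, mul_zero] at h10
    simp only [e]
    exact h10

/-- smooth psh approximations with small Monge-Ampere mass -/
theorem exists_small {W : Set (Cn n)} (hW : IsOpen W) {u : Cn n → ℝ} (hu : CP W u) {x : Cn n}
    {r δ : ℝ} (hr : 0 < r) (hδ : 0 < δ) (hB : closedBall x r ⊆ W)
    (hmax : ∀ v, CP W v → (∀ z ∈ W, z ∉ ball x r → v z = u z) → (∀ z ∈ W, v z ≤ u z + δ) →
      ∀ z ∈ W, v z ≤ u z)
    {φ : Cn n → ℝ} (hφ : Tst (ball x (r / 8)) φ) {ε : ℝ} (hε : 0 < ε) :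
    ∃ s, Sp univ s ∧ (∀ z ∈ ball x (r / 8), |s z - u z| ≤ ε) ∧ |∫ z, φ z * mh (fun _ => s) z| ≤ ε := by
  obtain ⟨M, hM⟩ := (isCompact_closedBall x r).exists_bound_of_continuousOn (hu.1.mono hB)
  have hM0 : 0 ≤ M := (norm_nonneg _).trans (hM x (mem_closedBall_self hr.le))
  have hM' : ∀ y ∈ ball x r, -M ≤ u y ∧ u y ≤ M := fun y hy =>
    abs_le.1 (hM y (ball_subset_closedBall hy))
  obtain ⟨A, hA, hAM⟩ : ∃ A : ℝ, 0 ≤ A ∧ A * r ^ 2 = 8 * M := ⟨8 * M / r ^ 2, by positivity, by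
    field_simp⟩
  have hbW : ∀ {ρ}, ρ ≤ r → ball x ρ ⊆ W := fun h =>
    (ball_subset_ball h).trans (ball_subset_closedBall.trans hB)
  set q : Cn n → ℝ := fun y => A * ‖y - x‖ ^ 2 + -(3 * M) with hq
  have hqg : GP q := gp_nsq x hA _
  have hut : GP (gl x r q u) := GP.of_cp (cp_glue isOpen_univ (hqg.cp _) (subset_univ _)
    (hu.mono (hbW le_rfl)) (ρ' := 3 / 4 * r) (by linarith) fun y hy hy' => by
      have h1 : A * (3 / 4 * r) ^ 2 ≤ A * ‖y - x‖ ^ 2 := by gcongr
      have h2 := (hM' y hy).2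
      simp only [hq]
      nlinarith)
  set ut := gl x r q u with hutd
  have hue : ∀ y ∈ ball x (r / 2), ut y = u y := fun y hy => by
    have hy' : y ∈ ball x r := ball_subset_ball (by linarith) hy
    rw [hutd, gl_in _ _ hy', max_eq_right]
    have h1 : A * ‖y - x‖ ^ 2 ≤ A * (r / 2) ^ 2 := by
      have := (mem_ball_iff_norm.1 hy).le
      gcongr
    have h2 := (hM' y hy').1
    simp only [hq]
    nlinarith
  let β : ContDiffBump x := ⟨r / 8, r / 4, by positivity, by linarith⟩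
  have hβ0 : ∀ y, r / 4 ≤ ‖y - x‖ → β y = 0 := fun y hy =>
    β.zero_of_le_dist (by rwa [dist_eq_norm])
  have hβ1 : ∀ y, δ * β y ≤ δ := fun y => mul_le_of_le_one_right hδ.le β.le_one
  have hβ2 : ∀ y, 0 ≤ δ * β y := fun y => mul_nonneg hδ.le β.nonneg
  have hbc : Continuous fun y => ut y + δ * β y - q y :=
    (hut.cont.add (continuous_const.mul β.continuous)).sub hqg.cont
  have hbs : HasCompactSupport fun y => ut y + δ * β y - q y :=
    HasCompactSupport.intro (isCompact_closedBall x r) fun y hy => by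
      rw [hutd, gl_out _ _ fun h => hy (ball_subset_closedBall h), hβ0 y (by
        rw [mem_closedBall, dist_eq_norm, not_le] at hy; linarith)]
      ring
  obtain ⟨B, hB'⟩ := hbc.bounded_above_of_compact_support hbs
  obtain ⟨η, hη, hη1, hη2⟩ : ∃ η : ℝ, 0 < η ∧ 2 * η ≤ ε ∧ 4 * η ≤ δ :=
    ⟨min (ε / 2) (δ / 4), by positivity, by linarith [min_le_left (ε / 2) (δ / 4)],
      by linarith [min_le_right (ε / 2) (δ / 4)]⟩
  obtain ⟨C, g, hC, hg, hgb⟩ := exists_sc (hbs.uniformContinuous_of_continuous hbc) hB' hη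
  set v : Cn n → ℝ := fun y => q y + g y with hv
  have hv1 : ∀ y, ut y + δ * β y - η ≤ v y := fun y => by
    have := (abs_le.1 (hgb y)).1
    simp only [hv]; linarith
  have hv2 : ∀ y, v y ≤ ut y + δ * β y + η := fun y => by
    have := (abs_le.1 (hgb y)).2
    simp only [hv]; linarith
  have hl : (fun y => ut y + -η) ≤ v := fun y => by
    have := hv1 y
    have := hβ2 y
    change _ + _ ≤ _
    linarith
  have h0 : ∃ ψ, GP ψ ∧ ψ ≤ v := ⟨_, hut.add_const _, hl⟩
  have hsc : SC (A + C) (env v) := env_sc h0 ((sc_nsq A _ x).add hg)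
  have hw : GP (env v) := env_gp h0 hsc.cont
  obtain ⟨hd, K, hK⟩ := hw.c11 (add_nonneg hA hC) hsc
  have hw1 : ∀ y ∈ ball x (r / 2), u y - η ≤ env v y := fun y hy => by
    have := le_env (hut.add_const _) hl y
    rw [hue y hy] at this
    linarith
  have hw2 : ∀ y ∈ ball x (r / 2), env v y ≤ u y + η := fun y hy => by
    have h1 := hmax _ (cp_glue hW hu (hbW (by linarith)) ((hw.add_const (-η)).cp (ball x (r / 2)))
      (ρ' := r / 4) (by linarith) fun z hz hz' => by
        have h1 := env_le h0 z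
        have h2 := hv2 z
        rw [hue z hz, hβ0 z hz'.le] at h2
        linarith)
      (fun z _ hz => gl_out _ _ fun h => hz (ball_subset_ball (by linarith) h))
      (fun z _ => gl_le (by linarith) fun hz => by
        have h1 := env_le h0 z
        have h2 := hv2 z
        rw [hue z hz] at h2
        linarith [hβ1 z]) y (hbW (by linarith) hy)
    rw [gl_in _ _ hy] at h1
    linarith [(le_max_right _ _).trans h1]
  have h1 := tendsto_int hw hd hK hφ fun y hy hy' => by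
    obtain ⟨ρ, hρ, hb⟩ := Metric.isOpen_iff.1 isOpen_ball y hy
    refine exists_deg hw hd hy' (half_pos hδ) hρ fun ψ hψ h1 h2 => le_env hψ (fun z => ?_) y
    by_cases hz : z ∈ ball y ρ
    · have h3 : z ∈ ball x (r / 2) := ball_subset_ball (by linarith) (hb hz)
      have h4 := hv1 z
      rw [hue z h3, β.one_of_mem_closedBall (ball_subset_closedBall (hb hz))] at h4
      linarith [h2 z, hw2 z h3]
    · rw [h1 z hz]; exact env_le h0 z
  obtain ⟨ρ, hρ, h2⟩ := unif_near (isCompact_closedBall x (r / 8))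
    (fun a _ => hw.cont.continuousAt) hη
  obtain ⟨j, h3, h4⟩ := ((h1.eventually (closedBall_mem_nhds _ hε)).and
    (bf_lim (n := n).eventually (gt_mem_nhds hρ))).exists
  refine ⟨_, hw.sp_cv (bf j), fun z hz => ?_, by simpa [Real.dist_eq] using h3⟩
  have h5 := (bf j).dist_normed_convolution_le (μ := volume) (x₀ := z)
    hw.cont.aestronglyMeasurable fun y hy =>
      h2 z (ball_subset_closedBall hz) y (ball_subset_ball h4.le hy)
  have h6 : z ∈ ball x (r / 2) := ball_subset_ball (by linarith) hz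
  rw [Real.dist_eq, abs_le] at h5
  rw [abs_le]
  constructor <;> linarith [h5.1, h5.2, hw1 z h6, hw2 z h6]

end

end Crest.Agent.X261.BT.Bal
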