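import Crest.Agent.R281.Rich2_710

/-!
# X261 / BT (helper21): algebra of continuous psh functions on a complex normed space

All statements are about `PshL D f` together with `ContinuousOn f D`, `D` open.
-/

set_option autoImplicit false
set_option linter.unusedSectionVars false

open Set Filter Topology Metric Real
open scoped ContDiff

namespace Crest.Agent.X261.BT.PL

open Crest.Agent.R281.Rich_710
open Crest.Agent.R257.HoB_843 (lvE lvE_comp)

noncomputable section

variable {E : Type*} [NormedAddCommGroup E] [NormedSpace ℂ E] {D D' : Set E} {f g : E → ℝ}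
  {x v : E}

/-- the closed disc `x + 𝔻 v` lies in `D` -/
def In (D : Set E) (x v : E) : Prop := ∀ w : ℂ, ‖w‖ ≤ 1 → x + w • v ∈ D

theorem In.self (h : In D x v) : x ∈ D := by simpa using h 0 (by simp)

theorem In.mono (h : In D x v) (hD : D ⊆ D') : In D' x v := fun w hw => hD (h w hw)

theorem circ (hf : ContinuousOn f D) (h : In D x v) :
    CircleIntegrable (fun w : ℂ => f (x + w • v)) 0 1 := by
  have hl : Continuous fun w : ℂ => x + w • v := by fun_prop
  exact (hf.comp hl.continuousOn fun w hw => h w (by simpa using hw : ‖w‖ = 1).le).circleIntegrable'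

theorem dav_mono (hf : ContinuousOn f D) (hg : ContinuousOn g D) (h : In D x v)
    (hle : ∀ y ∈ D, f y ≤ g y) : dav f x v ≤ dav g x v :=
  circleAverage_mono (circ hf h) (circ hg h) fun w hw =>
    hle _ (h w (by simpa using hw : ‖w‖ = 1).le)

theorem dav_add (hf : ContinuousOn f D) (hg : ContinuousOn g D) (h : In D x v) :
    dav (fun y => f y + g y) x v = dav f x v + dav g x v :=
  circleAverage_fun_add (circ hf h) (circ hg h)

theorem dav_mul (c : ℝ) (f : E → ℝ) (x v : E) : dav (fun y => c * f y) x v = c * dav f x v :=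
  circleAverage_fun_smul (a := c) (f := fun w : ℂ => f (x + w • v))

theorem dav_const (c : ℝ) (x v : E) : dav (fun _ => c) x v = c := circleAverage_const c 0 1

theorem dav_add_const (hf : ContinuousOn f D) (h : In D x v) (c : ℝ) :
    dav (fun y => f y + c) x v = dav f x v + c := by
  rw [dav_add hf continuousOn_const h, dav_const]

theorem dav_le (hf : ContinuousOn f D) (h : In D x v) {c : ℝ}
    (hle : ∀ w : ℂ, ‖w‖ = 1 → f (x + w • v) ≤ c) : dav f x v ≤ c :=
  circleAverage_mono_on_of_le_circle (circ hf h) fun w hw => hle w (by simpa using hw)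

/-- small discs near a point of an open set -/
theorem small (hD : D ∈ 𝓝 x) : ∃ r > 0, ∀ y ∈ ball x r, ∀ v : E, ‖v‖ < r → In D y v := by
  obtain ⟨r, hr, hb⟩ := Metric.mem_nhds_iff.1 hD
  refine ⟨r / 2, half_pos hr, fun y hy v hv w hw => hb ?_⟩
  simpa [mul_div_cancel₀] using disc_subset hy hv hw

/-- a way to prove `PshL` : only discs inside a neighbourhood matter -/
theorem of_nhds (h : ∀ z ∈ D, ∃ W ∈ 𝓝 z, ∃ r > 0, ∀ y ∈ ball z r, ∀ v : E, ‖v‖ < r → In W y v →
    f y ≤ dav f y v) : PshL D f := by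
  intro z hz
  obtain ⟨W, hW, r, hr, h1⟩ := h z hz
  obtain ⟨s, hs, h2⟩ := small hW
  refine ⟨min r s, lt_min hr hs, fun y hy v hv => h1 y (ball_subset_ball (min_le_left _ _) hy) v
    (hv.trans_le (min_le_left _ _)) (h2 y (ball_subset_ball (min_le_right _ _) hy) v
      (hv.trans_le (min_le_right _ _)))⟩

theorem of_discs (hD : IsOpen D) (h : ∀ x v, In D x v → f x ≤ dav f x v) : PshL D f :=
  of_nhds fun z hz => ⟨D, hD.mem_nhds hz, 1, one_pos, fun y _ v _ h1 => h y v h1⟩

theorem two (hf : PshL D f) (hg : PshL D g) {z : E} (hz : z ∈ D) :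
    ∃ r > 0, ∀ y ∈ ball z r, ∀ v : E, ‖v‖ < r → f y ≤ dav f y v ∧ g y ≤ dav g y v := by
  obtain ⟨r, hr, h1⟩ := hf z hz
  obtain ⟨s, hs, h2⟩ := hg z hz
  exact ⟨min r s, lt_min hr hs, fun y hy v hv =>
    ⟨h1 y (ball_subset_ball (min_le_left _ _) hy) v (hv.trans_le (min_le_left _ _)),
      h2 y (ball_subset_ball (min_le_right _ _) hy) v (hv.trans_le (min_le_right _ _))⟩⟩

theorem const (c : ℝ) : PshL D fun _ => c :=
  fun _ _ => ⟨1, one_pos, fun y _ v _ => (dav_const c y v).ge⟩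

theorem add (hD : IsOpen D) (cf : ContinuousOn f D) (cg : ContinuousOn g D) (hf : PshL D f)
    (hg : PshL D g) : PshL D fun y => f y + g y := by
  refine of_nhds fun z hz => ?_
  obtain ⟨r, hr, h⟩ := two hf hg hz
  refine ⟨D, hD.mem_nhds hz, r, hr, fun y hy v hv hi => ?_⟩
  rw [dav_add cf cg hi]
  exact add_le_add (h y hy v hv).1 (h y hy v hv).2

theorem mul {c : ℝ} (hc : 0 ≤ c) (hf : PshL D f) : PshL D fun y => c * f y := by
  intro z hz
  obtain ⟨r, hr, h⟩ := hf z hz
  refine ⟨r, hr, fun y hy v hv => ?_⟩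
  rw [dav_mul]
  exact mul_le_mul_of_nonneg_left (h y hy v hv) hc

theorem max (hD : IsOpen D) (cf : ContinuousOn f D) (cg : ContinuousOn g D) (hf : PshL D f)
    (hg : PshL D g) : PshL D fun y => max (f y) (g y) := by
  refine of_nhds fun z hz => ?_
  obtain ⟨r, hr, h⟩ := two hf hg hz
  have cm : ContinuousOn (fun y => Max.max (f y) (g y)) D := cf.sup cg
  refine ⟨D, hD.mem_nhds hz, r, hr, fun y hy v hv hi => max_le ?_ ?_⟩
  · exact (h y hy v hv).1.trans (dav_mono cf cm hi fun _ _ => le_max_left _ _)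
  · exact (h y hy v hv).2.trans (dav_mono cg cm hi fun _ _ => le_max_right _ _)

/-- `PshL` is a local property of germs -/
theorem of_germ (h : ∀ z ∈ D, ∃ (W : Set E) (g : E → ℝ), z ∈ W ∧ PshL W g ∧ f =ᶠ[𝓝 z] g) :
    PshL D f := by
  refine of_nhds fun z hz => ?_
  obtain ⟨W, g, hW, hg, he⟩ := h z hz
  obtain ⟨r, hr, h1⟩ := hg z hW
  refine ⟨_, he, r, hr, fun y hy v hv hi => ?_⟩
  rw [show f y = g y from hi.self, dav_congr (g := g) fun w hw => hi w hw.le]
  exact h1 y hy v hv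

theorem congr (hD : IsOpen D) (hf : PshL D f) (h : ∀ y ∈ D, g y = f y) : PshL D g :=
  of_germ fun z hz => ⟨D, f, hz, hf, (eventually_of_mem (hD.mem_nhds hz) h)⟩

theorem of_local (h : ∀ z ∈ D, ∃ W : Set E, z ∈ W ∧ PshL W f) : PshL D f := fun z hz =>
  let ⟨_, hW, h1⟩ := h z hz
  h1 z hW

variable [NormedSpace ℝ E] [IsScalarTower ℝ ℂ E]

theorem of_lvE (hD : IsOpen D) (h : ∀ z ∈ D, ContDiffAt ℝ 2 f z ∧ ∀ v, 0 ≤ lvE f z v) :
    PshL D f :=
  of_discs hD fun x v hi => by
    simpa using le_dav_of_lvE (f := f) (z := x) (v := v) (c := 0) fun w hw =>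
      ⟨(h _ (hi w hw)).1, (h _ (hi w hw)).2 v⟩

theorem lvE_nonneg (hp : PshL D f) {z : E} (hz : z ∈ D) (hf : ContDiffAt ℝ 2 f z) (v : E) :
    0 ≤ lvE f z v := by
  obtain ⟨r, hr, h1⟩ := hp z hz
  refine lvE_nonneg_of_le hf ⟨r / (‖v‖ + 1), by positivity, fun s hs hsr => ?_⟩
  refine h1 z (mem_ball_self hr) _ ?_
  rw [norm_smul, Real.norm_of_nonneg hs.le]
  rw [lt_div_iff₀ (by positivity)] at hsr
  nlinarith [norm_nonneg v]

variable [FiniteDimensional ℝ E]

theorem approx (hD : IsOpen D) (cf : ContinuousOn f D) (hp : PshL D f) {K : Set E}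
    (hK : IsCompact K) (hKD : K ⊆ D) {τ : ℝ} (hτ : 0 < τ) :
    ∃ g : E → ℝ, ContDiff ℝ ∞ g ∧ (∀ x ∈ K, |g x - f x| ≤ τ) ∧ ∀ x ∈ K, ∀ v, 0 ≤ lvE g x v := by
  obtain ⟨g, h1, h2, h3, -⟩ := exists_moll hD cf hp hK hKD isOpen_empty (empty_subset _)
    (ρ := fun _ => 0) (by simp) (fun z hz => absurd hz (notMem_empty _)) isCompact_empty
    subset_rfl hτ
  exact ⟨g, h1, h2, h3⟩

/-- sub-mean value inequality along a holomorphic disc -/
theorem le_avg (hD : IsOpen D) (cf : ContinuousOn f D) (hp : PshL D f) {γ : ℂ → E}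
    (hγ : ∀ w : ℂ, ‖w‖ ≤ 1 → ContDiffAt ℂ 2 γ w ∧ γ w ∈ D) :
    f (γ 0) ≤ circleAverage (fun w => f (γ w)) 0 1 := by
  have hc : ContinuousOn γ (closedBall 0 1) := fun w hw =>
    (hγ w (by simpa using hw)).1.continuousAt.continuousWithinAt
  have hK : IsCompact (γ '' closedBall 0 1) := (isCompact_closedBall 0 1).image_of_continuousOn hc
  have hKD : γ '' closedBall 0 1 ⊆ D := by
    rintro _ ⟨w, hw, rfl⟩
    exact (hγ w (by simpa using hw)).2
  have hs : sphere (0 : ℂ) |1| ⊆ closedBall 0 1 := by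
    rw [abs_one]; exact sphere_subset_closedBall
  refine le_of_forall_pos_le_add fun ε hε => ?_
  obtain ⟨g, h1, h2, h3⟩ := approx hD cf hp hK hKD (half_pos hε)
  have g2 : ∀ y, ContDiffAt ℝ 2 g y := fun y =>
    h1.contDiffAt.of_le (WithTop.coe_le_coe.2 le_top)
  have h4 := le_dav_of_lvE (E := ℂ) (f := g ∘ γ) (z := 0) (v := 1) (c := 0) fun w hw => by
    simp only [zero_add, smul_eq_mul, mul_one]
    refine ⟨(g2 _).comp w ((hγ w hw).1.restrict_scalars ℝ), ?_⟩
    rw [lvE_comp (hγ w hw).1 (g2 _)]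
    exact h3 _ ⟨w, by simpa using hw, rfl⟩ _
  have h5 : dav (g ∘ γ) 0 1 = circleAverage (fun w => g (γ w)) 0 1 := by
    unfold dav; simp
  have i1 : CircleIntegrable (fun w => f (γ w)) 0 1 :=
    ((cf.comp hc fun w hw => hKD ⟨w, hw, rfl⟩).mono hs).circleIntegrable'
  have i2 : CircleIntegrable (fun w => g (γ w)) 0 1 :=
    ((h1.continuous.comp_continuousOn hc).mono hs).circleIntegrable'
  have h6 : circleAverage (fun w => g (γ w)) 0 1 ≤
      circleAverage (fun w => f (γ w) + ε / 2) 0 1 :=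
    circleAverage_mono i2 (i1.add (circleIntegrable_const _ _ _)) fun w hw => by
      have := abs_le.1 (h2 _ ⟨w, hs hw, rfl⟩)
      linarith
  rw [circleAverage_fun_add i1 (circleIntegrable_const _ _ _), circleAverage_const] at h6
  have h7 := abs_le.1 (h2 _ ⟨0, mem_closedBall_self zero_le_one, rfl⟩)
  rw [h5, add_zero, Function.comp_apply] at h4
  linarith

/-- the sub-mean value inequality holds for all closed discs in `D` -/
theorem le_dav (hD : IsOpen D) (cf : ContinuousOn f D) (hp : PshL D f) (h : In D x v) :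
    f x ≤ dav f x v := by
  have := le_avg hD cf hp (γ := fun w : ℂ => x + w • v) fun w hw =>
    ⟨(contDiff_disc x v).contDiffAt, h w hw⟩
  simpa [dav] using this

/-- composition with a holomorphic map -/
theorem comp {F : Type*} [NormedAddCommGroup F] [NormedSpace ℂ F] {O : Set F} {T : F → E}
    (hO : IsOpen O) (hD : IsOpen D) (cf : ContinuousOn f D) (hp : PshL D f)
    (hT : ∀ z ∈ O, ContDiffAt ℂ 2 T z ∧ T z ∈ D) : PshL O fun z => f (T z) :=
  of_discs hO fun x v hi => by
    have := le_avg hD cf hp (γ := fun w : ℂ => T (x + w • v)) fun w hw =>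
      ⟨(hT _ (hi w hw)).1.comp w (contDiff_disc x v).contDiffAt, (hT _ (hi w hw)).2⟩
    simpa [dav] using this

/-- a continuous function which is a pointwise supremum of psh functions below it -/
theorem of_sup (hD : IsOpen D) (cf : ContinuousOn f D)
    (h : ∀ x ∈ D, ∀ ε > (0 : ℝ), ∃ g, ContinuousOn g D ∧ PshL D g ∧ (∀ y ∈ D, g y ≤ f y + ε) ∧
      f x ≤ g x + ε) : PshL D f :=
  of_discs hD fun x v hi => by
    refine le_of_forall_pos_le_add fun ε hε => ?_
    obtain ⟨g, cg, hg, h1, h2⟩ := h x hi.self (ε / 2) (half_pos hε)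
    have h3 := le_dav hD cg hg hi
    have h4 := dav_mono cg (cf.add continuousOn_const) hi h1
    rw [show dav (f + fun _ => ε / 2) x v = dav f x v + ε / 2 from dav_add_const cf hi _] at h4
    linarith

/-- uniform limits -/
theorem of_unif (hD : IsOpen D) (cf : ContinuousOn f D)
    (h : ∀ ε > (0 : ℝ), ∃ g, ContinuousOn g D ∧ PshL D g ∧ ∀ y ∈ D, |g y - f y| ≤ ε) :
    PshL D f :=
  of_sup hD cf fun x hx ε hε =>
    let ⟨g, cg, hg, h1⟩ := h ε hε
    ⟨g, cg, hg, fun y hy => by linarith [(abs_le.1 (h1 y hy)).2],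
      by linarith [(abs_le.1 (h1 x hx)).1]⟩

end

end Crest.Agent.X261.BT.PL
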