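import Crest.Agent.X261.BT.Defs
import Crest.Agent.X261.BT.PL
import Crest.Agent.R275.QN2b_734

/-!
# X261 / BT (helper21): algebra of `QP`, cut-off functions, finite partitions of unity
-/

set_option autoImplicit false
set_option linter.unusedSectionVars false

open Set Filter Topology Complex MeasureTheory Metric
open scoped ContDiff Matrix ComplexConjugate ComplexOrder

namespace Crest.Agent.X261.BT

open Crest.Agent.R275.Geo Crest.Agent.R275.EDR890
open Crest.Agent.R273.Hess_333 Crest.Agent.R273.HessB_333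
open Crest.Agent.R273.Defs_333 (lev)
open Crest.Agent.R281.Rich_710 (PshL dav lev_eq_lvE)
open Crest.Agent.R281.Kp_487 (KP pot wt_contDiffAt uj_contDiffAt wt_smooth lev_wt_change
  lev_of_hess_zero)
open Crest.Agent.R257.HoB_843 (lvE)
open Crest.Agent.R257.Glue2_101 (lvE_add lvE_const_mul)
open Crest.Agent.R273.YauDefs_635 (inC)
open Crest.Agent.R273.YauCh_635 (Tm anal_Tm two_le_inf lev_upper lev_lower lev_inC_change lev_zero)
open Crest.Agent.R275.QN2b734 (SmP sm_iff exists_partition exists_bump tendsto_symm)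

noncomputable section

variable {n : ℕ} {M : Type} [TopologicalSpace M] {A : Atl n M}
variable {H H' : KP A} {U U' W : Set M} {a b φ ψ : M → ℝ}

theorem isOpen_ov' (i j : A.ι) : IsOpen (A.ov i j) :=
  (A.e i).isOpen_inter_preimage_symm (A.e j).open_source

theorem cont_wt (H : KP A) (U : Set M) (i : A.ι) : ContinuousOn (H.wt i) (chU A U i) :=
  (wt_smooth H i).continuousOn.mono inter_subset_left

theorem semi_lvE (hH : H.Semipos) (i : A.ι) {z : Cn n} (hz : z ∈ (A.e i).target) (v : Cn n) :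
    0 ≤ lvE (H.wt i) z v := by
  have := hH i z hz v
  rw [lev_eq_lvE] at this
  linarith

theorem pos_semi (hH : H.Pos) : H.Semipos := R281.Kp_487.Pos.semipos hH

theorem psh_wt (hH : H.Semipos) (hU : IsOpen U) (i : A.ι) : PshL (chU A U i) (H.wt i) :=
  PL.of_lvE (isOpen_chU hU i) fun _ hz =>
    ⟨(wt_contDiffAt H i hz.1).of_le two_le_inf, semi_lvE hH i hz.1⟩

theorem semi_sc (hH : H.Semipos) {c : ℝ} (hc : 0 ≤ c) : (sc c H).Semipos := by
  intro i z hz v
  rw [lev_eq_lvE, show (sc c H).wt i = fun z => c * H.wt i z from rfl,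
    lvE_const_mul (wt_contDiffAt H i hz)]
  have := semi_lvE hH i hz v
  positivity

theorem pos_sc (hH : H.Pos) {c : ℝ} (hc : 0 < c) : (sc c H).Pos := by
  intro i z hz v hv
  have := hH i z hz v hv
  rw [lev_eq_lvE] at this ⊢
  rw [show (sc c H).wt i = fun z => c * H.wt i z from rfl, lvE_const_mul (wt_contDiffAt H i hz)]
  have h2 : 0 < lvE (H.wt i) z v := by linarith
  positivity

theorem semi_ad (hH : H.Semipos) (hH' : H'.Semipos) : (ad H H').Semipos := by
  intro i z hz v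
  rw [lev_eq_lvE, show (ad H H').wt i = fun z => H.wt i z + H'.wt i z from rfl,
    lvE_add (wt_contDiffAt H i hz) (wt_contDiffAt H' i hz)]
  linarith [semi_lvE hH i hz v, semi_lvE hH' i hz v]

theorem pos_ad (hH : H.Pos) (hH' : H'.Semipos) : (ad H H').Pos := by
  intro i z hz v hv
  have := hH i z hz v hv
  rw [lev_eq_lvE] at this ⊢
  rw [show (ad H H').wt i = fun z => H.wt i z + H'.wt i z from rfl,
    lvE_add (wt_contDiffAt H i hz) (wt_contDiffAt H' i hz)]
  linarith [semi_lvE hH' i hz v]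

theorem semi_zr : (zr A).Semipos := by
  intro i z _ v
  rw [lev_eq_lvE, show (zr A).wt i = fun _ => (0 : ℝ) from rfl,
    R257.Glue2_101.lvE_const]
  simp

namespace QP

theorem of_pot (h : QP H U φ) (hc : ContinuousOn ψ U)
    (he : ∀ i, ∀ z ∈ chU A U i, pot H' ψ i z = pot H φ i z) : QP H' U ψ :=
  ⟨h.op, hc, fun i => PL.congr (isOpen_chU h.op i) (h.psh i) (he i)⟩

theorem congr (h : QP H U φ) (he : ∀ x ∈ U, ψ x = φ x) : QP H U ψ :=
  h.of_pot (h.cont.congr he) fun i z hz => by rw [pot_apply, pot_apply, he _ hz.2]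

theorem of_wt (h : QP H U φ) (he : ∀ i z, H'.wt i z = H.wt i z) : QP H' U φ :=
  h.of_pot h.cont fun i z _ => by rw [pot_apply, pot_apply, he]

theorem add (h : QP H U a) (h' : QP H' U b) : QP (ad H H') U fun x => a x + b x :=
  ⟨h.op, h.cont.add h'.cont, fun i => PL.congr (isOpen_chU h.op i)
    (PL.add (isOpen_chU h.op i) (h.cp i).1 (h'.cp i).1 (h.psh i) (h'.psh i)) fun z _ => by
      simp only [pot_apply, wt_ad]; ring⟩

theorem smul (h : QP H U a) {c : ℝ} (hc : 0 ≤ c) : QP (sc c H) U fun x => c * a x :=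
  ⟨h.op, continuousOn_const.mul h.cont, fun i => PL.congr (isOpen_chU h.op i)
    (PL.mul hc (h.psh i)) fun z _ => by simp only [pot_apply, wt_sc]; ring⟩

theorem add_const (h : QP H U a) (c : ℝ) : QP H U fun x => a x + c :=
  ⟨h.op, h.cont.add continuousOn_const, fun i => PL.congr (isOpen_chU h.op i)
    (PL.add (isOpen_chU h.op i) (h.cp i).1 continuousOn_const (h.psh i) (PL.const c))
      fun z _ => by simp only [pot_apply]; ring⟩

theorem sub_const (h : QP H U a) (c : ℝ) : QP H U fun x => a x - c :=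
  (h.add_const (-c)).congr fun _ _ => sub_eq_add_neg _ _

theorem const (hH : H.Semipos) (hU : IsOpen U) (c : ℝ) : QP H U fun _ => c :=
  ⟨hU, continuousOn_const, fun i => PL.add (isOpen_chU hU i) (cont_wt H U i) continuousOn_const
    (psh_wt hH hU i) (PL.const c)⟩

theorem max (h : QP H U a) (h' : QP H U b) : QP H U fun x => max (a x) (b x) :=
  ⟨h.op, h.cont.sup h'.cont, fun i => PL.congr (isOpen_chU h.op i)
    (PL.max (isOpen_chU h.op i) (h.cp i).1 (h'.cp i).1 (h.psh i) (h'.psh i)) fun z _ => by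
      simp only [pot_apply, max_add_add_left]⟩

theorem ad_right (h : QP H U a) (hH' : H'.Semipos) : QP (ad H H') U a :=
  (h.add (const hH' h.op 0)).congr fun _ _ => (add_zero _).symm

theorem ad_left (h : QP H U a) (hH' : H'.Semipos) : QP (ad H' H) U a :=
  (h.ad_right hH').of_wt fun _ _ => add_comm _ _

theorem sc_le (hH : H.Semipos) {s t : ℝ} (h : QP (sc s H) U a) (hst : s ≤ t) :
    QP (sc t H) U a :=
  (h.ad_right (semi_sc hH (sub_nonneg.2 hst))).of_wt fun i z => by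
    simp only [wt_ad, wt_sc]; ring

theorem sc_one (h : QP H U a) : QP (sc 1 H) U a := h.of_wt fun _ _ => one_mul _

theorem of_sc (hH : H.Semipos) {s : ℝ} (h : QP (sc s H) U a) (hs : s ≤ 1) : QP H U a :=
  (h.sc_le hH hs).of_wt fun _ _ => (one_mul _).symm

/-- `s a + t b` is `(s p + t q) ω`-psh -/
theorem comb {p q s t : ℝ} (h : QP (sc p H) U a) (h' : QP (sc q H) U b) (hs : 0 ≤ s)
    (ht : 0 ≤ t) : QP (sc (s * p + t * q) H) U fun x => s * a x + t * b x :=
  ((h.smul hs).add (h'.smul ht)).of_wt fun i z => by simp only [wt_ad, wt_sc]; ring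

theorem convex (h : QP H U a) (h' : QP H U b) {t : ℝ} (h0 : 0 ≤ t) (h1 : t ≤ 1) :
    QP H U fun x => (1 - t) * a x + t * b x :=
  (h.sc_one.comb h'.sc_one (sub_nonneg.2 h1) h0).of_wt fun i z => by simp only [wt_sc]; ring

theorem seg (h : QP H U a) (h' : QP H U b) {t : ℝ} (h0 : 0 ≤ t) (h1 : t ≤ 1) :
    QP H U fun x => b x + t * (a x - b x) :=
  (h'.convex h h0 h1).congr fun _ _ => by ring

theorem mul_le_one (hH : H.Semipos) (h : QP H U a) {t : ℝ} (h0 : 0 ≤ t) (h1 : t ≤ 1) :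
    QP H U fun x => t * a x := (h.smul h0).of_sc hH h1

/-- `QP` is a local property of germs -/
theorem of_germ (hU : IsOpen U)
    (h : ∀ x ∈ U, ∃ (W : Set M) (ψ : M → ℝ), x ∈ W ∧ QP H W ψ ∧ φ =ᶠ[𝓝 x] ψ) : QP H U φ := by
  refine ⟨hU, fun x hx => ?_, fun i => PL.of_germ fun z hz => ?_⟩
  · obtain ⟨W, ψ, hW, h1, h2⟩ := h x hx
    exact ((h1.cont.continuousAt (h1.op.mem_nhds hW)).congr h2.symm).continuousWithinAt
  · obtain ⟨W, ψ, hW, h1, h2⟩ := h _ hz.2
    refine ⟨chU A W i, pot H ψ i, ⟨hz.1, hW⟩, h1.psh i, ?_⟩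
    have h3 := ((A.e i).continuousAt_symm hz.1).tendsto.eventually h2
    filter_upwards [h3] with w hw
    rw [pot_apply, pot_apply, hw]

theorem of_local (hU : IsOpen U) (h : ∀ x ∈ U, ∃ W : Set M, x ∈ W ∧ QP H W φ) : QP H U φ :=
  of_germ hU fun x hx => let ⟨W, h1, h2⟩ := h x hx; ⟨W, φ, h1, h2, EventuallyEq.rfl⟩

/-- it is enough to check one chart -/
theorem of_chart1 (hU : IsOpen U) (hc : ContinuousOn φ U) {i : A.ι} (hi : U ⊆ (A.e i).source)
    (hp : PshL (chU A U i) (pot H φ i)) : QP H U φ := by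
  refine ⟨hU, hc, fun j => ?_⟩
  have ho := isOpen_chU (A := A) hU j
  have hov : ∀ z ∈ chU A U j, z ∈ A.ov j i := fun z hz => ⟨hz.1, hi hz.2⟩
  have hT : ∀ z ∈ chU A U j, ContDiffAt ℂ 2 (Tm A j i) z ∧ Tm A j i z ∈ chU A U i := by
    intro z hz
    have h1 := anal_Tm (A := A) (i := j) (j := i) ⟨(A.e j).map_target hz.1, hi hz.2⟩
    rw [(A.e j).right_inv hz.1] at h1
    exact ⟨h1.contDiffAt, mem_chU (hi hz.2) hz.2⟩
  have h1 := PL.comp ho (isOpen_chU hU i) (contOn_pot hc i) hp hT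
  have c1 : ContinuousOn (fun z => pot H φ i (Tm A j i z)) (chU A U j) :=
    (contOn_pot hc i).comp (fun z hz => (hT z hz).1.continuousAt.continuousWithinAt)
      fun z hz => (hT z hz).2
  have h2 : PshL (chU A U j) fun w => H.u j ((A.e j).symm w) - H.u i ((A.e j).symm w) :=
    PL.of_lvE ho fun z hz => ⟨(kp_diff_smooth H (hov z hz)).of_le two_le_inf, fun v => by
      have := lev_of_hess_zero (kp_diff_smooth H (hov z hz)) (H.tr j i z (hov z hz)) v
      rw [lev_eq_lvE] at this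
      linarith⟩
  refine PL.congr ho (PL.add ho c1 (fun z hz =>
    (kp_diff_smooth H (hov z hz)).continuousAt.continuousWithinAt) h1 h2) fun z hz => ?_
  simp only [pot_apply, Tm, KP.wt, (A.e i).left_inv (hi hz.2)]
  ring

theorem of_chart (hU : IsOpen U) (hc : ContinuousOn φ U)
    (h : ∀ x ∈ U, ∃ i, x ∈ (A.e i).source ∧ ∃ D ∈ 𝓝 (A.e i x), PshL D (pot H φ i)) :
    QP H U φ := by
  refine of_local hU fun x hx => ?_
  obtain ⟨i, hi, D, hD, hp⟩ := h x hx
  obtain ⟨D', h1, h2, h3⟩ := _root_.mem_nhds_iff.1 hD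
  have ho : IsOpen (U ∩ ((A.e i).source ∩ A.e i ⁻¹' D')) :=
    hU.inter ((A.e i).isOpen_inter_preimage h2)
  refine ⟨U ∩ ((A.e i).source ∩ A.e i ⁻¹' D'), ⟨hx, hi, h3⟩, of_chart1 ho (hc.mono inter_subset_left) (fun y hy => hy.2.1)
    (hp.mono fun z hz => h1 ?_)⟩
  have := hz.2.2.2
  rwa [mem_preimage, (A.e i).right_inv hz.1] at this

theorem of_lvE (hU : IsOpen U) (hs : ∀ x ∈ U, SmP A φ x)
    (h : ∀ i, ∀ z ∈ chU A U i, ∀ v, 0 ≤ lvE (pot H φ i) z v) : QP H U φ := by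
  refine ⟨hU, fun x hx => (hs x hx).continuousAt.continuousWithinAt, fun i =>
    PL.of_lvE (isOpen_chU hU i) fun z hz => ⟨?_, h i z hz⟩⟩
  have h1 := hs _ hz.2 i ((A.e i).map_target hz.1)
  rw [(A.e i).right_inv hz.1] at h1
  exact ((wt_contDiffAt H i hz.1).add h1).of_le two_le_inf

theorem of_sup (hU : IsOpen U) (hc : ContinuousOn φ U)
    (h : ∀ x ∈ U, ∀ ε > (0 : ℝ), ∃ g, QP H U g ∧ (∀ y ∈ U, g y ≤ φ y + ε) ∧ φ x ≤ g x + ε) :
    QP H U φ :=
  ⟨hU, hc, fun i => PL.of_sup (isOpen_chU hU i) (contOn_pot hc i) fun z hz ε hε => by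
    obtain ⟨g, h1, h2, h3⟩ := h _ hz.2 ε hε
    refine ⟨pot H g i, (h1.cp i).1, h1.psh i, fun y hy => ?_, ?_⟩
    · simp only [pot_apply]; linarith [h2 _ hy.2]
    · simp only [pot_apply]; linarith⟩

theorem of_unif (hU : IsOpen U) (hc : ContinuousOn φ U)
    (h : ∀ ε > (0 : ℝ), ∃ g, QP H U g ∧ ∀ y ∈ U, |g y - φ y| ≤ ε) : QP H U φ :=
  of_sup hU hc fun x hx ε hε =>
    let ⟨g, hg, h1⟩ := h ε hε
    ⟨g, hg, fun y hy => by linarith [(abs_le.1 (h1 y hy)).2],
      by linarith [(abs_le.1 (h1 x hx)).1]⟩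

open Classical in
/-- gluing a local function by a maximum -/
theorem glue (h : QP H U a) (h' : QP H W b) {L : Set M} (hL : IsClosed L) (hLW : L ∩ U ⊆ W)
    (hle : ∀ x ∈ W, x ∈ U → x ∉ L → b x ≤ a x) :
    QP H U fun x => if x ∈ W then Max.max (a x) (b x) else a x := by
  refine of_germ h.op fun x hx => ?_
  by_cases hxW : x ∈ W
  · have ho := h.op.inter h'.op
    refine ⟨U ∩ W, _, ⟨hx, hxW⟩, (h.mono ho inter_subset_left).max
      (h'.mono ho inter_subset_right), ?_⟩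
    filter_upwards [h'.op.mem_nhds hxW] with y hy
    rw [if_pos hy]
  · refine ⟨U, a, hx, h, ?_⟩
    filter_upwards [hL.isOpen_compl.mem_nhds fun h1 => hxW (hLW ⟨h1, hx⟩), h.op.mem_nhds hx]
      with y hy hyU
    split_ifs with h2
    · exact max_eq_left (hle y h2 hyU hy)
    · rfl

/-- two functions which agree on the overlap -/
theorem union (h : QP H U a) (h' : QP H W a) : QP H (U ∪ W) a :=
  of_local (h.op.union h'.op) fun _ hx => hx.elim (fun h1 => ⟨U, h1, h⟩) fun h1 => ⟨W, h1, h'⟩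

end QP

/-! ### `CE` -/

namespace CE

variable {c : M → ℝ}

theorem refl (a : M → ℝ) : CE a a := by
  unfold CE; simp only [sub_self]; exact HasCompactSupport.zero

theorem of_cpt [T2Space M] {K : Set M} (hK : IsCompact K) (h : ∀ x ∉ K, a x = b x) : CE a b :=
  HasCompactSupport.intro hK fun x hx => sub_eq_zero.2 (h x hx)

theorem exists_cpt (h : CE a b) : ∃ K : Set M, IsCompact K ∧ ∀ x ∉ K, a x = b x :=
  ⟨_, h, fun _ hx => sub_eq_zero.1
    (image_eq_zero_of_notMem_tsupport (f := fun x => a x - b x) hx)⟩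

theorem symm [T2Space M] (h : CE a b) : CE b a :=
  let ⟨_, h1, h2⟩ := h.exists_cpt; of_cpt h1 fun x hx => (h2 x hx).symm

theorem trans [T2Space M] (h : CE a b) (h' : CE b c) : CE a c :=
  let ⟨_, h1, h2⟩ := h.exists_cpt
  let ⟨_, h3, h4⟩ := h'.exists_cpt
  of_cpt (h1.union h3) fun x hx => (h2 x fun h5 => hx (Or.inl h5)).trans
    (h4 x fun h5 => hx (Or.inr h5))

/-- squeezed between two functions which agree off a compact set -/
theorem of_le [T2Space M] (h : CE a b) (h1 : ∀ x, a x ≤ c x) (h2 : ∀ x, c x ≤ b x) : CE c b :=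
  let ⟨_, h3, h4⟩ := h.exists_cpt
  of_cpt h3 fun x hx => le_antisymm (h2 x) (h4 x hx ▸ h1 x)

theorem zero_iff : CE a (fun _ => 0) ↔ HasCompactSupport a := by
  unfold CE; simp only [sub_zero]

theorem tst (h : CE a b) (ha : Continuous a) (hb : Continuous b) :
    Tst univ fun x => a x - b x := ⟨ha.sub hb, h, subset_univ _⟩

end CE

theorem PP.ce (h : PP H a) : CE a fun _ => 0 := CE.zero_iff.2 h.cpt

theorem PP.zero (hH : H.Semipos) : PP H fun _ => 0 :=
  ⟨QP.const hH isOpen_univ 0, HasCompactSupport.zero⟩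

/-! ### smooth functions -/

theorem sm_cont {F : M → ℝ} (hF : A.Sm F) : Continuous F :=
  continuous_iff_continuousAt.2 fun x => (sm_iff.1 hF x).continuousAt

theorem sm_at {F : M → ℝ} (hF : A.Sm F) (i : A.ι) {z : Cn n} (hz : z ∈ (A.e i).target) :
    ContDiffAt ℝ ∞ (inC A i F) z := (hF i).contDiffAt ((A.e i).open_target.mem_nhds hz)

theorem pot_at (H : KP A) {F : M → ℝ} (hF : A.Sm F) (i : A.ι) {z : Cn n}
    (hz : z ∈ (A.e i).target) : ContDiffAt ℝ ∞ (pot H F i) z :=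
  (wt_contDiffAt H i hz).add (sm_at hF i hz)

/-- on a compact set the Levi form of a smooth function is bounded by a positive form -/
theorem exists_lvE_bound (hH : H.Pos) {F : M → ℝ} (hF : A.Sm F) {K : Set M} (hK : IsCompact K) :
    ∃ C : ℝ, 0 ≤ C ∧ ∀ i, ∀ z ∈ chU A K i, ∀ v,
      |lvE (inC A i F) z v| ≤ C * lvE (H.wt i) z v := by
  have key : ∀ x : M, ∃ V ∈ 𝓝 x, ∃ K : ℝ, 0 ≤ K ∧ ∀ y ∈ V, ∀ i, y ∈ (A.e i).source → ∀ v,
      |lev (inC A i F) (A.e i y) v| ≤ K * lev (H.wt i) (A.e i y) v := by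
    intro x
    obtain ⟨j, hj⟩ := A.cover x
    have ht := (A.e j).map_source hj
    obtain ⟨ρ, hρ, hρs⟩ := Metric.nhds_basis_closedBall.mem_iff.1 ((A.e j).open_target.mem_nhds ht)
    have hK : IsCompact (Metric.closedBall (A.e j x) ρ) := isCompact_closedBall _ _
    obtain ⟨C, hC0, hC⟩ := lev_upper (u := inC A j F) (A.e j).open_target
      ((hF j).of_le two_le_inf) hK hρs
    obtain ⟨c, hc0, hc⟩ := lev_lower (A.e j).open_target
      ((wt_smooth H j).of_le two_le_inf) hK hρs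
      (fun z hz v hv => hH j z (hρs hz) v hv)
    refine ⟨(A.e j).source ∩ (A.e j) ⁻¹' Metric.ball (A.e j x) ρ, ?_, C / c, by positivity, ?_⟩
    · exact ((A.e j).isOpen_inter_preimage Metric.isOpen_ball).mem_nhds
        ⟨hj, Metric.mem_ball_self hρ⟩
    · rintro y ⟨hyj, hyb⟩ i hyi v
      have hyc : A.e j y ∈ Metric.closedBall (A.e j x) ρ := Metric.ball_subset_closedBall hyb
      rw [lev_inC_change hF ⟨hyi, hyj⟩, lev_wt_change H ⟨hyi, hyj⟩]
      set w := fderiv ℂ (Tm A i j) (A.e i y) v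
      calc |lev (inC A j F) (A.e j y) w| ≤ C * ‖w‖ ^ 2 := hC _ hyc w
        _ = C / c * (c * ‖w‖ ^ 2) := by field_simp
        _ ≤ C / c * lev (H.wt j) (A.e j y) w :=
          mul_le_mul_of_nonneg_left (hc _ hyc w) (by positivity)
  choose V hV C hC0 hC using key
  obtain ⟨t, -, ht⟩ := hK.elim_nhds_subcover V fun x _ => hV x
  refine ⟨∑ x ∈ t, C x, Finset.sum_nonneg fun x _ => hC0 x, fun i z hz v => ?_⟩
  have h1 := ht hz.2
  simp only [mem_iUnion, exists_prop] at h1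
  obtain ⟨x, hxt, hx⟩ := h1
  have h2 := hC x _ hx i ((A.e i).map_target hz.1) v
  rw [(A.e i).right_inv hz.1, lev_eq_lvE, lev_eq_lvE, abs_mul, abs_of_pos (by norm_num : (0 : ℝ) < 4)]
    at h2
  have h3 := mul_le_mul_of_nonneg_right (Finset.single_le_sum (f := C) (fun y _ => hC0 y) hxt)
    (semi_lvE (pos_semi hH) i hz.1 v)
  linarith

/-- a smooth function with compact support is `C ω`-psh, as are its small multiples -/
theorem exists_qp_cut (hH : H.Pos) {F : M → ℝ} (hF : A.Sm F) (hc : HasCompactSupport F) :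
    ∃ C : ℝ, 0 ≤ C ∧ ∀ t : ℝ, QP (sc (|t| * C) H) univ fun x => t * F x := by
  obtain ⟨C, hC0, hC⟩ := exists_lvE_bound hH hF hc
  refine ⟨C, hC0, fun t => QP.of_lvE isOpen_univ
    (fun x _ => (R275.QN2b734.smP_const t x).mul (sm_iff.1 hF x)) fun i z hz v => ?_⟩
  have e : pot (sc (|t| * C) H) (fun x => t * F x) i =
      fun z => (|t| * C) * H.wt i z + t * inC A i F z := rfl
  have h1 := wt_contDiffAt H i hz.1
  have h2 := sm_at hF i hz.1
  rw [e, lvE_add (contDiffAt_const.mul h1) (contDiffAt_const.mul h2), lvE_const_mul h1,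
    lvE_const_mul h2]
  have h3 : |lvE (inC A i F) z v| ≤ C * lvE (H.wt i) z v := by
    by_cases h4 : (A.e i).symm z ∈ tsupport F
    · exact hC i z ⟨hz.1, h4⟩ v
    · have h5 : inC A i F =ᶠ[𝓝 z] fun _ => 0 :=
        ((A.e i).continuousAt_symm hz.1).tendsto.eventually (notMem_tsupport_iff_eventuallyEq.1 h4)
      rw [R257.HoB_843.lvE_congr h5, R257.Glue2_101.lvE_const, abs_zero]
      exact mul_nonneg hC0 (semi_lvE (pos_semi hH) i hz.1 v)
  have h6 : |t * lvE (inC A i F) z v| ≤ |t| * (C * lvE (H.wt i) z v) := by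
    rw [abs_mul]; exact mul_le_mul_of_nonneg_left h3 (abs_nonneg t)
  linarith [(abs_le.1 h6).1]

variable [T2Space M]

/-- smooth cut-off -/
theorem exists_cutM (A : Atl n M) {K : Set M} (hK : IsCompact K) (hU : IsOpen U) (hKU : K ⊆ U) :
    ∃ θ : M → ℝ, A.Sm θ ∧ Tst U θ ∧ (∀ᶠ y in 𝓝ˢ K, θ y = 1) ∧ ∀ y, 0 ≤ θ y ∧ θ y ≤ 1 := by
  obtain ⟨θ, h1, h2, h3, h4, h5⟩ := exists_bump A hK hU hKU
  exact ⟨θ, sm_iff.2 h1, ⟨sm_cont (sm_iff.2 h1), h4, h5⟩, h3, h2⟩

/-- finite partition of unity near a compact set, subordinate to the charts -/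
theorem exists_partM (A : Atl n M) {K : Set M} (hK : IsCompact K) (hU : IsOpen U) (hKU : K ⊆ U) :
    ∃ (t : Finset A.ι) (ψ : A.ι → M → ℝ), (∀ i, A.Sm (ψ i)) ∧
      (∀ i, Tst (U ∩ (A.e i).source) (ψ i)) ∧ (∀ i y, 0 ≤ ψ i y ∧ ψ i y ≤ 1) ∧
      (∀ y, ∑ i ∈ t, ψ i y ≤ 1) ∧ ∀ᶠ y in 𝓝ˢ K, ∑ i ∈ t, ψ i y = 1 := by
  obtain ⟨t, ψ, h1, h2, h3, h4, -, h6, h7⟩ := exists_partition A hK
    (fun i => U ∩ (A.e i).source) (fun i => hU.inter (A.e i).open_source) fun x hx =>
      let ⟨i, hi⟩ := A.cover x; ⟨i, hKU hx, hi⟩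
  exact ⟨t, ψ, fun i => sm_iff.2 (h1 i), fun i => ⟨sm_cont (sm_iff.2 (h1 i)), h3 i, h4 i⟩, h2,
    fun y => (h6 y).2, h7⟩

end

end Crest.Agent.X261.BT
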