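import Crest.Agent.X261.BT.MxC
import Crest.Agent.X261.BT.BalB
import Crest.Agent.X261.BT.Part

/-!
# X261, BT (helper19): balayage

* `ma_bal`   : a locally bump-maximal continuous psh function has zero Monge-Ampere measure;
* `ma_noncontact` : the chart measures of a maximal `ω`-psh function below an obstacle vanish off the
  contact set.
-/

set_option autoImplicit false
set_option linter.unusedSectionVars false

open Set Filter Topology MeasureTheory Metric

namespace Crest.Agent.X261.BT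

open Crest.Agent.R275.Geo
open Crest.Agent.R281.Kp_487 (KP pot)

noncomputable section

variable {n : ℕ}

/-- **balayage** -/
theorem ma_bal {W : Set (Cn n)} (hW : IsOpen W) {u : Cn n → ℝ} (hu : CP W u)
    (hmax : ∀ x ∈ W, ∃ r > 0, ∃ δ > 0, closedBall x r ⊆ W ∧ ∀ v, CP W v →
      (∀ z ∈ W, z ∉ ball x r → v z = u z) → (∀ z ∈ W, v z ≤ u z + δ) → ∀ z ∈ W, v z ≤ u z) :
    ma W (fun _ => u) = 0 := by
  refine le_antisymm (Rad.le_of_loc (ma_compl W _) fun x hx => ?_) (Measure.zero_le _)
  obtain ⟨r, hr, δ, hδ, hB, h⟩ := hmax x hx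
  have hV : ball x (r / 8) ⊆ W :=
    (ball_subset_ball (by linarith)).trans (ball_subset_closedBall.trans hB)
  refine ⟨ball x (r / 8), isOpen_ball, mem_ball_self (by positivity), le_of_eq ?_⟩
  refine Rad.ext isOpen_ball ((ma_rad W _).restrict_open isOpen_ball hV) (Rad.zero _) fun φ hφ => ?_
  rw [setIntegral_eq_integral_of_forall_compl_eq_zero fun z hz => hφ.zero_off hz,
    integral_zero_measure]
  refine abs_nonpos_iff.1 (le_of_forall_pos_le_add fun ε hε => ?_)
  obtain ⟨η, hη, h1⟩ := ma_nr hW (fun _ => hu) (hφ.mono hV) _ isOpen_ball hV hφ.sub _ (half_pos hε)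
  obtain ⟨s, h2, h3, h4⟩ := Bal.exists_small hW hu hr hδ hB h hφ (lt_min hη (half_pos hε))
  have h5 := abs_le.1 (h1 (fun _ => s) (fun _ => h2.mono (subset_univ _))
    fun _ z hz => (h3 z hz).trans (min_le_left _ _))
  have h6 := abs_le.1 (h4.trans (min_le_right _ _))
  rw [abs_le]
  constructor <;> linarith [h5.1, h5.2, h6.1, h6.2]

variable {M : Type} [TopologicalSpace M] [T2Space M] {A : Atl n M}

theorem isOpen_noncontact {U : Set M} (hU : IsOpen U) {φ v : M → ℝ} (hφ : ContinuousOn φ U)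
    (hv : ContinuousOn v U) : IsOpen {x | x ∈ U ∧ φ x < v x} := by
  have h := (hv.sub hφ).isOpen_inter_preimage hU (isOpen_Ioi (a := (0 : ℝ)))
  convert h using 1
  ext x
  simp

/-- off the contact set the chart measures of a maximal function vanish -/
theorem ma_noncontact {H : KP A} {U : Set M} {φ v : M → ℝ} (hφ : QP H U φ) (hv : ContinuousOn v U)
    (hle : ∀ y ∈ U, φ y ≤ v y)
    (hmax : ∀ ψ, QP H U ψ → (∀ y ∈ U, ψ y ≤ v y) →
      (∃ K, IsCompact K ∧ K ⊆ U ∧ ∀ y, y ∉ K → ψ y = φ y) → ∀ y ∈ U, ψ y ≤ φ y) (i : A.ι) :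
    ma (chU A {x | x ∈ U ∧ φ x < v x} i) (fun _ => pot H φ i) = 0 := by
  have hN := isOpen_noncontact hφ.op hφ.cont hv
  set N := {x | x ∈ U ∧ φ x < v x} with hNd
  have hNU : N ⊆ U := fun _ hx => hx.1
  have hW := isOpen_chU (A := A) hN i
  refine ma_bal hW ((hφ.mono hN hNU).cp i) fun x hx => ?_
  have hg : ContinuousOn (fun z => v ((A.e i).symm z) - φ ((A.e i).symm z)) (chU A N i) :=
    (hv.sub hφ.cont).comp ((A.e i).continuousOn_symm.mono inter_subset_left) fun z hz => hz.2.1
  have hx0 : 0 < v ((A.e i).symm x) - φ ((A.e i).symm x) := sub_pos.2 hx.2.2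
  obtain ⟨r, hr, hB⟩ := Metric.nhds_basis_closedBall.mem_iff.1 (Filter.inter_mem (hW.mem_nhds hx)
    ((hg.continuousAt (hW.mem_nhds hx)).eventually (lt_mem_nhds (half_lt_self hx0))))
  refine ⟨r, hr, _, half_pos hx0, fun z hz => (hB hz).1, fun w hw h1 h2 z hz => ?_⟩
  have hW' : IsOpen (N ∩ (A.e i).source) := hN.inter (A.e i).open_source
  have hm : ∀ y ∈ N ∩ (A.e i).source, A.e i y ∈ chU A N i := fun y hy => mem_chU hy.2 hy.1
  have hs := chU_mono (A := A) (inter_subset_left (s := N) (t := (A.e i).source)) i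
  have hb : QP H (N ∩ (A.e i).source) fun y => w (A.e i y) - H.wt i (A.e i y) :=
    QP.of_chart1 hW' ((hw.1.sub (cont_wt H N i)).comp ((A.e i).continuousOn.mono inter_subset_right)
      hm) inter_subset_right (PL.congr (isOpen_chU hW' i) (hw.2.mono hs) fun z hz => by
        rw [pot_apply, (A.e i).right_inv hz.1]; ring)
  have hL : IsCompact ((A.e i).symm '' closedBall x r) := (isCompact_closedBall x r).image_of_continuousOn
    ((A.e i).continuousOn_symm.mono fun z hz => (hB hz).1.1)
  have hLW : (A.e i).symm '' closedBall x r ⊆ N ∩ (A.e i).source := by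
    rintro _ ⟨z, hz, rfl⟩
    exact ⟨(hB hz).1.2, (A.e i).map_target (hB hz).1.1⟩
  have hoff : ∀ y ∈ N ∩ (A.e i).source, y ∉ (A.e i).symm '' closedBall x r →
      w (A.e i y) - H.wt i (A.e i y) = φ y := fun y hy hy' => by
    rw [h1 _ (hm y hy) fun h => hy' ⟨_, ball_subset_closedBall h, (A.e i).left_inv hy.2⟩, pot_apply,
      (A.e i).left_inv hy.2]
    ring
  have h3 := hmax _ (hφ.glue hb hL.isClosed (fun y hy => hLW hy.1)
    fun y hy _ hy' => (hoff y hy hy').le) (fun y hy => by
      split_ifs with h4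
      · refine max_le (hle y hy) ?_
        by_cases h5 : y ∈ (A.e i).symm '' closedBall x r
        · obtain ⟨z, hz, rfl⟩ := h5
          have h6 := h2 z (hB hz).1
          have h7 : (v ((A.e i).symm x) - φ ((A.e i).symm x)) / 2 <
            v ((A.e i).symm z) - φ ((A.e i).symm z) := (hB hz).2
          rw [pot_apply] at h6
          rw [(A.e i).right_inv (hB hz).1.1]
          linarith
        · rw [hoff y h4 h5]; exact hle y hy
      · exact hle y hy)
    ⟨_, hL, fun y hy => (hLW hy).1.1, fun y hy => by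
      split_ifs with h4
      · rw [hoff y h4 hy, max_self]
      · rfl⟩ ((A.e i).symm z) hz.2.1
  rw [if_pos ⟨hz.2, (A.e i).map_target hz.1⟩, (A.e i).right_inv hz.1] at h3
  have h4 := (le_max_right _ _).trans h3
  rw [pot_apply]
  linarith

/-- the form used for envelopes -/
theorem ma_noncontact_univ {H : KP A} {φ v : M → ℝ} (hφ : QP H univ φ) (hv : Continuous v)
    (hle : ∀ y, φ y ≤ v y) (hmax : ∀ ψ, QP H univ ψ → (∀ y, ψ y ≤ v y) → ∀ y, ψ y ≤ φ y)
    (i : A.ι) : ma (chU A {x | φ x < v x} i) (fun _ => pot H φ i) = 0 := by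
  have h := ma_noncontact hφ hv.continuousOn (fun y _ => hle y)
    (fun ψ h1 h2 _ y _ => hmax ψ h1 (fun y => h2 y (mem_univ _)) y) i
  simpa using h

end

end Crest.Agent.X261.BT
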