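import Crest.Agent.X261.BT.MxC

/-!
# X261, BT (helper9), part D: invariance, contact inequality

* `ma_comp` : biholomorphic invariance; `ma_ph_all`, `ma_le_all` : adding terms in all slots;
* `ma_max`, `ma_contact` : maximum principle of Demailly, contact inequality.
-/

set_option autoImplicit false
set_option linter.unusedSectionVars false

open Set Filter Topology Complex MeasureTheory Function Metric
open scoped ContDiff Matrix ComplexConjugate ComplexOrder

namespace Crest.Agent.X261.BT

open Crest.Agent.R275.Geo Crest.Agent.R275.EDR890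
open Crest.Agent.R273.Hess_333 Crest.Agent.R273.HessB_333

noncomputable section

variable {n : ℕ} {O O' U : Set (Cn n)} {u : Fin n → Cn n → ℝ} {φ : Cn n → ℝ}

/-! ### biholomorphic invariance -/

theorem det_real (L : Cn n →L[ℂ] Cn n) : (L.restrictScalars ℝ).det =
    normSq (Matrix.of fun a c => L (EuclideanSpace.single a 1) c : MC n).det := by
  have e : (Matrix.of fun a c => L (EuclideanSpace.single a 1) c : MC n) =
      (LinearMap.toMatrix (EuclideanSpace.basisFun (Fin n) ℂ).toBasis
        (EuclideanSpace.basisFun (Fin n) ℂ).toBasis (L : Cn n →ₗ[ℂ] Cn n))ᵀ := by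
    ext a c
    simp [LinearMap.toMatrix_apply]
  rw [e, Matrix.det_transpose, LinearMap.det_toMatrix, ← Algebra.norm_complex_apply,
    ← LinearMap.det_restrictScalars]
  rfl

theorem mh_comp {F : Cn n → Cn n} {z : Cn n} (hF : ∀ᶠ w in 𝓝 z, DifferentiableAt ℂ F w)
    (hu : ∀ k, ContDiffAt ℝ ∞ (u k) (F z)) :
    mh (fun k y => u k (F y)) z = |((fderiv ℂ F z).restrictScalars ℝ).det| * mh u (F z) := by
  set P : MC n := Matrix.of fun a c => fderiv ℂ F z (EuclideanSpace.single a 1) c with hP
  have e : (fun k => hess (fun y => u k (F y)) z) = fun k => P * hess (u k) (F z) * Pᴴ := by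
    funext k
    ext a b
    rw [hess_comp (hu k) hF, Finset.sum_comm]
    simp [hP, Matrix.mul_apply, Finset.sum_mul]
  rw [det_real, abs_of_nonneg (normSq_nonneg _), mh, e, md_mul_right, md_mul_left,
    Matrix.det_conjTranspose, mul_right_comm, ← hP, RCLike.star_def, Complex.mul_conj,
    Complex.re_ofReal_mul, mh]

section comp

variable {F G : Cn n → Cn n} (hO : IsOpen O) (hO' : IsOpen O') (hF : DifferentiableOn ℂ F O)
  (hG : ContinuousOn G O') (h1 : MapsTo F O O') (h2 : MapsTo G O' O) (h3 : ∀ z ∈ O, G (F z) = z)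
  (h4 : ∀ w ∈ O', F (G w) = w)
include hO hO' hF hG h1 h2 h3 h4

theorem Tst.comp_inv (hφ : Tst O' φ) {V : Set (Cn n)} (hV : tsupport φ ⊆ V) :
    Tst (O ∩ F ⁻¹' V) (O.indicator fun z => φ (F z)) := by
  have hK : IsCompact (G '' tsupport φ) := hφ.cpt.image_of_continuousOn (hG.mono hφ.sub)
  have h0 : ∀ z, z ∉ G '' tsupport φ → O.indicator (fun z => φ (F z)) z = 0 := fun z hz => by
    by_cases hzO : z ∈ O
    · rw [indicator_of_mem hzO]
      exact image_eq_zero_of_notMem_tsupport fun h => hz ⟨_, h, h3 z hzO⟩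
    · exact indicator_of_notMem hzO _
  refine Tst.of_cpt (continuous_iff_continuousAt.2 fun z => ?_) hK ?_ h0
  · by_cases hz : z ∈ O
    · refine (hφ.cont.continuousAt.comp (hF.continuousOn.continuousAt (hO.mem_nhds hz))).congr ?_
      filter_upwards [hO.mem_nhds hz] with y hy
      rw [indicator_of_mem hy, Function.comp_apply]
    · refine continuousAt_const (y := 0).congr ?_
      filter_upwards [hK.isClosed.isOpen_compl.mem_nhds
        (by rintro ⟨w, hw, rfl⟩; exact hz (h2 (hφ.sub hw)))] with y hy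
      exact (h0 y hy).symm
  · rintro _ ⟨w, hw, rfl⟩
    exact ⟨h2 (hφ.sub hw), by rw [mem_preimage, h4 w (hφ.sub hw)]; exact hV hw⟩

theorem int_mh_comp (hφ : Tst O' φ) {v : Fin n → Cn n → ℝ} (hv : ∀ k, ContDiff ℝ ∞ (v k)) :
    ∫ z, O.indicator (fun z => φ (F z)) z * mh (fun k y => v k (F y)) z = ∫ w, φ w * mh v w := by
  have e : F '' O = O' := h1.image_subset.antisymm fun w hw => ⟨G w, h2 hw, h4 w hw⟩
  have hd : ∀ z ∈ O, ∀ᶠ w in 𝓝 z, DifferentiableAt ℂ F w := fun z hz =>
    (hO.eventually_mem hz).mono fun _ hw => hF.differentiableAt (hO.mem_nhds hw)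
  rw [← setIntegral_eq_integral_of_forall_compl_eq_zero (s := O') (f := fun w => φ w * mh v w)
    fun w hw => by rw [hφ.zero_off hw, zero_mul], ← e,
    integral_image_eq_integral_abs_det_fderiv_smul volume hO.measurableSet
      (f' := fun z => (fderiv ℂ F z).restrictScalars ℝ)
      (fun z hz => ((hd z hz).self_of_nhds.hasFDerivAt.restrictScalars ℝ).hasFDerivWithinAt)
      fun z hz z' hz' h => by rw [← h3 z hz, h, h3 z' hz'],
    ← setIntegral_eq_integral_of_forall_compl_eq_zero (s := O) fun w hw => by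
      rw [indicator_of_notMem hw, zero_mul]]
  refine setIntegral_congr_fun hO.measurableSet fun z hz => ?_
  simp only [indicator_of_mem hz, mh_comp (hd z hz) fun k => (hv k).contDiffAt, smul_eq_mul]
  ring

/-- **biholomorphic invariance** -/
theorem ma_comp (hu : ∀ k, CP O' (u k)) : (ma O fun k z => u k (F z)).map F = ma O' u := by
  have hm : AEMeasurable F (ma O fun k z => u k (F z)) := by
    rw [← (ma_rad O _).restrict_self]
    exact hF.continuousOn.aemeasurable hO.measurableSet
  refine Rad.ext hO' ⟨?_, fun K hK hKO => ?_⟩ (ma_rad _ _) fun φ hφ => ?_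
  · rw [Measure.map_apply_of_aemeasurable hm hO'.measurableSet.compl]
    exact measure_mono_null (fun z hz hzO => hz (h1 hzO)) (ma_compl _ _)
  · rw [Measure.map_apply_of_aemeasurable hm hK.measurableSet]
    refine (measure_mono (t := G '' K ∪ Oᶜ) fun z hz => ?_).trans_lt
      ((measure_union_le _ _).trans_lt ?_)
    · by_cases hzO : z ∈ O
      exacts [Or.inl ⟨_, hz, h3 z hzO⟩, Or.inr hzO]
    · rw [ma_compl, add_zero]
      exact ma_lt_top _ (hK.image_of_continuousOn (hG.mono hKO))
        (by rintro _ ⟨w, hw, rfl⟩; exact h2 (hKO hw))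
  rw [integral_map hm hφ.cont.aestronglyMeasurable, integral_congr_ae
    (g := O.indicator fun z => φ (F z)) ((ma_rad O _).ae_mem.mono fun z hz => by
      rw [indicator_of_mem hz])]
  obtain ⟨V, S, a1, a2, a3, -, -, -, hS⟩ := exists_ap hO' hφ.cpt hφ.sub
  have hv := fun k => hS _ (hu k)
  have hW : IsOpen (O ∩ F ⁻¹' V) := hF.continuousOn.isOpen_inter_preimage hO a1
  have t := hφ.comp_inv hO hO' hF hG h1 h2 h3 h4 a2
  have c1 : ∀ k, CP O fun z => u k (F z) := fun k => (hu k).comp hO' hO hF h1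
  have c2 : ∀ᶠ j in atTop, ∀ k, CP (O ∩ F ⁻¹' V) fun z => S j (u k) (F z) :=
    (eventually_all.2 fun k => (hv k).sp).mono fun j hj k =>
      ((hj k).cp a1).comp a1 hW (hF.mono inter_subset_left) fun z hz => hz.2
  rw [← ma_int_congr hO c1 hW (fun k => (c1 k).mono inter_subset_left) hW inter_subset_left
    Subset.rfl t fun _ _ _ => rfl]
  refine tendsto_nhds_unique ((ma_tendsto hW (fun k => (c1 k).mono inter_subset_left) t c2
    fun k => (((hv k).lim.comp F).mono inter_subset_right).tendstoLocallyUniformlyOn).congr' ?_)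
    (ma_lim hO' hu a1 a3 ⟨hφ.cont, hφ.cpt, a2⟩ hv)
  filter_upwards [c2, eventually_all.2 fun k => (hv k).sp] with j hj hj'
  rw [ma_smooth hW hj (fun k z hz => (hj' k).1.contDiffAt.comp z
    ((smooth_of_hol hO hF hz.1).restrict_scalars ℝ)) t,
    int_mh_comp hO hO' hF hG h1 h2 h3 h4 hφ fun k => (hj' k).1]

end comp

/-! ### all slots -/

theorem slots_ind {P : (Fin n → Cn n → ℝ) → Prop} {Q : Fin n → (Cn n → ℝ) → Prop}
    {v : Fin n → Cn n → ℝ} (hu : ∀ k, Q k (u k)) (hv : ∀ k, Q k (v k)) (h0 : P u)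
    (H : ∀ w k, (∀ l, Q l (w l)) → P (update w k (u k)) → P (update w k (v k))) : P v := by
  have key : ∀ s : Finset (Fin n), P (s.piecewise v u) := fun s => by
    induction s using Finset.induction_on with
    | empty => rwa [Finset.piecewise_empty]
    | insert k s hk ih =>
      rw [Finset.piecewise_insert]
      refine H _ k (fun l => ?_) ?_
      · by_cases hl : l ∈ s
        · rw [Finset.piecewise_eq_of_mem _ _ _ hl]; exact hv l
        · rw [Finset.piecewise_eq_of_notMem _ _ _ hl]; exact hu l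
      · rwa [← Finset.piecewise_eq_of_notMem s v u hk, update_eq_self]
  simpa using key Finset.univ

theorem ma_ph_all (hO : IsOpen O) (hu : ∀ k, CP O (u k)) {h : Fin n → Cn n → ℝ}
    (hh : ∀ k, Ph O (h k)) : ma O (fun k z => u k z + h k z) = ma O u :=
  slots_ind (P := fun w => ma O w = ma O u) (Q := fun _ => CP O) hu
    (fun k => (hu k).add ((hh k).cp hO) hO) rfl fun _ k hw H => by
      rw [ma_ph hO hw k (hu k) (hh k), H]

theorem ma_le_all (hO : IsOpen O) (hu : ∀ k, CP O (u k)) {p : Fin n → Cn n → ℝ}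
    (hp : ∀ k, CP O (p k)) : ma O u ≤ ma O fun k z => u k z + p k z :=
  slots_ind (P := fun w => ma O u ≤ ma O w) (Q := fun _ => CP O) hu
    (fun k => (hu k).add (hp k) hO) le_rfl fun _ k hw H =>
      H.trans (ma_le_add hO hw k (hu k) (hp k))

theorem ma_mul_all (hO : IsOpen O) (hu : ∀ k, CP O (u k)) {c : Fin n → ℝ} (hc : ∀ k, 0 ≤ c k) :
    ma O (fun k z => c k * u k z) = ENNReal.ofReal (∏ k, c k) • ma O u := by
  refine Rad.ext hO (ma_rad _ _) ((ma_rad _ _).smul ENNReal.ofReal_ne_top) fun φ hφ => ?_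
  obtain ⟨V, S, h1, h2, h3, -, -, -, hS⟩ := exists_ap hO hφ.cpt hφ.sub
  have t : Tst V φ := ⟨hφ.cont, hφ.cpt, h2⟩
  have hv := fun k => hS _ (hu k)
  rw [integral_smul_measure, ENNReal.toReal_ofReal (Finset.prod_nonneg fun k _ => hc k),
    smul_eq_mul]
  refine tendsto_nhds_unique (ma_lim hO (fun k => (hu k).mul (hc k)) h1 h3 t
    fun k => (hv k).mul (hc k)) (((ma_lim hO hu h1 h3 t hv).const_mul (∏ k, c k)).congr' ?_)
  filter_upwards [eventually_all.2 fun k => (hv k).sp] with j s
  rw [← integral_const_mul]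
  refine integral_congr_ae (Eventually.of_forall fun z => ?_)
  have e : mh (fun k z => c k * S j (u k) z) z = (∏ k, c k) * mh (fun k => S j (u k)) z := by
    simp only [mh, md, fun k => hess_const_mul (z := z) (c k) (s k).1.contDiffAt, Matrix.smul_apply,
      smul_eq_mul, Finset.prod_mul_distrib]
    rw [← Complex.re_ofReal_mul, Complex.ofReal_prod]
    simp only [Finset.mul_sum, mul_left_comm]
  simp only [e, mul_left_comm]

/-! ### the maximum principle -/

theorem ma_max (hO : IsOpen O) (hu : ∀ k, CP O (u k)) {v : Fin n → Cn n → ℝ}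
    (hv : ∀ k, CP O (v k)) :
    (ma O u).restrict {z | ∀ k, v k z ≤ u k z} ≤ ma O fun k z => max (u k z) (v k z) := by
  have c : ∀ (j : ℕ) k, CP O fun z => max (u k z + 1 / ((j : ℝ) + 1)) (v k z) := fun j k =>
    ((hu k).add_const hO _).max (hv k) hO
  refine Rad.le_of_lim (l := atTop) hO (ma_rad _ _) (Eventually.of_forall fun j => ma_rad _ _)
    (fun φ hφ => ma_tendsto hO (fun k => (hu k).max (hv k) hO) hφ (Eventually.of_forall c)
      fun k => (Metric.tendstoUniformlyOn_iff.2 fun ε hε => ?_).tendstoLocallyUniformlyOn)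
    ((ma_rad O u).restrict _).off fun K hK hKO => Eventually.of_forall fun j => ?_
  · filter_upwards [tendsto_one_div_add_atTop_nhds_zero_nat.eventually (gt_mem_nhds hε)]
      with j hj z _
    refine (abs_max_sub_max_le_abs _ _ _).trans_lt ?_
    rwa [sub_add_cancel_left, abs_neg, abs_of_pos (by positivity)]
  · set W := ⋂ k, O ∩ (fun z => u k z + 1 / ((j : ℝ) + 1) - v k z) ⁻¹' Ioi 0 with hW
    have h1 : IsOpen (O ∩ W) := hO.inter (isOpen_iInter_of_finite fun k =>
      (((hu k).1.add continuousOn_const).sub (hv k).1).isOpen_inter_preimage hO isOpen_Ioi)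
    have h2 := ma_restrict_eq hO (fun k => (hu k).add_const hO (1 / ((j : ℝ) + 1))) hO (c j) h1
      inter_subset_left inter_subset_left fun k z hz =>
        max_eq_left (sub_pos.1 (mem_iInter.1 hz.2 k).2).le
    rw [ma_ph_all hO hu fun k => Ph.const O _] at h2
    refine le_trans ?_ (Measure.restrict_le_self (s := O ∩ W) K)
    rw [h2, Measure.restrict_apply hK.measurableSet, Measure.restrict_apply hK.measurableSet]
    refine measure_mono fun z hz => ⟨hz.1, hKO hz.1, mem_iInter.2 fun k => ⟨hKO hz.1, ?_⟩⟩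
    have h3 := hz.2 k
    have h4 : (0 : ℝ) < 1 / ((j : ℝ) + 1) := by positivity
    simp only [mem_preimage, mem_Ioi]
    linarith

/-- **contact inequality** -/
theorem ma_contact (hO : IsOpen O) (hu : ∀ k, CP O (u k)) {v : Fin n → Cn n → ℝ}
    (hv : ∀ k, CP O (v k)) (H : ∀ k, ∀ z ∈ O, u k z ≤ v k z) :
    (ma O u).restrict {z | ∀ k, v k z ≤ u k z} ≤ ma O v := by
  have h := ma_max hO hu hv
  rwa [ma_congr hO hv fun k z hz => max_eq_right (H k z hz)] at h

end

end Crest.Agent.X261.BT
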