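import Crest.Agent.X261.BT.GlobM
import Crest.Agent.X261.BT.MxD

/-!
# X261 / BT (helper21): the global mixed Monge-Ampere measure

`MX U H φ`, `MAo H U φ`, `MA H φ`; chart formula, locality, multilinearity, continuity, mass bounds.
-/

set_option autoImplicit false
set_option linter.unusedSectionVars false

open Set Filter Topology MeasureTheory Metric Function
open scoped ContDiff

namespace Crest.Agent.X261.BT

open Crest.Agent.R275.Geo
open Crest.Agent.R273.Hess_333 Crest.Agent.R273.HessB_333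
open Crest.Agent.R273.Vm_333 (Dj)
open Crest.Agent.R273.YauDefs_635 (inC)
open Crest.Agent.R273.YauCh_635 (Tm)
open Crest.Agent.R281.Kp_487 (KP pot wt_contDiffAt wt_smooth)

noncomputable section

variable {n : ℕ}

section loc

variable {O O' : Set (Cn n)} {u v w : Fin n → Cn n → ℝ}

theorem ma_tr (hO : IsOpen O) (hO' : IsOpen O') {F G : Cn n → Cn n} (hF : DifferentiableOn ℂ F O)
    (hG : ContinuousOn G O') (hm : MapsTo F O O') (hm' : MapsTo G O' O)
    (hGF : ∀ z ∈ O, G (F z) = z) (hFG : ∀ z ∈ O', F (G z) = z) (hu : ∀ k, CP O' (u k))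
    {E : Set (Cn n)} (hE : MeasurableSet E) :
    ma O (fun k z => u k (F z)) (O ∩ F ⁻¹' E) = ma O' u E := by
  have h1 : AEMeasurable F (ma O fun k z => u k (F z)) := by
    rw [← (ma_rad O _).restrict_self]
    exact hF.continuousOn.aemeasurable hO.measurableSet
  rw [← ma_comp hO hO' hF hG hm hm' hGF hFG hu, Measure.map_apply_of_aemeasurable h1 hE,
    inter_comm, measure_inter_conull (ma_compl _ _)]

theorem ma_ph_sub (hO : IsOpen O) (hu : ∀ k, CP O (u k))
    (h : ∀ k, Ph O fun z => v k z - u k z) : ma O v = ma O u := by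
  rw [← ma_ph_all hO hu h]
  congr 1
  funext k z
  ring

theorem cp_of_ph (hO : IsOpen O) {a b : Cn n → ℝ} (ha : CP O a) (h : Ph O fun z => b z - a z) :
    CP O b := (ha.add (h.cp hO) hO).congr hO fun z _ => by simp

end loc

variable {M : Type} [TopologicalSpace M] {A : Atl n M} [MeasurableSpace M] [BorelSpace M]
  [Countable A.ι]

/-- the mixed Monge-Ampere measure `(ω₁ + i∂∂̄ φ₁) ∧ … ∧ (ωₙ + i∂∂̄ φₙ)` on `U` -/
def MX (U : Set M) (H : Fin n → KP A) (φ : Fin n → M → ℝ) : Measure M :=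
  Measure.sum fun i =>
    ((ma (chU A U i) fun k => pot (H k) (φ k) i).map (A.e i).symm).restrict (Dj A i)

/-- `(ω + i∂∂̄ φ)ⁿ` on `U` -/
def MAo (H : KP A) (U : Set M) (φ : M → ℝ) : Measure M := MX U (fun _ => H) fun _ => φ

/-- `(ω + i∂∂̄ φ)ⁿ` -/
def MA (H : KP A) (φ : M → ℝ) : Measure M := MAo H univ φ

variable {U U' W : Set M} {H H' : Fin n → KP A} {φ ψ : Fin n → M → ℝ} {χ : M → ℝ}

theorem MX_eq (U : Set M) (H : Fin n → KP A) (φ : Fin n → M → ℝ) :
    MX U H φ = gm A fun i => ma (chU A U i) fun k => pot (H k) (φ k) i := rfl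

theorem ph_pot (G : KP A) (f : M → ℝ) (W : Set M) {i j : A.ι} (hj : W ⊆ (A.e j).source) :
    Ph (chU A W i) fun z => pot G f i z - pot G f j (Tm A i j z) := by
  intro z hz
  have hov : z ∈ A.ov i j := ⟨hz.1, hj hz.2⟩
  have e : (fun z => pot G f i z - pot G f j (Tm A i j z)) =ᶠ[𝓝 z]
      fun w => G.u i ((A.e i).symm w) - G.u j ((A.e i).symm w) := by
    filter_upwards [(isOpen_ov' i j).mem_nhds hov] with w hw
    simp only [pot_apply, Tm, KP.wt, (A.e j).left_inv hw.2]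
    ring
  exact ⟨(kp_diff_smooth G hov).congr_of_eventuallyEq e, by rw [hess_congr e, G.tr i j z hov]⟩

theorem ma_apply_sub {O O' : Set (Cn n)} {u : Fin n → Cn n → ℝ} (hO : IsOpen O)
    (hu : ∀ k, CP O (u k)) (hO' : IsOpen O') (h1 : O' ⊆ O) {E : Set (Cn n)} (hE : E ⊆ O') :
    ma O u E = ma O' u E := by
  rw [← ma_restrict hO hu hO' h1 fun _ _ _ => rfl, Measure.restrict_eq_self _ hE]

theorem MX_cmp (hU : IsOpen U) (h : ∀ k, QP (H k) U (φ k)) :
    Cmp U fun i => ma (chU A U i) fun k => pot (H k) (φ k) i := by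
  refine ⟨hU, fun i => ma_rad _ _, fun i j E hE hs => ?_⟩
  set W := U ∩ ((A.e i).source ∩ (A.e j).source) with hW
  have hWo : IsOpen W := hU.inter ((A.e i).open_source.inter (A.e j).open_source)
  have hi : W ⊆ (A.e i).source := fun x hx => hx.2.1
  have hj : W ⊆ (A.e j).source := fun x hx => hx.2.2
  have c : ∀ l k, CP (chU A W l) (pot (H k) (φ k) l) := fun l k =>
    ((h k).mono hWo inter_subset_left).cp l
  have hd : ∀ {i j : A.ι}, W ⊆ (A.e j).source → DifferentiableOn ℂ (Tm A i j) (chU A W i) :=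
    fun {i j} hj => (A.holo i j).mono fun z hz => ⟨hz.1, hj hz.2⟩
  have hm : ∀ {i j : A.ι}, W ⊆ (A.e j).source → MapsTo (Tm A i j) (chU A W i) (chU A W j) :=
    fun hj z hz => mem_chU (hj hz.2) hz.2
  have hinv : ∀ {i j : A.ι}, W ⊆ (A.e j).source → ∀ z ∈ chU A W i, Tm A j i (Tm A i j z) = z :=
    fun {i j} hj z hz => by simp only [Tm, (A.e j).left_inv (hj hz.2), (A.e i).right_inv hz.1]
  rw [ma_apply_sub (isOpen_chU hU i) (fun k => (h k).cp i) (isOpen_chU hWo i)
      (chU_mono inter_subset_left i) (chU_mono hs i),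
    ma_apply_sub (isOpen_chU hU j) (fun k => (h k).cp j) (isOpen_chU hWo j)
      (chU_mono inter_subset_left j) (chU_mono hs j),
    ma_ph_sub (isOpen_chU hWo i) (fun k => (c j k).comp (isOpen_chU hWo j) (isOpen_chU hWo i)
      (hd hj) (hm hj)) fun k => ph_pot (H k) (φ k) W hj]
  have h1 := ma_tr (isOpen_chU hWo i) (isOpen_chU hWo j) (hd hj) (hd hi).continuousOn (hm hj) (hm hi)
    (hinv hj) (hinv hi) (c j) (meas_chU j hE)
  rw [← h1]
  congr 1
  ext z
  refine ⟨fun hz => ⟨chU_mono hs i hz, mem_chU (hj (hs hz.2)) hz.2⟩, fun hz => ⟨hz.1.1, ?_⟩⟩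
  have h2 := hz.2.2
  rwa [mem_preimage, Tm, (A.e j).left_inv (hj hz.1.2)] at h2

section basic

variable (hU : IsOpen U) (h : ∀ k, QP (H k) U (φ k))
include hU h

theorem MX_apply (i : A.ι) {E : Set M} (hE : MeasurableSet E) (hs : E ⊆ (A.e i).source) :
    MX U H φ E = ma (chU A U i) (fun k => pot (H k) (φ k) i) (chU A E i) :=
  (MX_cmp hU h).apply i hE hs

theorem MX_chart (i : A.ι) : (MX U H φ).restrict (A.e i).source =
    (ma (chU A U i) fun k => pot (H k) (φ k) i).map (A.e i).symm := (MX_cmp hU h).chart i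

theorem MX_int_tst {i : A.ι} (hχ : Tst (W ∩ (A.e i).source) χ) :
    ∫ x, χ x ∂MX U H φ = ∫ z, rd A i χ z ∂ma (chU A U i) fun k => pot (H k) (φ k) i :=
  (MX_cmp hU h).int_tst hχ

theorem MX_compl : MX U H φ Uᶜ = 0 := (MX_cmp hU h).off

theorem MX_rad [T2Space M] : Rad U (MX U H φ) := (MX_cmp hU h).radM

theorem MX_lt_top [T2Space M] {K : Set M} (hK : IsCompact K) (hKU : K ⊆ U) : MX U H φ K < ⊤ :=
  (MX_rad hU h).fin K hK hKU

theorem MX_int [T2Space M] (hχ : Tst U χ) : Integrable χ (MX U H φ) := (MX_rad hU h).int hχ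

/-- locality, up to pluriharmonic functions -/
theorem MX_ph (hU' : IsOpen U') (hs : U' ⊆ U) (hc : ∀ k, ContinuousOn (ψ k) U')
    (he : ∀ k i, Ph (chU A U' i) fun z => pot (H' k) (ψ k) i z - pot (H k) (φ k) i z) :
    (MX U H φ).restrict U' = MX U' H' ψ := by
  have c : ∀ i k, CP (chU A U' i) (pot (H k) (φ k) i) := fun i k => ((h k).mono hU' hs).cp i
  have h' : ∀ k, QP (H' k) U' (ψ k) := fun k =>
    ⟨hU', hc k, fun i => (cp_of_ph (isOpen_chU hU' i) (c i k) (he k i)).2⟩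
  refine (MX_cmp hU h).restrict_eq (MX_cmp hU' h') hU'.measurableSet fun i => ?_
  rw [ma_restrict (isOpen_chU hU i) (fun k => (h k).cp i) (isOpen_chU hU' i) (chU_mono hs i)
    fun _ _ _ => rfl, ma_ph_sub (isOpen_chU hU' i) (c i) fun k => he k i]

/-- locality, up to constants -/
theorem MX_restrict_const (hU' : IsOpen U') (hs : U' ⊆ U) (c : Fin n → ℝ)
    (he : ∀ k, ∀ x ∈ U', ψ k x = φ k x + c k) : (MX U H φ).restrict U' = MX U' H ψ :=
  MX_ph hU h hU' hs (fun k => ((((h k).cont.mono hs).add continuousOn_const).congr (he k)))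
    fun k i z hz => by
      have e : (fun z => pot (H k) (ψ k) i z - pot (H k) (φ k) i z) =ᶠ[𝓝 z] fun _ => c k := by
        filter_upwards [(isOpen_chU hU' i).mem_nhds hz] with w hw
        rw [pot_apply, pot_apply, he k _ hw.2]; ring
      exact ⟨contDiffAt_const.congr_of_eventuallyEq e, by
        rw [hess_congr e]; exact (Ph.const univ (c k) z trivial).2⟩

theorem MX_restrict (hU' : IsOpen U') (hs : U' ⊆ U) (he : ∀ k, EqOn (ψ k) (φ k) U') :
    (MX U H φ).restrict U' = MX U' H ψ :=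
  MX_restrict_const hU h hU' hs (fun _ => 0) fun k x hx => by rw [he k hx, add_zero]

theorem MX_self : (MX U H φ).restrict U = MX U H φ :=
  MX_restrict hU h hU subset_rfl fun _ _ _ => rfl

theorem MX_congr (he : ∀ k, EqOn (ψ k) (φ k) U) : MX U H ψ = MX U H φ := by
  rw [← MX_restrict hU h hU subset_rfl he, MX_self hU h]

theorem MX_const (c : Fin n → ℝ) : MX U H (fun k x => φ k x + c k) = MX U H φ := by
  rw [← MX_restrict_const hU h hU subset_rfl c fun _ _ _ => rfl, MX_self hU h]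

theorem MX_of_pot (hc : ∀ k, ContinuousOn (ψ k) U)
    (he : ∀ k i, ∀ z ∈ chU A U i, pot (H' k) (ψ k) i z = pot (H k) (φ k) i z) :
    MX U H' ψ = MX U H φ := by
  have h' : ∀ k, QP (H' k) U (ψ k) := fun k => (h k).of_pot (hc k) (he k)
  refine le_antisymm ((MX_cmp hU h').mono (MX_cmp hU h) fun i => le_of_eq ?_)
    ((MX_cmp hU h).mono (MX_cmp hU h') fun i => ge_of_eq ?_) <;>
  exact ma_congr (isOpen_chU hU i) (fun k => (h k).cp i) fun k z hz => he k i z hz

/-- two functions which agree on an open set up to constants -/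
theorem MX_restrict_eq (hU' : IsOpen U') (h' : ∀ k, QP (H k) U' (ψ k)) (hW : IsOpen W)
    (hs : W ⊆ U) (hs' : W ⊆ U') (c : Fin n → ℝ) (he : ∀ k, ∀ x ∈ W, ψ k x = φ k x + c k) :
    (MX U' H ψ).restrict W = (MX U H φ).restrict W := by
  rw [MX_restrict_const hU h hW hs c he, MX_restrict hU' h' hW hs' fun _ _ _ => rfl]

theorem MX_perm (σ : Equiv.Perm (Fin n)) :
    MX U (fun k => H (σ k)) (fun k => φ (σ k)) = MX U H φ := by
  have h' : ∀ k, QP (H (σ k)) U (φ (σ k)) := fun k => h _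
  refine le_antisymm ((MX_cmp hU h').mono (MX_cmp hU h) fun i => le_of_eq ?_)
    ((MX_cmp hU h).mono (MX_cmp hU h') fun i => ge_of_eq ?_) <;>
  exact ma_perm (isOpen_chU hU i) (fun k => (h k).cp i) σ

omit hU in
theorem qp_upd (k : Fin n) {G : KP A} {a : M → ℝ} (ha : QP G U a) (l : Fin n) :
    QP (update H k G l) U (update φ k a l) := by
  rcases eq_or_ne l k with rfl | hl
  · rwa [update_self, update_self]
  · rw [update_of_ne hl, update_of_ne hl]; exact h l

omit hU h in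
theorem pot_upd (H : Fin n → KP A) (φ : Fin n → M → ℝ) (k : Fin n) (G : KP A) (a : M → ℝ)
    (i : A.ι) : (fun l => pot (update H k G l) (update φ k a l) i) =
      update (fun l => pot (H l) (φ l) i) k (pot G a i) := by
  funext l
  rcases eq_or_ne l k with rfl | hl
  · simp only [update_self]
  · simp only [update_of_ne hl]

theorem MX_add (k : Fin n) {G G' : KP A} {a b : M → ℝ} (ha : QP G U a) (hb : QP G' U b) :
    MX U (update H k (ad G G')) (update φ k fun x => a x + b x) =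
      MX U (update H k G) (update φ k a) + MX U (update H k G') (update φ k b) := by
  refine (MX_cmp hU (qp_upd h k (ha.add hb))).add_eq (MX_cmp hU (qp_upd h k ha))
    (MX_cmp hU (qp_upd h k hb)) fun i => ?_
  simp only [pot_upd]
  rw [← ma_add (isOpen_chU hU i) (fun k => (h k).cp i) k (ha.cp i) (hb.cp i)]
  congr 2
  funext z
  simp only [pot_apply, wt_ad]
  ring

theorem MX_smul (k : Fin n) {G : KP A} {a : M → ℝ} (ha : QP G U a) {c : ℝ} (hc : 0 ≤ c) :
    MX U (update H k (sc c G)) (update φ k fun x => c * a x) =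
      ENNReal.ofReal c • MX U (update H k G) (update φ k a) := by
  refine (MX_cmp hU (qp_upd h k (ha.smul hc))).smul_eq (MX_cmp hU (qp_upd h k ha)) fun i => ?_
  simp only [pot_upd]
  rw [← ma_mul (isOpen_chU hU i) (fun k => (h k).cp i) k (ha.cp i) hc]
  congr 2
  funext z
  simp only [pot_apply, wt_sc]
  ring

theorem MX_smul_all {c : ℝ} (hc : 0 ≤ c) :
    MX U (fun k => sc c (H k)) (fun k x => c * φ k x) = ENNReal.ofReal (c ^ n) • MX U H φ := by
  refine (MX_cmp hU fun k => (h k).smul hc).smul_eq (MX_cmp hU h) fun i => ?_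
  have e : c ^ n = ∏ _k : Fin n, c := by simp
  rw [e, ← ma_mul_all (isOpen_chU hU i) (fun k => (h k).cp i) fun _ => hc]
  congr 1
  funext k z
  simp only [pot_apply, wt_sc]
  ring

theorem MX_le_add (h' : ∀ k, QP (H' k) U (ψ k)) :
    MX U H φ ≤ MX U (fun k => ad (H k) (H' k)) fun k x => φ k x + ψ k x := by
  refine (MX_cmp hU h).mono (MX_cmp hU fun k => (h k).add (h' k)) fun i => ?_
  refine (ma_le_all (isOpen_chU hU i) (fun k => (h k).cp i) fun k => (h' k).cp i).trans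
    (le_of_eq ?_)
  congr 1
  funext k z
  simp only [pot_apply, wt_ad]
  ring

/-- the smooth formula in a chart -/
theorem MX_smooth {i : A.ι} (hχ : Tst (U ∩ (A.e i).source) χ)
    (hs : ∀ k, ∀ z ∈ chU A U i, ContDiffAt ℝ ∞ (inC A i (φ k)) z) :
    ∫ x, χ x ∂MX U H φ = ∫ z, rd A i χ z * mh (fun k => pot (H k) (φ k) i) z := by
  rw [MX_int_tst hU h hχ, ma_smooth (isOpen_chU hU i) (fun k => (h k).cp i)
    (fun k z hz => (wt_contDiffAt (H k) i hz.1).add (hs k z hz)) hχ.rd]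

/-- contact inequality: `(H k, φ k)` touches `(H' k, ψ k)` from below -/
theorem MX_contact_pot (h' : ∀ k, QP (H' k) U (ψ k)) {S : Set M} (hS : MeasurableSet S)
    (hle : ∀ k i, ∀ z ∈ chU A U i, pot (H k) (φ k) i z ≤ pot (H' k) (ψ k) i z)
    (hge : ∀ k i, ∀ z ∈ chU A (S ∩ U) i, pot (H' k) (ψ k) i z ≤ pot (H k) (φ k) i z) :
    (MX U H φ).restrict S ≤ MX U H' ψ := by
  have h1 := (MX_cmp hU h).le (MX_cmp hU h') (c := 1) hS fun i => by
    rw [one_smul]
    refine le_trans ?_ (ma_contact (isOpen_chU hU i) (fun k => (h k).cp i) (fun k => (h' k).cp i)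
      fun k => hle k i)
    refine Measure.restrict_mono_ae ?_
    filter_upwards [(ma_rad _ _).ae_mem] with z hz hzS k
    exact hge k i z ⟨hz.1, hzS.2, hz.2⟩
  rwa [one_smul] at h1

/-- contact inequality -/
theorem MX_contact (h' : ∀ k, QP (H k) U (ψ k)) (hle : ∀ k, ∀ x ∈ U, φ k x ≤ ψ k x)
    {S : Set M} (hS : MeasurableSet S) (hge : ∀ k, ∀ x ∈ S, x ∈ U → ψ k x ≤ φ k x) :
    (MX U H φ).restrict S ≤ MX U H ψ :=
  MX_contact_pot hU h h' hS
    (fun k _ _ hz => add_le_add le_rfl (hle k _ hz.2))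
    fun k _ _ hz => add_le_add le_rfl (hge k _ hz.2.1 hz.2.2)

/-- a larger form gives a larger measure -/
theorem MX_le_ad (h' : ∀ k, (H' k).Semipos) :
    MX U H φ ≤ MX U (fun k => ad (H k) (H' k)) φ := by
  simpa using MX_le_add hU h fun k => QP.const (h' k) hU 0

end basic

/-! ### continuity and mass bounds -/

section lim

variable [T2Space M] {ι : Type*} {l : Filter ι}

theorem tlu_pot (hU : IsOpen U) (G G₀ : KP A) {f : ι → M → ℝ} {g : M → ℝ} {κ : ι → ℝ}
    (hκ : Tendsto κ l (𝓝 0)) (hf : TendstoLocallyUniformlyOn f g l U) (i : A.ι) :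
    TendstoLocallyUniformlyOn (fun j => pot (ad G (sc (κ j) G₀)) (f j) i) (pot G g i) l
      (chU A U i) := by
  refine (tendstoLocallyUniformlyOn_iff_forall_isCompact (isOpen_chU hU i)).2 fun K hKs hK => ?_
  have hK' : IsCompact ((A.e i).symm '' K) :=
    hK.image_of_continuousOn ((A.e i).continuousOn_symm.mono fun z hz => (hKs hz).1)
  have := lcs A
  have h1 := (tendstoLocallyUniformlyOn_iff_forall_isCompact hU).1 hf _
    (by rintro _ ⟨z, hz, rfl⟩; exact (hKs hz).2) hK'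
  obtain ⟨C, hC⟩ := hK.exists_bound_of_continuousOn ((cont_wt G₀ U i).mono hKs)
  refine Metric.tendstoUniformlyOn_iff.2 fun ε hε => ?_
  have h2 : Tendsto (fun j => |κ j| * |C|) l (𝓝 0) := by simpa using hκ.abs.mul_const |C|
  filter_upwards [Metric.tendstoUniformlyOn_iff.1 h1 _ (half_pos hε),
    h2.eventually (gt_mem_nhds (half_pos hε))] with j a1 a2 z hz
  have a3 := abs_lt.1 (a1 _ ⟨z, hz, rfl⟩)
  have a4 : |κ j * G₀.wt i z| ≤ |κ j| * |C| := by
    rw [abs_mul]
    exact mul_le_mul_of_nonneg_left ((hC z hz).trans (le_abs_self C)) (abs_nonneg _)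
  have a5 := abs_le.1 a4
  rw [Real.dist_eq, pot_apply, pot_apply, wt_ad, wt_sc]
  exact abs_lt.2 ⟨by linarith, by linarith⟩

theorem tlu_pot' (hU : IsOpen U) (G : KP A) {f : ι → M → ℝ} {g : M → ℝ}
    (hf : TendstoLocallyUniformlyOn f g l U) (i : A.ι) :
    TendstoLocallyUniformlyOn (fun j => pot G (f j) i) (pot G g i) l (chU A U i) := by
  have := tlu_pot hU G G (κ := fun _ => 0) tendsto_const_nhds hf i
  refine this.congr fun j z _ => ?_
  simp only [pot_apply, wt_ad, wt_sc, zero_mul, add_zero]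

/-- weak continuity, with varying forms and test functions -/
theorem MX_tendsto_gen (hU : IsOpen U) (h : ∀ k, QP (H k) U (φ k)) {Hs : ι → Fin n → KP A}
    {φs : ι → Fin n → M → ℝ} (hv : ∀ᶠ j in l, ∀ k, QP (Hs j k) U (φs j k))
    (hl : ∀ k i, TendstoLocallyUniformlyOn (fun j => pot (Hs j k) (φs j k) i)
      (pot (H k) (φ k) i) l (chU A U i))
    {K : Set M} (hK : IsCompact K) (hKU : K ⊆ U) {χs : ι → M → ℝ}
    (hχs : ∀ᶠ j in l, ContinuousOn (χs j) U ∧ ∀ x, x ∉ K → χs j x = 0) (hχ : ContinuousOn χ U)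
    (h0 : ∀ x, x ∉ K → χ x = 0) (hlim : TendstoUniformlyOn χs χ l K) :
    Tendsto (fun j => ∫ x, χs j x ∂MX U (Hs j) (φs j)) l (𝓝 (∫ x, χ x ∂MX U H φ)) := by
  obtain ⟨t, p, -, p2, p3, -, p5⟩ := exists_partM A hK hU hKU
  have hp : ∀ {f : M → ℝ}, (∀ x, x ∉ K → f x = 0) → ∀ x, f x ≠ 0 → ∑ i ∈ t, p i x = 1 :=
    fun hf x hx => p5.self_of_nhdsSet x (not_not.1 fun h1 => hx (hf x h1))
  have ht : ∀ {f : M → ℝ}, ContinuousOn f U → ∀ i, Tst (U ∩ (A.e i).source) fun x => p i x * f x :=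
    fun hf i => (p2 i).mul_on (hU.inter (A.e i).open_source) (hf.mono inter_subset_left)
  rw [MX_eq, (MX_cmp hU h).int_part p2 hχ (hp h0)]
  refine Tendsto.congr' (f₁ := fun j => ∑ i ∈ t, ∫ z, rd A i (fun x => p i x * χs j x) z
    ∂ma (chU A U i) fun k => pot (Hs j k) (φs j k) i) ?_ (tendsto_finsetSum t fun i _ => ?_)
  · filter_upwards [hv, hχs] with j a1 a2
    rw [MX_eq, (MX_cmp hU a1).int_part p2 a2.1 (hp a2.2)]
  · have hL : IsCompact (tsupport (p i) ∩ K) := (p2 i).cpt.inter_right hK.isClosed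
    have hLs : tsupport (p i) ∩ K ⊆ U ∩ (A.e i).source := fun x hx => (p2 i).sub hx.1
    have hz : ∀ {f : M → ℝ}, (∀ x, x ∉ K → f x = 0) → ∀ x ∉ tsupport (p i) ∩ K,
        p i x * f x = 0 := fun hf x hx => by
      by_cases h1 : x ∈ K
      · rw [image_eq_zero_of_notMem_tsupport fun h2 => hx ⟨h2, h1⟩, zero_mul]
      · rw [hf x h1, mul_zero]
    refine ma_tendsto' (isOpen_chU hU i) (fun k => (h k).cp i) (ht hχ i).rd
      (hv.mono fun j hj k => (hj k).cp i) (fun k => hl k i)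
      (cpt_img hL fun x hx => (hLs hx).2) (img_sub hLs)
      (hχs.mono fun j hj => ⟨(ht hj.1 i).rd.cont, fun z hz' => rd_zero (hz hj.2) hz'⟩)
      (fun z hz' => rd_zero (hz h0) hz') (Metric.tendstoUniformlyOn_iff.2 fun ε hε => ?_)
    filter_upwards [Metric.tendstoUniformlyOn_iff.1 hlim ε hε] with j hj
    rintro _ ⟨x, hx, rfl⟩
    have h1 := (A.e i).map_source (hLs hx).2
    rw [rd_of_mem h1, rd_of_mem h1, (A.e i).left_inv (hLs hx).2, Real.dist_eq, ← mul_sub, abs_mul,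
      abs_of_nonneg (p3 i x).1]
    exact (mul_le_of_le_one_left (abs_nonneg _) (p3 i x).2).trans_lt (hj x hx.2)

theorem MX_tendsto' (hU : IsOpen U) (h : ∀ k, QP (H k) U (φ k)) {φs : ι → Fin n → M → ℝ}
    (hv : ∀ᶠ j in l, ∀ k, QP (H k) U (φs j k))
    (hl : ∀ k, TendstoLocallyUniformlyOn (fun j => φs j k) (φ k) l U)
    {K : Set M} (hK : IsCompact K) (hKU : K ⊆ U) {χs : ι → M → ℝ}
    (hχs : ∀ᶠ j in l, ContinuousOn (χs j) U ∧ ∀ x, x ∉ K → χs j x = 0) (hχ : ContinuousOn χ U)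
    (h0 : ∀ x, x ∉ K → χ x = 0) (hlim : TendstoUniformlyOn χs χ l K) :
    Tendsto (fun j => ∫ x, χs j x ∂MX U H (φs j)) l (𝓝 (∫ x, χ x ∂MX U H φ)) :=
  MX_tendsto_gen hU h (Hs := fun _ => H) hv (fun k i => tlu_pot' hU (H k) (hl k) i) hK hKU hχs hχ
    h0 hlim

theorem MX_tendsto (hU : IsOpen U) (h : ∀ k, QP (H k) U (φ k)) {φs : ι → Fin n → M → ℝ}
    (hv : ∀ᶠ j in l, ∀ k, QP (H k) U (φs j k))
    (hl : ∀ k, TendstoLocallyUniformlyOn (fun j => φs j k) (φ k) l U) (hχ : Tst U χ) :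
    Tendsto (fun j => ∫ x, χ x ∂MX U H (φs j)) l (𝓝 (∫ x, χ x ∂MX U H φ)) :=
  MX_tendsto' hU h hv hl hχ.cpt hχ.sub (Eventually.of_forall fun _ =>
    ⟨hχ.cont.continuousOn, fun _ hx => image_eq_zero_of_notMem_tsupport hx⟩) hχ.cont.continuousOn
    (fun _ hx => image_eq_zero_of_notMem_tsupport hx)
    (Metric.tendstoUniformlyOn_iff.2 fun _ hε => Eventually.of_forall fun _ _ _ => by simpa)

/-- **Chern-Levine-Nirenberg** on `M` -/
theorem MX_cln (H : Fin n → KP A) (hW : IsOpen W) {K : Set M} (hK : IsCompact K) (hKW : K ⊆ W)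
    (R : ℝ) : ∃ C, 0 ≤ C ∧ ∀ (U : Set M) (φ : Fin n → M → ℝ), IsOpen U → W ⊆ U →
      (∀ k, QP (H k) U (φ k)) → (∀ k, ∀ x ∈ W, |φ k x| ≤ R) → (MX U H φ).real K ≤ C := by
  have := lcs A
  refine hK.induction_on (p := fun K => ∃ C, 0 ≤ C ∧ ∀ (U : Set M) (φ : Fin n → M → ℝ),
    IsOpen U → W ⊆ U → (∀ k, QP (H k) U (φ k)) → (∀ k, ∀ x ∈ W, |φ k x| ≤ R) →
      MX U H φ K ≤ ENNReal.ofReal C) ⟨0, le_rfl, by simp⟩ ?_ ?_ ?_ |>.imp
    fun C hC => ⟨hC.1, fun U φ a1 a2 a3 a4 =>
      ENNReal.toReal_le_of_le_ofReal hC.1 (hC.2 U φ a1 a2 a3 a4)⟩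
  · rintro s t hst ⟨C, h1, h2⟩
    exact ⟨C, h1, fun U φ a1 a2 a3 a4 => (measure_mono hst).trans (h2 U φ a1 a2 a3 a4)⟩
  · rintro s t ⟨C, h1, h2⟩ ⟨D, h3, h4⟩
    refine ⟨C + D, add_nonneg h1 h3, fun U φ a1 a2 a3 a4 => (measure_union_le _ _).trans ?_⟩
    rw [ENNReal.ofReal_add h1 h3]
    exact add_le_add (h2 U φ a1 a2 a3 a4) (h4 U φ a1 a2 a3 a4)
  · intro x hx
    obtain ⟨i, hi⟩ := A.cover x
    obtain ⟨L, h1, h2, h3⟩ := local_compact_nhds
      ((hW.inter (A.e i).open_source).mem_nhds ⟨hKW hx, hi⟩)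
    have hL := cpt_img h3 fun y hy => (h2 hy).2
    obtain ⟨V, v1, v2, v3, v4⟩ := exists_rc hL (isOpen_chU hW i) (img_sub h2)
    obtain ⟨B, -, hB⟩ := exists_bd (u := fun k => (H k).wt i) v4 fun k => (cont_wt _ W i).mono v3
    obtain ⟨C, hC, h4⟩ := ma_cln v1 hL v2 (B + R)
    refine ⟨L, mem_nhdsWithin_of_mem_nhds h1, C, hC, fun U φ a1 a2 a3 a4 => ?_⟩
    have hV : V ⊆ chU A W i := subset_closure.trans v3
    have h5 := h4 _ _ (isOpen_chU a1 i) (hV.trans (chU_mono a2 i)) (fun k => (a3 k).cp i)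
      fun k z hz => (abs_add_le _ _).trans
        (add_le_add (hB k z (subset_closure hz)) (a4 k _ (hV hz).2))
    rw [MX_apply a1 a3 i h3.measurableSet fun y hy => (h2 hy).2]
    refine (measure_mono (show chU A L i ⊆ A.e i '' L from
      fun z hz => ⟨_, hz.2, (A.e i).right_inv hz.1⟩)).trans
      ((ENNReal.le_ofReal_iff_toReal_le (ma_lt_top _ hL ((img_sub h2).trans
        (chU_mono a2 i))).ne hC).2 h5)

end lim

/-! ### invariance -/

section iso

variable {G : KP A} {γ : M ≃ₜ M}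

theorem isOpen_ovI (γ : M ≃ₜ M) (i j : A.ι) : IsOpen (ovI A γ i j) :=
  isOpen_chU ((A.e j).open_source.preimage γ.continuous) i

theorem Iso.ph (hγ : Iso G γ) (f : M → ℝ) (i j : A.ι) : Ph (ovI A γ i j) fun z =>
    pot G (fun x => f (γ x)) i z - pot G f j (A.e j (γ ((A.e i).symm z))) := by
  intro z hz
  have ho := isOpen_ovI γ i j
  have e : (fun z => pot G (fun x => f (γ x)) i z - pot G f j (A.e j (γ ((A.e i).symm z))))
      =ᶠ[𝓝 z] fun w => G.wt i w - G.u j (γ ((A.e i).symm w)) := by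
    filter_upwards [ho.mem_nhds hz] with w hw
    simp only [pot_apply, KP.wt, (A.e j).left_inv hw.2]
    ring
  refine ⟨ContDiffAt.congr_of_eventuallyEq ?_ e, by rw [hess_congr e, hγ.tr i j z hz]⟩
  have h1 : ContDiffAt ℝ ∞ (fun w => G.wt j (A.e j (γ ((A.e i).symm w)))) z :=
    ContDiffAt.comp (g := G.wt j) (f := fun w => A.e j (γ ((A.e i).symm w))) z
      (wt_contDiffAt G j ((A.e j).map_source hz.2))
      ((smooth_of_hol ho (hγ.holo i j) hz).restrict_scalars ℝ)
  refine (wt_contDiffAt G i hz.1).sub (h1.congr_of_eventuallyEq ?_)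
  filter_upwards [ho.mem_nhds hz] with w hw
  simp only [KP.wt, (A.e j).left_inv hw.2]

theorem Iso.qp (hγ : Iso G γ) {f : M → ℝ} (hf : QP G U f) :
    QP G (γ ⁻¹' U) fun x => f (γ x) := by
  have ho := hf.op.preimage γ.continuous
  refine QP.of_chart ho (hf.cont.comp γ.continuous.continuousOn fun _ hx => hx) fun x hx => ?_
  obtain ⟨i, hi⟩ := A.cover x
  obtain ⟨j, hj⟩ := A.cover (γ x)
  have hO : IsOpen (chU A (γ ⁻¹' (U ∩ (A.e j).source)) i) :=
    isOpen_chU ((hf.op.inter (A.e j).open_source).preimage γ.continuous) i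
  have hs : chU A (γ ⁻¹' (U ∩ (A.e j).source)) i ⊆ ovI A γ i j := fun z hz => ⟨hz.1, hz.2.2⟩
  exact ⟨i, hi, _, hO.mem_nhds (mem_chU hi ⟨hx, hj⟩), (cp_of_ph hO
    ((hf.cp j).comp (isOpen_chU hf.op j) hO ((hγ.holo i j).mono hs)
      fun z hz => mem_chU hz.2.2 hz.2.1) ((hγ.ph f i j).mono hs)).2⟩

theorem MX_iso_apply (hγ : ∀ k, Iso (H k) γ) (hhol : ∀ i j, DifferentiableOn ℂ
      (fun z => A.e j (γ ((A.e i).symm z))) (ovI A γ i j))
    (hU : IsOpen U) (h : ∀ k, QP (H k) U (φ k)) {E : Set M} (hE : MeasurableSet E) :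
    MX (γ ⁻¹' U) H (fun k x => φ k (γ x)) (γ ⁻¹' E) = MX U H φ E := by
  have ho := hU.preimage γ.continuous
  have h' : ∀ k, QP (H k) (γ ⁻¹' U) fun x => φ k (γ x) := fun k => (hγ k).qp (h k)
  have key : ∀ i j E, MeasurableSet E → E ⊆ (A.e j).source → γ ⁻¹' E ⊆ (A.e i).source →
      MX (γ ⁻¹' U) H (fun k x => φ k (γ x)) (γ ⁻¹' E) = MX U H φ E := by
    intro i j E hE hj hi
    set W := U ∩ ((A.e j).source ∩ γ.symm ⁻¹' (A.e i).source) with hW
    have hWo : IsOpen W :=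
      hU.inter ((A.e j).open_source.inter ((A.e i).open_source.preimage γ.symm.continuous))
    have hO := isOpen_chU (A := A) (hWo.preimage γ.continuous) i
    have hO' := isOpen_chU (A := A) hWo j
    have hs : chU A (γ ⁻¹' W) i ⊆ ovI A γ i j := fun z hz => ⟨hz.1, hz.2.2.1⟩
    have c : ∀ k, CP (chU A W j) (pot (H k) (φ k) j) := fun k =>
      ((h k).mono hWo inter_subset_left).cp j
    have hm : MapsTo (fun z => A.e j (γ ((A.e i).symm z))) (chU A (γ ⁻¹' W) i) (chU A W j) :=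
      fun z hz => mem_chU hz.2.2.1 hz.2
    have h1 := ma_tr hO hO' (G := fun w => A.e i (γ.symm ((A.e j).symm w))) ((hhol i j).mono hs)
      ((A.e i).continuousOn.comp (γ.symm.continuous.comp_continuousOn
        ((A.e j).continuousOn_symm.mono inter_subset_left)) fun z hz => hz.2.2.2) hm
      (fun z hz => mem_chU hz.2.2.2 (by simpa using hz.2))
      (fun z hz => by
        simp only [(A.e j).left_inv hz.2.2.1, Homeomorph.symm_apply_apply, (A.e i).right_inv hz.1])
      (fun z hz => by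
        simp only [(A.e i).left_inv hz.2.2.2, Homeomorph.apply_symm_apply, (A.e j).right_inv hz.1])
      c (meas_chU j (hE.inter hU.measurableSet))
    have hEW : E ∩ U ⊆ W := fun x hx => ⟨hx.2, hj hx.1, hi (by simpa using hx.1)⟩
    rw [MX_apply ho h' i (γ.continuous.measurable hE) hi, MX_apply hU h j hE hj,
      ← (MX_cmp ho h').inter i, ← (MX_cmp hU h).inter j, ← preimage_inter,
      ma_apply_sub (isOpen_chU ho i) (fun k => (h' k).cp i) hO
        (chU_mono (preimage_mono inter_subset_left) i) (chU_mono (preimage_mono hEW) i),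
      ma_apply_sub (isOpen_chU hU j) (fun k => (h k).cp j) hO'
        (chU_mono inter_subset_left j) (chU_mono hEW j), ← h1,
      ma_ph_sub hO (fun k => (c k).comp hO' hO ((hhol i j).mono hs) hm)
        fun k => ((hγ k).ph (φ k) i j).mono hs]
    congr 1
    ext z
    refine ⟨fun hz => ⟨chU_mono (preimage_mono hEW) i hz, mem_chU (hj hz.2.1) hz.2⟩,
      fun hz => ⟨hz.1.1, ?_⟩⟩
    have h2 := hz.2.2
    rwa [mem_preimage, (A.e j).left_inv hz.1.2.2.1] at h2
  have e1 : ∀ ν : Measure M, ν = (ν.map γ.symm).map γ := fun ν => by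
    rw [Measure.map_map γ.continuous.measurable γ.symm.continuous.measurable]
    simp
  have hm := γ.continuous.measurable
  rw [← Measure.map_apply hm hE]
  congr 1
  refine ext_of_charts (A := A) fun j E hE hj => ?_
  rw [Measure.map_apply hm hE, e1 (MX U H φ), Measure.map_apply hm hE]
  have h3 : (MX (γ ⁻¹' U) H fun k x => φ k (γ x)).restrict (γ ⁻¹' (A.e j).source) =
      ((MX U H φ).map γ.symm).restrict (γ ⁻¹' (A.e j).source) := by
    refine ext_of_charts (A := A) fun i F hF hi => ?_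
    have hF' := hF.inter (hm (A.e j).open_source.measurableSet)
    rw [Measure.restrict_apply hF, Measure.restrict_apply hF,
      Measure.map_apply γ.symm.continuous.measurable hF',
      ← key i j _ (γ.symm.continuous.measurable hF') (fun x hx => by simpa using hx.2)
        fun x hx => hi (by simpa using hx.1)]
    congr 1
    ext x
    simp
  have h4 := congrArg (fun ν : Measure M => ν (γ ⁻¹' E)) h3
  simpa only [Measure.restrict_eq_self _ (preimage_mono hj)] using h4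

theorem MAo_iso (hγ : Iso G γ) {f : M → ℝ} (hf : QP G U f) :
    (MAo G (γ ⁻¹' U) fun x => f (γ x)).map γ = MAo G U f := by
  ext E hE
  rw [Measure.map_apply γ.continuous.measurable hE]
  exact MX_iso_apply (H := fun _ => G) (φ := fun _ => f) (fun _ => hγ) hγ.holo hf.op
    (fun _ => hf) hE

theorem MX_iso (hγ : Iso G γ) (h : ∀ k, QP G univ (φ k)) :
    (MX univ (fun _ => G) fun k x => φ k (γ x)).map γ = MX univ (fun _ => G) φ := by
  ext E hE
  rw [Measure.map_apply γ.continuous.measurable hE]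
  exact MX_iso_apply (H := fun _ => G) (fun _ => hγ) hγ.holo isOpen_univ h hE

end iso

end

end Crest.Agent.X261.BT
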