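import Crest.Agent.X261.BT.EnvA
import Crest.Agent.X261.BT.GlobA
import Crest.Agent.X261.BT.Bal

/-!
# X261 / BT (helper31): the envelope

* `HasC H v` (there is a competitor), `le_env`, `env_le`, `env_mono`, `env_add_const`, `env_le_add`,
  `abs_env_sub`, `QP.env_eq`, `env_concave`;
* `Obs.qp_env` : the envelope of an admissible obstacle is continuous and quasi-psh;
* `Obs.min`, `Obs.of_ce`, `Slow.obs`, `env_min_env`, `Iso.symm`, `env_iso`;
* `env_contact`, `env_ae`, `MA_touch`, `MA_env_le`.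
-/

set_option autoImplicit false
set_option linter.unusedSectionVars false

open Set Filter Topology Metric MeasureTheory
open scoped ContDiff NNReal ComplexOrder MatrixOrder

namespace Crest.Agent.X261.BT

open Crest.Agent.R275.Geo
open Crest.Agent.R281.Rich_710 (PshL dav)
open Crest.Agent.R281.Kp_487 (KP pot wt_contDiffAt uj_contDiffAt)
open Crest.Agent.R257.HoB_843 (lvE)
open Crest.Agent.R257.Glue2_101 (lvE_add lvE_const_mul)
open Crest.Agent.R273.YauDefs_635 (inC)
open Crest.Agent.R275.QN2b734 (SmP sm_iff)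
open Env

noncomputable section

variable {n : ℕ} {M : Type} [TopologicalSpace M] {A : Atl n M}
variable {H : KP A} {φ v w g : M → ℝ}

/-- the obstacle `v` has a competitor -/
def HasC (H : KP A) (v : M → ℝ) : Prop := ∃ φ, QP H univ φ ∧ ∀ y, φ y ≤ v y

theorem QP.hasC (h : QP H univ φ) (hle : ∀ y, φ y ≤ v y) : HasC H v := ⟨φ, h, hle⟩

theorem HasC.mono (h : HasC H v) (hle : ∀ y, v y ≤ w y) : HasC H w :=
  let ⟨φ, h1, h2⟩ := h; ⟨φ, h1, fun y => (h2 y).trans (hle y)⟩

theorem HasC.add_const (h : HasC H v) (c : ℝ) : HasC H fun y => v y + c :=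
  let ⟨_, h1, h2⟩ := h; ⟨_, h1.add_const c, fun y => add_le_add (h2 y) le_rfl⟩

theorem Obs.hasC (h : Obs H v) (hH : H.Semipos) : HasC H v :=
  let ⟨_, _, h1, _, h2, h3, _⟩ := h.bar; ⟨_, h2.of_sc hH h1.le, h3⟩

theorem le_env (h : QP H univ φ) (hle : ∀ y, φ y ≤ v y) (x : M) : φ x ≤ env H v x :=
  le_csSup ⟨v x, by rintro _ ⟨ψ, -, h1, rfl⟩; exact h1 x⟩ ⟨φ, h, hle, rfl⟩

theorem env_le_of (h0 : HasC H v) {x : M} {c : ℝ}
    (h : ∀ φ, QP H univ φ → (∀ y, φ y ≤ v y) → φ x ≤ c) : env H v x ≤ c :=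
  let ⟨φ, h1, h2⟩ := h0
  csSup_le ⟨_, φ, h1, h2, rfl⟩ (by rintro _ ⟨ψ, h3, h4, rfl⟩; exact h ψ h3 h4)

theorem env_le (h0 : HasC H v) (x : M) : env H v x ≤ v x := env_le_of h0 fun _ _ h => h x

theorem exists_env (h0 : HasC H v) (x : M) {ε : ℝ} (hε : 0 < ε) :
    ∃ φ, QP H univ φ ∧ (∀ y, φ y ≤ v y) ∧ env H v x < φ x + ε := by
  by_contra h
  push Not at h
  have := env_le_of h0 (x := x) (c := env H v x - ε) fun φ h1 h2 => by linarith [h φ h1 h2]
  linarith

theorem env_mono (h0 : HasC H v) (hle : ∀ y, v y ≤ w y) (x : M) : env H v x ≤ env H w x :=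
  env_le_of h0 fun _ h1 h2 => le_env h1 (fun y => (h2 y).trans (hle y)) x

/-- contraction in the sup norm -/
theorem env_le_add (h0 : HasC H v) {c : ℝ} (hle : ∀ y, v y ≤ w y + c) (x : M) :
    env H v x ≤ env H w x + c :=
  env_le_of h0 fun _ h1 h2 => by
    linarith [le_env (v := w) (h1.sub_const c) (fun y => by linarith [h2 y, hle y]) x]

theorem env_add_const (h0 : HasC H v) (c : ℝ) (x : M) :
    env H (fun y => v y + c) x = env H v x + c :=
  le_antisymm (env_le_add (h0.add_const c) (fun _ => le_rfl) x) (by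
    linarith [env_le_add h0 (w := fun y => v y + c) (c := -c) (fun y => by linarith) x])

theorem env_sub_const (h0 : HasC H v) (c : ℝ) (x : M) :
    env H (fun y => v y - c) x = env H v x - c := by
  simpa only [sub_eq_add_neg] using env_add_const h0 (-c) x

theorem abs_env_sub (h0 : HasC H v) {c : ℝ} (hle : ∀ y, |v y - w y| ≤ c) (x : M) :
    |env H v x - env H w x| ≤ c := by
  have h1 : HasC H w := (h0.add_const (-c)).mono fun y => by linarith [(abs_le.1 (hle y)).2]
  exact abs_le.2 ⟨by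
    linarith [env_le_add h1 (w := v) (c := c) (fun y => by linarith [(abs_le.1 (hle y)).1]) x], by
    linarith [env_le_add h0 (w := w) (c := c) (fun y => by linarith [(abs_le.1 (hle y)).2]) x]⟩

theorem QP.env_eq (h : QP H univ φ) : env H φ = φ :=
  funext fun x => le_antisymm (env_le (h.hasC fun _ => le_rfl) x) (le_env h (fun _ => le_rfl) x)

theorem env_concave (h0 : HasC H v) (h1 : HasC H w) {t : ℝ} (t0 : 0 ≤ t) (t1 : t ≤ 1) (x : M) :
    (1 - t) * env H v x + t * env H w x ≤ env H (fun y => (1 - t) * v y + t * w y) x := by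
  refine le_of_forall_pos_le_add fun ε hε => ?_
  obtain ⟨a, a1, a2, a3⟩ := exists_env h0 x hε
  obtain ⟨b, b1, b2, b3⟩ := exists_env h1 x hε
  have h2 := le_env (v := fun y => (1 - t) * v y + t * w y) (a1.convex b1 t0 t1) (fun y =>
    add_le_add (mul_le_mul_of_nonneg_left (a2 y) (by linarith))
      (mul_le_mul_of_nonneg_left (b2 y) t0)) x
  nlinarith

/-- the envelope for a larger form is larger -/
theorem env_mono_form {H' : KP A} (hH : ∀ φ, QP H univ φ → QP H' univ φ) (h0 : HasC H v) (x : M) :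
    env H v x ≤ env H' v x := env_le_of h0 fun φ h1 h2 => le_env (hH φ h1) h2 x

theorem lsc_env (h0 : HasC H v) : LowerSemicontinuous (env H v) := by
  intro x a ha
  obtain ⟨φ, h1, h2, h3⟩ := exists_env h0 x (sub_pos.2 ha)
  filter_upwards [h1.continuous.continuousAt.eventually (lt_mem_nhds (show a < φ x by linarith))]
    with y hy
  exact hy.trans_le (le_env h1 h2 y)

theorem env_min_env (h0 : HasC H fun y => min (v y) (w y)) :
    env H (fun y => min (env H v y) (w y)) = env H fun y => min (v y) (w y) := by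
  have h1 : HasC H v := h0.mono fun _ => min_le_left _ _
  have key : ∀ φ, QP H univ φ → (∀ y, φ y ≤ min (v y) (w y)) → ∀ y, φ y ≤ min (env H v y) (w y) :=
    fun φ a b y => le_min (le_env a (fun z => (b z).trans (min_le_left _ _)) y)
      ((b y).trans (min_le_right _ _))
  obtain ⟨ψ, a, b⟩ := h0
  exact funext fun x => le_antisymm
    (env_mono ⟨ψ, a, key ψ a b⟩ (fun y => min_le_min (env_le h1 y) le_rfl) x)
    (env_le_of ⟨ψ, a, b⟩ fun φ c d => le_env c (key φ c d) x)

theorem Env.ph_comp {m : ℕ} {O : Set (Cn n)} {O' : Set (Cn m)} {h : Cn n → ℝ} (hh : Ph O h)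
    {F : Cn m → Cn n} (hO' : IsOpen O') (hF : DifferentiableOn ℂ F O') (hm : MapsTo F O' O) :
    Ph O' fun z => h (F z) := fun z hz => by
  have a1 := smooth_of_hol hO' hF hz
  have a2 := (hh _ (hm hz)).1.comp z (a1.restrict_scalars ℝ)
  have a3 := psd_comp a1 (hh _ (hm hz)).1
    (by rw [(hh _ (hm hz)).2]; exact Matrix.PosSemidef.zero)
  have a4 := psd_comp a1 (hh.mul (-1) _ (hm hz)).1
    (by rw [(hh.mul (-1) _ (hm hz)).2]; exact Matrix.PosSemidef.zero)
  rw [R273.HessB_333.hess_const_mul (u := fun z => h (F z)) (-1) a2] at a4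
  refine ⟨a2, ?_⟩
  have a5 : (-(R273.Hess_333.hess (fun z => h (F z)) z)).PosSemidef := by simpa using a4
  exact le_antisymm (neg_nonneg.1 a5.nonneg) a3.nonneg

theorem Env.open_ovI (γ : M ≃ₜ M) (i j : A.ι) : IsOpen (ovI A γ i j) :=
  isOpen_chU ((A.e j).open_source.preimage γ.continuous) i

theorem Iso.ph0 {γ : M ≃ₜ M} (hγ : Iso H γ) (i j : A.ι) :
    Ph (ovI A γ i j) fun w => H.wt i w - H.u j (γ ((A.e i).symm w)) := fun z hz => by
  refine ⟨(wt_contDiffAt H i hz.1).sub ?_, hγ.tr i j z hz⟩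
  have h3 := (wt_contDiffAt H j ((A.e j).map_source hz.2)).comp z
    (g := H.wt j) (f := fun w => A.e j (γ ((A.e i).symm w)))
    ((smooth_of_hol (open_ovI γ i j) (hγ.holo i j) hz).restrict_scalars ℝ)
  refine h3.congr_of_eventuallyEq ?_
  filter_upwards [(open_ovI γ i j).mem_nhds hz] with y hy
  simp only [Function.comp, KP.wt, (A.e j).left_inv hy.2]

theorem Iso.symm {γ : M ≃ₜ M} (hγ : Iso H γ) : Iso H γ.symm := by
  refine ⟨hγ.holo', hγ.holo, fun i j z hz => ?_⟩
  have ho := open_ovI (A := A) γ.symm i j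
  have h1 := (Env.ph_comp (hγ.ph0 j i) ho (hγ.holo' i j) fun w hw =>
    ⟨(A.e j).map_source hw.2, by
      rw [(A.e j).left_inv hw.2, γ.apply_symm_apply]; exact (A.e i).map_target hw.1⟩).mul (-1)
  rw [← (h1 z hz).2]
  refine R273.HessB_333.hess_congr ?_
  filter_upwards [ho.mem_nhds hz] with w hw
  simp only [KP.wt, (A.e j).left_inv hw.2, γ.apply_symm_apply]
  ring

theorem Iso.sc {γ : M ≃ₜ M} (hγ : Iso H γ) (c : ℝ) : Iso (sc c H) γ :=
  ⟨hγ.holo, hγ.holo', fun i j z hz => by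
    rw [← ((hγ.ph0 i j).mul c z hz).2]
    exact R273.HessB_333.hess_congr (Eventually.of_forall fun w => (mul_sub _ _ _).symm)⟩

theorem QP.iso {γ : M ≃ₜ M} (hγ : Iso H γ) {U : Set M} (h : QP H U φ) :
    QP H (γ ⁻¹' U) fun x => φ (γ x) := by
  have hU := h.op.preimage γ.continuous
  have hc : ContinuousOn (fun x => φ (γ x)) (γ ⁻¹' U) :=
    h.cont.comp γ.continuous.continuousOn fun _ hx => hx
  refine QP.of_chart hU hc fun x hx => ?_
  obtain ⟨i, hi⟩ := A.cover x
  obtain ⟨j, hj⟩ := A.cover (γ x)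
  have ho : IsOpen (chU A (γ ⁻¹' (U ∩ (A.e j).source)) i) :=
    isOpen_chU ((h.op.inter (A.e j).open_source).preimage γ.continuous) i
  refine ⟨i, hi, _, ho.mem_nhds (mem_chU hi ⟨hx, hj⟩), ?_⟩
  have hs : chU A (γ ⁻¹' (U ∩ (A.e j).source)) i ⊆ ovI A γ i j := fun z hz => ⟨hz.1, hz.2.2⟩
  have h1 := (h.cp j).comp (isOpen_chU h.op j) ho ((hγ.holo i j).mono hs)
    fun z hz => mem_chU hz.2.2 hz.2.1
  refine ((h1.add (((hγ.ph0 i j).mono hs).cp ho) ho).congr ho fun z hz => ?_).2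
  rw [pot_e H φ hz.2.2, pot_apply]
  ring

theorem HasC.iso {γ : M ≃ₜ M} (hγ : Iso H γ) (h : HasC H v) : HasC H fun x => v (γ x) :=
  let ⟨_, h1, h2⟩ := h; ⟨_, h1.iso hγ, fun _ => h2 _⟩

/-- equivariance of the envelope -/
theorem env_iso {γ : M ≃ₜ M} (hγ : Iso H γ) (v : M → ℝ) (x : M) :
    env H (fun y => v (γ y)) x = env H v (γ x) := by
  unfold env
  congr 1
  ext s
  constructor
  · rintro ⟨ψ, h1, h2, rfl⟩
    exact ⟨_, h1.iso hγ.symm, fun y => by simpa using h2 (γ.symm y), by simp⟩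
  · rintro ⟨ψ, h1, h2, rfl⟩
    exact ⟨_, h1.iso hγ, fun y => h2 _, rfl⟩

theorem CE.homeo (γ : M ≃ₜ M) (h : CE v w) : CE (fun x => v (γ x)) fun x => w (γ x) :=
  HasCompactSupport.comp_homeomorph h γ

theorem Obs.iso {γ : M ≃ₜ M} (hγ : Iso H γ) (h : Obs H v) : Obs H fun x => v (γ x) :=
  let ⟨θ, θ0, θ1, _, hf, hfv, hce⟩ := h.bar
  ⟨h.cont.comp γ.continuous, θ, θ0, θ1, _, hf.iso (hγ.sc θ), fun _ => hfv _, hce.homeo γ⟩

theorem PP.iso {γ : M ≃ₜ M} (hγ : Iso H γ) (h : PP H φ) : PP H fun x => φ (γ x) :=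
  ⟨h.qp.iso hγ, h.cpt.comp_homeomorph γ⟩

variable [T2Space M]

theorem Obs.usc (hH : H.Pos) (h : Obs H v) : UpperSemicontinuous (env H v) := by
  classical
  obtain ⟨θ, θ0, θ1, f, hf, hfv, hce⟩ := h.bar
  obtain ⟨K, hK, hKe⟩ := hce.exists_cpt
  have hS := pos_semi hH
  have hf1 := hf.of_sc hS θ1.le
  have h0 : HasC H v := ⟨f, hf1, hfv⟩
  intro x a ha
  obtain ⟨ε, hε, hεa⟩ : ∃ ε : ℝ, 0 < ε ∧ env H v x + 3 * ε < a :=
    ⟨(a - env H v x) / 4, by linarith, by linarith⟩
  by_cases hx : x ∈ K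
  swap
  · have h1 : v x < a := by linarith [hKe x hx, le_env hf1 hfv x]
    filter_upwards [h.cont.continuousAt.eventually (gt_mem_nhds h1)] with y hy
    exact (env_le h0 y).trans_lt hy
  obtain ⟨t, ψ, s1, s2, s3, -, s5⟩ := exists_partM A hK isOpen_univ (subset_univ _)
  have hsrc : ∀ i, tsupport (ψ i) ⊆ (A.e i).source := fun i y hy => ((s2 i).sub hy).2
  set c : ℝ := 1 / (t.card + 1) with hc
  have c0 : 0 < c := by positivity
  have hbig : ∀ y ∈ K, ∃ b ∈ t, c ≤ ψ b y := fun y hy => by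
    by_contra h1
    push Not at h1
    have h2 := Finset.sum_le_card_nsmul t (fun i => ψ i y) c fun i hi => (h1 i hi).le
    rw [s5.self_of_nhdsSet y hy, nsmul_eq_mul, hc, mul_one_div, le_div_iff₀ (by positivity)] at h2
    linarith
  choose C C0 hC using fun i => exists_qp_cut hH (s1 i) (s2 i).cpt
  set D : ℝ := ∑ i ∈ t, C i with hD
  have D0 : 0 ≤ D := Finset.sum_nonneg fun i _ => C0 i
  set Q : ℝ := v x - f x with hQ
  have Q0 : 0 ≤ Q := sub_nonneg.2 (hfv x)
  -- choice of the constants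
  obtain ⟨τ, τ0, τ1, hτ⟩ : ∃ τ : ℝ, 0 < τ ∧ τ ≤ 1 / 2 ∧ τ * (Q + 2 * ε) ≤ ε :=
    ⟨min (1 / 2) (ε / (Q + 2 * ε)), by positivity, min_le_left _ _,
      (le_div_iff₀ (by positivity)).1 (min_le_right _ _)⟩
  obtain ⟨κ, κ0, κ1, hκ⟩ : ∃ κ : ℝ, 0 < κ ∧ κ ≤ ε / 2 ∧ κ * D ≤ τ * (1 - θ) := by
    have h1 : 0 < τ * (1 - θ) := mul_pos τ0 (by linarith)
    refine ⟨min (ε / 2) (τ * (1 - θ) / (D + 1)), by positivity, min_le_left _ _, ?_⟩
    have h2 := (le_div_iff₀ (by positivity)).1 (min_le_right (ε / 2) (τ * (1 - θ) / (D + 1)))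
    have h3 : 0 < min (ε / 2) (τ * (1 - θ) / (D + 1)) := by positivity
    linarith
  have c1 : c ≤ 1 := by
    rw [hc, div_le_one (by positivity)]; linarith [(Nat.cast_nonneg t.card : (0 : ℝ) ≤ _)]
  have η0 : 0 < κ * c / 4 := by positivity
  have η1 : κ * c ≤ κ := mul_le_of_le_one_right κ0.le c1
  obtain ⟨δ, ⟨e1, e2, e3⟩, hδ⟩ := (((eventually_all_finset t).2 fun i _ =>
      ev_ball (s2 i).cpt (hsrc i)).and (((eventually_all_finset t).2 fun i _ =>
      ev_up H (s2 i).cpt (hsrc i) h.cont η0).and ((eventually_all_finset t).2 fun i _ =>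
      (eventually_all_finset t).2 fun j _ => ev_cmp H ((s2 i).cpt.inter_right
        (isClosed_tsupport (ψ j))) (fun _ hy => hsrc i hy.1) (fun _ hy => hsrc j hy.2)
        hf.continuous h.cont η0)) |>.and self_mem_nhdsWithin).exists
  replace hδ : 0 < δ := hδ
  have hsup : ∀ {i y}, 0 < ψ i y → y ∈ tsupport (ψ i) := fun h1 => subset_tsupport _ h1.ne'
  obtain ⟨b, hb, hbx⟩ := hbig x hx
  have hxb := hsup (c0.trans_le hbx)
  filter_upwards [ev_low H (hsrc b hxb) hδ (e1 b hb x hxb) hε] with y hy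
  refine lt_of_le_of_lt (env_le_of h0 fun φ' p1 p2 => ?_) hεa
  have q1 := p1.max hf1
  set φ : M → ℝ := fun z => max (φ' z) (f z) with hφ
  have q2 : ∀ z, f z ≤ φ z := fun z => le_max_right _ _
  have q3 : ∀ z, φ z ≤ v z := fun z => max_le (p2 z) (hfv z)
  have κD : 0 ≤ κ * D := by positivity
  obtain ⟨G, g1, g2, g3⟩ := glue_fin (H := sc (1 + κ * D) H) t (W := fun i => {z | 0 < ψ i z})
    (C := fun i => {z | c / 2 ≤ ψ i z}) (g := fun i z => sI H δ φ i z + κ * ψ i z - κ * c)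
    (g0 := fun z => f z - κ * c / 4) ((hf.sc_le hS (by linarith)).sub_const _)
    (fun i hi => by
      have ho : IsOpen {z | 0 < ψ i z} := isOpen_lt continuous_const (s2 i).cont
      have h1 := (qp_sI q1 hδ.le ho (fun z hz => hsrc i (hsup hz))
        fun z hz => e1 i hi z (hsup hz)).sc_one.comb ((hC i κ).mono ho (subset_univ _))
        zero_le_one zero_le_one
      refine ((h1.sc_le hS ?_).congr fun z _ => by ring).sub_const _
      have h2 : C i ≤ D := Finset.single_le_sum (f := C) (fun j _ => C0 j) hi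
      rw [abs_of_pos κ0]
      nlinarith)
    (fun i _ => isClosed_le continuous_const (s2 i).cont)
    (fun i _ z hz => lt_of_lt_of_le (half_pos c0) hz)
    (fun i hi z hz hz' => by
      have h1 : κ * ψ i z ≤ κ * (c / 2) := mul_le_mul_of_nonneg_left (not_le.1 hz').le κ0.le
      by_cases h2 : z ∈ K
      · obtain ⟨j, hj, h3⟩ := hbig z h2
        refine Or.inr ⟨j, hj, le_trans (half_le_self c0.le) h3, ?_⟩
        have h4 := e3 i hi j hj φ q1 q2 q3 z ⟨hsup hz, hsup (c0.trans_le h3)⟩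
        have h5 := mul_le_mul_of_nonneg_left h3 κ0.le
        linarith
      · refine Or.inl ?_
        have h4 := e2 i hi φ q3 z (hsup hz)
        linarith [hKe z h2])
  have g4 : ∀ z, G z ≤ v z + ε := fun z => g3 z _ (by linarith [hfv z]) fun i hi hz => by
    have h1 := e2 i hi φ q3 z (hsup (lt_of_lt_of_le (half_pos c0) hz))
    have h2 := mul_le_of_le_one_right κ0.le (s3 i z).2
    linarith
  have g5 := ((g1.comb hf (s := 1 - τ) (t := τ) (by linarith) τ0.le).of_sc hS (by nlinarith)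
    ).sub_const ε
  have g6 := le_env (v := v) g5 (fun z => by nlinarith [g4 z, hfv z]) x
  have g7 := g2 b hb x (le_trans (half_le_self c0.le) hbx)
  have g8 := mul_le_mul_of_nonneg_left hbx κ0.le
  have g9 := hy φ q1.continuous
  have g10 : φ' y ≤ φ y := le_max_left _ _
  have g11 := mul_le_mul_of_nonneg_left (g4 x) τ0.le
  nlinarith

/-- **the envelope of an admissible obstacle is continuous and quasi-psh** -/
theorem Obs.qp (h : Obs H v) (hH : H.Pos) : QP H univ (env H v) := by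
  have h0 := h.hasC (pos_semi hH)
  refine QP.of_sup isOpen_univ (continuous_iff_lower_upperSemicontinuous.2
    ⟨lsc_env h0, h.usc hH⟩).continuousOn fun x _ ε hε => ?_
  obtain ⟨φ, h1, h2, h3⟩ := exists_env h0 x hε
  exact ⟨φ, h1, fun y _ => by linarith [le_env h1 h2 y], h3.le⟩

theorem Obs.ce (h : Obs H v) (hH : H.Semipos) : CE (env H v) v :=
  let ⟨_, _, h1, _, h2, h3, h4⟩ := h.bar
  h4.of_le (le_env (h2.of_sc hH h1.le) h3) (env_le (h.hasC hH))

theorem Obs.qp_env (hH : H.Pos) (h : Obs H v) : QP H univ (env H v) ∧ CE (env H v) v :=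
  ⟨h.qp hH, h.ce (pos_semi hH)⟩

theorem Obs.env_le (h : Obs H v) (hH : H.Semipos) (x : M) : env H v x ≤ v x :=
  BT.env_le (h.hasC hH) x

theorem Obs.add_const (h : Obs H v) (c : ℝ) : Obs H fun y => v y + c := by
  obtain ⟨θ, θ0, θ1, f, hf, hfv, hce⟩ := h.bar
  refine ⟨h.cont.add continuous_const, θ, θ0, θ1, _, hf.add_const c,
    fun y => add_le_add (hfv y) le_rfl, ?_⟩
  simpa only [CE, add_sub_add_right_eq_sub] using hce

/-- a larger obstacle which is the same near infinity -/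
theorem Obs.of_le (h : Obs H v) (hw : Continuous w) (hle : ∀ y, v y ≤ w y) (hc : CE v w) :
    Obs H w :=
  let ⟨θ, θ0, θ1, f, hf, hfv, hce⟩ := h.bar
  ⟨hw, θ, θ0, θ1, f, hf, fun y => (hfv y).trans (hle y), hce.trans hc⟩

theorem Obs.const (hH : H.Semipos) (c : ℝ) : Obs H fun _ => c :=
  ⟨continuous_const, 0, le_rfl, zero_lt_one, _, QP.const (semi_sc hH le_rfl) isOpen_univ c,
    fun _ => le_rfl, CE.refl _⟩

/-- deep wells with a small Hessian -/
theorem Slow.well (hs : Slow H) {K : Set M} (hK : IsCompact K) {m : ℝ} (hm : 0 ≤ m) {ε : ℝ}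
    (hε : 0 < ε) : ∃ η : M → ℝ, A.Sm η ∧ HasCompactSupport η ∧ (∀ x, 0 ≤ η x ∧ η x ≤ 1) ∧
      (∀ x ∈ K, η x = 1) ∧ QP (sc ε H) univ fun x => -m * η x := by
  obtain ⟨η, h1, h2, h3, h4, h5⟩ := hs K hK (ε / (m + 1)) (by positivity)
  refine ⟨η, h1, h2, h3, h4, QP.of_lvE isOpen_univ
    (fun x _ => (R275.QN2b734.smP_const (-m) x).mul (sm_iff.1 h1 x)) fun i z hz u => ?_⟩
  have e : pot (sc ε H) (fun x => -m * η x) i = fun z => ε * H.wt i z + -m * inC A i η z := rfl
  have a1 := wt_contDiffAt H i hz.1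
  have a2 := sm_at h1 i hz.1
  rw [e, lvE_add (contDiffAt_const.mul a1) (contDiffAt_const.mul a2), lvE_const_mul a1,
    lvE_const_mul a2]
  have a3 := (h5 i z hz.1 u).1
  have a4 : 0 ≤ ε / (m + 1) * lvE (H.wt i) z u := (abs_nonneg _).trans a3
  have a5 : ε * lvE (H.wt i) z u = (m + 1) * (ε / (m + 1) * lvE (H.wt i) z u) := by
    field_simp
  nlinarith [(abs_le.1 a3).2]

/-- an obstacle which is admissible near infinity is admissible -/
theorem Obs.of_ce (h : Obs H v) (hs : Slow H) (hw : Continuous w) (hc : CE v w) : Obs H w := by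
  obtain ⟨θ, θ0, θ1, f, hf, hfv, hce⟩ := h.bar
  obtain ⟨K, hK, hKe⟩ := (hce.trans hc).exists_cpt
  obtain ⟨m, hm⟩ := hK.exists_bound_of_continuousOn (hf.continuous.sub hw).continuousOn
  obtain ⟨η, h1, h2, h3, h4, h5⟩ := hs.well hK (le_max_right m 0)
    (show 0 < (1 - θ) / 2 by linarith)
  refine ⟨hw, 1 * θ + 1 * ((1 - θ) / 2), by linarith, by linarith, _,
    hf.comb h5 zero_le_one zero_le_one, fun y => ?_, CE.of_cpt (hK.union h2) fun y hy => ?_⟩
  · by_cases hy : y ∈ K
    · have h6 := le_of_abs_le (hm y hy)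
      rw [h4 y hy]
      simp only [Pi.sub_apply] at h6
      linarith [le_max_left m 0]
    · nlinarith [hKe y hy, (h3 y).1, le_max_right m 0]
  · rw [image_eq_zero_of_notMem_tsupport fun h6 => hy (Or.inr h6), hKe y fun h6 => hy (Or.inl h6)]
    ring

theorem Obs.min (h : Obs H v) (hs : Slow H) (hg : Continuous g) {K : Set M} (hK : IsCompact K)
    (hle : ∀ y ∉ K, v y ≤ g y) : Obs H fun y => min (v y) (g y) :=
  h.of_ce hs (h.cont.min hg) (CE.of_cpt hK fun y hy => (min_eq_left (hle y hy)).symm)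

/-- obstacles which are constant near infinity -/
theorem Slow.obs (hs : Slow H) (hH : H.Semipos) (hv : Continuous v) {c : ℝ}
    (hc : CE v fun _ => c) : Obs H v := (Obs.const hH c).of_ce hs hv hc.symm

theorem Slow.obs0 (hs : Slow H) (hH : H.Semipos) (hv : Continuous v)
    (hc : HasCompactSupport v) : Obs H v := hs.obs hH hv (CE.zero_iff.2 hc)

theorem Slow.pp_env (hs : Slow H) (hH : H.Pos) (hv : Continuous v) (hc : HasCompactSupport v) :
    PP H (env H v) :=
  let h := hs.obs0 (pos_semi hH) hv hc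
  ⟨h.qp hH, CE.zero_iff.1 ((h.ce (pos_semi hH)).trans (CE.zero_iff.2 hc))⟩

/-! ### the Monge-Ampere measure of an envelope -/

variable [MeasurableSpace M] [BorelSpace M] [Countable A.ι]

/-- **the measure of the envelope lives on the contact set** -/
theorem env_contact (hH : H.Pos) (h : Obs H v) : MA H (env H v) {x | env H v x < v x} = 0 := by
  have h1 := h.qp hH
  have hN : IsOpen {x | env H v x < v x} := isOpen_lt h1.continuous h.cont
  have h2 := MX_restrict (H := fun _ => H) (φ := fun _ => env H v) (ψ := fun _ => env H v)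
    isOpen_univ (fun _ => h1) hN (subset_univ _) fun _ _ _ => rfl
  have h3 : MX {x | env H v x < v x} (fun _ => H) (fun _ => env H v) = 0 := by
    simp only [MX, ma_noncontact_univ h1 h.cont (h.env_le (pos_semi hH))
      (fun _ a b => le_env a b), Measure.map_zero, Measure.restrict_zero, Measure.sum_zero]
  rw [← Measure.restrict_apply_self]
  exact congrArg (fun μ : Measure M => μ {x | env H v x < v x}) (h2.trans h3)

theorem env_ae (hH : H.Pos) (h : Obs H v) : ∀ᵐ x ∂MA H (env H v), env H v x = v x := by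
  filter_upwards [measure_eq_zero_iff_ae_notMem.1 (env_contact hH h)] with x hx
  exact le_antisymm (h.env_le (pos_semi hH) x) (not_lt.1 hx)

/-- contact with a local quasi-psh function -/
theorem MA_touch {U : Set M} {a : M → ℝ} (hφ : QP H univ φ) (ha : QP H U a)
    (hle : ∀ x ∈ U, φ x ≤ a x) {S : Set M} (hS : MeasurableSet S) (hSU : S ⊆ U)
    (hge : ∀ x ∈ S, a x ≤ φ x) : (MA H φ).restrict S ≤ (MAo H U a).restrict S := by
  have h2 := MX_restrict (H := fun _ => H) (φ := fun _ => φ) (ψ := fun _ => φ)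
    isOpen_univ (fun _ => hφ) ha.op (subset_univ _) fun _ _ _ => rfl
  have h3 := MX_contact (H := fun _ => H) (φ := fun _ => φ) (ψ := fun _ => a) ha.op
    (fun _ => hφ.mono ha.op (subset_univ _)) (fun _ => ha) (fun _ => hle) hS
    fun _ x hx _ => hge x hx
  have h4 := Measure.restrict_mono_measure h3 S
  rwa [← h2, Measure.restrict_restrict hS, Measure.restrict_restrict (hS.inter hS), inter_self,
    inter_eq_left.2 hSU] at h4

/-- the part of `MA (env v)` where `v` is a local quasi-psh function -/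
theorem MA_env_le (hH : H.Pos) (h : Obs H v) {U : Set M} {a : M → ℝ} (ha : QP H U a)
    (hle : ∀ x ∈ U, v x ≤ a x) {S : Set M} (hS : MeasurableSet S) (hSU : S ⊆ U)
    (hge : ∀ x ∈ S, a x ≤ v x) :
    (MA H (env H v)).restrict S ≤ (MAo H U a).restrict (S ∩ {x | env H v x = v x}) := by
  have hc : MeasurableSet {x | env H v x = v x} :=
    (isClosed_eq (h.qp hH).continuous h.cont).measurableSet
  have h1 := MA_touch (h.qp hH) ha (fun x hx => (h.env_le (pos_semi hH) x).trans (hle x hx))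
    (hS.inter hc) (inter_subset_left.trans hSU) fun x hx => (hge x hx.1).trans (le_of_eq hx.2.symm)
  refine le_trans (le_of_eq ?_) h1
  refine Measure.restrict_congr_set ?_
  filter_upwards [env_ae hH h] with x hx
  exact propext ⟨fun h2 => ⟨h2, hx⟩, fun h2 => h2.1⟩

end

end Crest.Agent.X261.BT
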