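import Crest.Agent.X261.BT.DiscX1
import Crest.Agent.X261.BT.DiscA
import Crest.Agent.X261.BT.EnvB

/-!
# X261, BT (helper19), DISC (ii), part 2: the envelope on `ℂ × M`

* `Fib H E` : the consequence of the fibre formula which is used;
* `core_of`, `jex_of` : `Fib` gives `Core` and the `ε`-Perron family.
-/

set_option autoImplicit false
set_option linter.unusedSectionVars false

open Set Filter Topology Metric Complex MeasureTheory

namespace Crest.Agent.X261.BT.DiscX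

open Crest.Agent.R275.Geo
open Crest.Agent.R281.Kp_487 (KP pot)
open Crest.Agent.R281.Rich_710 (PshL dav)

noncomputable section

variable {n : ℕ} {M : Type} [TopologicalSpace M] {A : Atl n M} {H : KP A}

theorem JQ.qp {e : ℝ} {O : Set ℂ} {Φ : ℂ → M → ℝ} (h : JQ H e O Φ) :
    QP (pbd e H) (O ×ˢ univ) fun p => Φ p.1 p.2 :=
  QP.of_jpsh (h.op.prod isOpen_univ) h.cont fun i => by rw [prU_prod]; exact h.psh i

theorem JQ.of_pbd {e : ℝ} {O : Set ℂ} (hO : IsOpen O) {F : ℂ × M → ℝ}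
    (h : QP (pbd e H) (O ×ˢ univ) F) : JQ H e O fun t x => F (t, x) :=
  ⟨hO, h.cont, fun i => by rw [← prU_prod]; exact h.jpsh i⟩

variable [T2Space M] [MeasurableSpace M] [BorelSpace M] [Countable A.ι]

/-- `-E` is subharmonic along families whose measure is below the measure of `0` -/
def Fib (H : KP A) (E : (M → ℝ) → ℝ) : Prop :=
  ∀ d > (0 : ℝ), ∀ (D : Set ℂ) (K : Set M) (b : ℂ × M → ℝ), IsOpen D → IsCompact K →
    QP (pbd d H) (D ×ˢ univ) b → (∀ t ∈ D, ∀ x ∉ K, b (t, x) = 0) →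
    MAo (pbd d H) (D ×ˢ univ) b ≤ MAo (pbd d H) (D ×ˢ univ) (fun _ => 0) →
    ContinuousOn (fun t => -E fun x => b (t, x)) D ∧ PshL D fun t => -E fun x => b (t, x)

theorem core_of (hH : H.Pos) {E : (M → ℝ) → ℝ} (fib : Fib H E) : Core H fun f => -E f := by
  intro e he θ hθ hθ1 φ v hφ hv hle K hK hoff r hr h0
  have hP := pbd_pos he hH
  have h1 : QP (sc θ (pbd e H)) univ fun p : ℂ × M => φ p.1 p.2 := by
    have h2 := hφ.qp.le_pbd (mul_nonneg hθ he.le)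
    rw [univ_prod_univ] at h2
    exact h2.of_wt (sc_pbd θ e H)
  have hO : Obs (pbd e H) fun p : ℂ × M => v p.1 p.2 :=
    ⟨hv, θ, hθ, hθ1, _, h1, fun p => hle p.1 p.2,
      CE.of_cpt ((isCompact_closedBall (0 : ℂ) 1).prod hK) fun p hp => (hoff p.1 p.2 (by
        by_contra h2
        rw [not_or, not_lt, not_not] at h2
        exact hp ⟨mem_closedBall_zero_iff.2 h2.1, h2.2⟩)).symm⟩
  have hQ := hO.qp hP
  have hS := pos_semi hP
  have h2 : ∀ p : ℂ × M, φ p.1 p.2 ≤ env (pbd e H) (fun p => v p.1 p.2) p :=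
    le_env (h1.of_sc hS hθ1.le) fun p => hle p.1 p.2
  have h3 := hO.env_le hS
  have ho : ∀ s, IsOpen (ball (0 : ℂ) s ×ˢ (univ : Set M)) := fun s => isOpen_ball.prod isOpen_univ
  refine ⟨fun t x => env (pbd e H) (fun p => v p.1 p.2) (t, x),
    JQ.of_pbd isOpen_ball (hQ.mono (ho 2) (subset_univ _)), fun t _ x => ⟨h2 (t, x), h3 (t, x)⟩,
    fun s hs hsr g hg hD => ?_⟩
  have h4 : ∀ p ∈ ball (0 : ℂ) r ×ˢ (univ : Set M), v p.1 p.2 = 0 := fun p hp =>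
    h0 p.1 p.2 (mem_ball_zero_iff.1 hp.1)
  have h5 := MA_env_le hP hO (QP.const hS (ho r) 0) (fun p hp => (h4 p hp).le)
    (ho r).measurableSet Subset.rfl fun p hp => (h4 p hp).ge
  rw [MA, MAo, MX_restrict isOpen_univ (fun _ => hQ) (ho r) (subset_univ _) fun _ _ _ => rfl] at h5
  obtain ⟨h6, h7⟩ := fib e he _ K _ isOpen_ball hK (hQ.mono (ho r) (subset_univ _))
    (fun t ht x hx => by
      have a1 := h4 (t, x) ⟨ht, mem_univ _⟩
      have a2 := hoff t x (Or.inr hx)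
      exact le_antisymm ((h3 (t, x)).trans a1.le) ((a1.symm.trans a2).le.trans (h2 (t, x))))
    (h5.trans Measure.restrict_le_self)
  have hI : PL.In (ball (0 : ℂ) r) 0 (s : ℂ) := fun w hw => by
    rw [zero_add, mem_ball_zero_iff, norm_smul, norm_real, Real.norm_of_nonneg hs.le]
    exact (mul_le_of_le_one_left hs.le hw).trans_lt hsr
  refine (PL.le_dav isOpen_ball h6 h7 hI).trans (Real.circleAverage_mono (PL.circ h6 hI)
    hg.continuousOn.circleIntegrable' fun w hw => ?_)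
  have h8 := hD w (by simpa using hw)
  rwa [zero_add, smul_eq_mul, mul_comm]

/-- **DISC (ii)** in the form of the field `J_ex` -/
theorem jex_of (hH : H.Pos) {E : (M → ℝ) → ℝ} (fib : Fib H E)
    (lip : ∀ K : Set M, IsCompact K → ∀ T : ℝ, ∃ C : ℝ, 0 ≤ C ∧ ∀ f, PP H f ∧ f ≤ 0 →
      ∀ g, PP H g ∧ g ≤ 0 → (∀ x ∉ K, f x = 0) → (∀ x ∉ K, g x = 0) → (∀ x, -T ≤ f x) →
      (∀ x, -T ≤ g x) → ∀ ε : ℝ, 0 ≤ ε → (∀ x, g x ≤ f x + ε) → -E f ≤ -E g + C * ε)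
    (bfun : ∀ K : Set M, IsCompact K → ∀ T : ℝ, ∃ b, (PP H b ∧ b ≤ 0) ∧ ∀ x ∈ K, b x ≤ -T)
    (ι : Type) [Fintype ι] (β : ι → M → ℝ) (ρ : ι → ℂ → ℝ) (hβ : ∀ i, PP H (β i) ∧ β i ≤ 0)
    (hρ : ∀ i, Continuous (ρ i)) (hρ0 : ∀ i w, 0 ≤ ρ i w) (hρ1 : ∀ w, ∑ i, ρ i w = 1)
    (ε : ℝ) (hε : 0 < ε) :
    ∃ V, JC H V ∧ (∀ w : ℂ, ‖w‖ = 1 → V w ≤ ∑ i, ρ i w • β i) ∧
      -E (V 0) ≤ Real.circleAverage (fun w => -E (∑ i, ρ i w • β i)) 0 1 + ε := by
  obtain ⟨V, h1, ⟨K, hK, h2⟩, h3, h4, h5⟩ := exists_perron (pos_semi hH) (core_of hH fib) lip bfun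
    ι β ρ hβ hρ hρ0 hρ1 ε hε
  refine ⟨V, ⟨(h1.mono isOpen_ball (ball_subset_ball one_le_two)).jp hK
    fun t ht => h2 t (mem_ball_zero_iff.1 ht).le,
    h1.cont.mono (prod_mono (closedBall_subset_ball one_lt_two) Subset.rfl), h3⟩, h4, h5⟩

end

end Crest.Agent.X261.BT.DiscX
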