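import Crest.Agent.X261.BT.Sup
import Crest.Agent.X261.BT.DiscX2
import Crest.Agent.X261.Two.DS
import Crest.Agent.X261.Two.Kes

/-!
# X261 / BT (helper21): the energy lattice of a Kaehler manifold with slow cut-off functions

`QQ H` (continuous `ω`-psh, compact support, `≤ 0`), `xiM H f` (swept mass), `lsOf : Pole.LS M`,
`msOf : Two.MS _`, `dsOf : Two.DS M`.
-/

set_option autoImplicit false
set_option linter.unusedSectionVars false

open Set Filter Topology MeasureTheory Metric Function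

namespace Crest.Agent.X261.BT

open Crest.Agent.R275.Geo
open Crest.Agent.R281.Kp_487 (KP pot)

noncomputable section

variable {n : ℕ} {M : Type} [TopologicalSpace M] {A : Atl n M}

/-- continuous `ω`-psh functions `≤ 0` with compact support -/
def QQ (H : KP A) : Set (M → ℝ) := {f | PP H f ∧ f ≤ 0}

variable [MeasurableSpace M] [BorelSpace M] [Countable A.ι] [T2Space M]

/-- the swept mass `MA 0 - 1_{f = 0} MA f` -/
def xiM (H : KP A) (f : M → ℝ) : Measure M := Sup.xi (MA H) 0 f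

variable {H : KP A} {a b c f g : M → ℝ} {s : ℝ} {K : Set M}

theorem tbI (hH : H.Pos) : Sup.Tb (QP H univ) (Obs H) (env H) (MA H) (Er H) := tb hH

theorem xiM_eq (H : KP A) : xiM H = Xi H := rfl

namespace QQ

theorem pp (h : a ∈ QQ H) : PP H a := h.1

theorem qp (h : a ∈ QQ H) : QP H univ a := h.1.qp

theorem le (h : a ∈ QQ H) (x : M) : a x ≤ 0 := h.2 x

theorem cont (h : a ∈ QQ H) : Continuous a := h.1.qp.continuous

theorem ce (h : a ∈ QQ H) : Sup.ce a 0 := ce_iff.2 h.1.ce0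

theorem zero (hH : H.Semipos) : (0 : M → ℝ) ∈ QQ H := ⟨PP.zero hH, le_rfl⟩

theorem convex (H : KP A) : Convex ℝ (QQ H) := DiscX.convex_Q H

theorem maxs (ha : a ∈ QQ H) (hb : b ∈ QQ H) (hs : 0 ≤ s) : (b ⊔ fun x => a x - s) ∈ QQ H :=
  ⟨ha.1.maxs hb.1 hs, fun x => max_le (hb.2 x) ((sub_le_self _ hs).trans (ha.2 x))⟩

theorem sup (ha : a ∈ QQ H) (hb : b ∈ QQ H) : a ⊔ b ∈ QQ H :=
  ⟨ha.1.max hb.1, sup_le ha.2 hb.2⟩

theorem tr (hH : H.Semipos) (ha : a ∈ QQ H) (hs : 0 ≤ s) : (a ⊔ fun _ => -s) ∈ QQ H := by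
  simpa using maxs (zero hH) ha hs

theorem of_le (hf : QP H univ f) (ha : a ∈ QQ H) (h : ∀ x, a x ≤ f x) (h0 : ∀ x, f x ≤ 0) :
    f ∈ QQ H := ⟨⟨hf, CE.zero_iff.1 (ha.1.ce.of_le h h0)⟩, h0⟩

theorem iso {γ : M ≃ₜ M} (hγ : Iso H γ) (ha : a ∈ QQ H) : (fun x => a (γ x)) ∈ QQ H :=
  ⟨hγ.pp ha.1, fun x => ha.2 (γ x)⟩

theorem lip (hH : H.Pos) (K : Set M) (hK : IsCompact K) (_T : ℝ) : ∃ C : ℝ, 0 ≤ C ∧
    ∀ f ∈ QQ H, ∀ g ∈ QQ H, (∀ x ∉ K, f x = 0) → (∀ x ∉ K, g x = 0) → (∀ x, -_T ≤ f x) →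
      (∀ x, -_T ≤ g x) → ∀ ε : ℝ, 0 ≤ ε → (∀ x, g x ≤ f x + ε) → -En H f ≤ -En H g + C * ε :=
  ⟨(MA H 0).real K, measureReal_nonneg, fun f hf g hg h1 h2 _ _ ε _ h3 => by
    linarith [En_lip hH hg.1 hf.1 hK h2 h1 fun x _ => h3 x]⟩

theorem bfun (hH : H.Semipos) (hS : Slow H) (K : Set M) (hK : IsCompact K) (T : ℝ) :
    ∃ b ∈ QQ H, ∀ x ∈ K, b x ≤ -T := by
  obtain ⟨η, -, h2, h3, h4, h5⟩ := hS.well hK (le_max_right T 0) one_pos
  refine ⟨_, ⟨⟨h5.of_sc hH le_rfl, h2.mul_left⟩, fun x => ?_⟩, fun x hx => ?_⟩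
  · exact mul_nonpos_of_nonpos_of_nonneg (neg_nonpos.2 (le_max_right T 0)) (h3 x).1
  · rw [h4 x hx, mul_one]
    exact neg_le_neg (le_max_left _ _)

theorem cpt_min (ha : a ∈ QQ H) (hb : b ∈ QQ H) (hs : 0 ≤ s) :
    HasCompactSupport fun x => min (a x) (b x + s) := by
  obtain ⟨K, hK, h1⟩ := ha.1.exists_cpt
  obtain ⟨L, hL, h2⟩ := hb.1.exists_cpt
  refine HasCompactSupport.intro (hK.union hL) fun x hx => ?_
  rw [h1 x fun h => hx (Or.inl h), h2 x fun h => hx (Or.inr h), zero_add]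
  exact min_eq_left hs

variable (hH : H.Pos) (hS : Slow H)
include hH hS

theorem obs (ha : a ∈ QQ H) (hb : b ∈ QQ H) (hs : 0 ≤ s) : Obs H fun x => min (a x) (b x + s) :=
  hS.obs0 (pos_semi hH) ((cont ha).min ((cont hb).add continuous_const)) (cpt_min ha hb hs)

theorem obs' {w : M → ℝ} (hw : Continuous w) (hc : Sup.ce w 0) : Obs H w :=
  hS.obs (pos_semi hH) hw (c := 0) (ce_iff.1 hc)

theorem P_le (ha : a ∈ QQ H) (hb : b ∈ QQ H) (hs : 0 ≤ s) : PE H a b s ≤ a := fun x =>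
  ((obs hH hS ha hb hs).env_le (pos_semi hH) x).trans (min_le_left _ _)

theorem P_le' (ha : a ∈ QQ H) (hb : b ∈ QQ H) (hs : 0 ≤ s) (x : M) : PE H a b s x ≤ b x + s :=
  ((obs hH hS ha hb hs).env_le (pos_semi hH) x).trans (min_le_right _ _)

theorem P_mem (ha : a ∈ QQ H) (hb : b ∈ QQ H) (hs : 0 ≤ s) : PE H a b s ∈ QQ H :=
  ⟨hS.pp_env hH (obs hH hS ha hb hs).cont (cpt_min ha hb hs), (P_le hH hS ha hb hs).trans ha.2⟩

omit hH hS in
theorem le_P (hf : QP H univ f) (h1 : f ≤ a) (h2 : ∀ x, f x ≤ b x + s) : f ≤ PE H a b s :=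
  le_env hf fun x => le_min (h1 x) (h2 x)

omit hH hS in
theorem P_iso {γ : M ≃ₜ M} (hγ : Iso H γ) (a b : M → ℝ) (s : ℝ) :
    PE H (fun x => a (γ x)) (fun x => b (γ x)) s = fun x => PE H a b s (γ x) :=
  funext fun x => env_iso hγ (fun y => min (a y) (b y + s)) x

theorem s3 (ha : a ∈ QQ H) (hb : b ∈ QQ H) (hs : 0 ≤ s) :
    -En H (b ⊔ fun x => a x - s) + -En H (PE H a b s) ≤ -En H a + -En H b := by
  have hm := maxs ha hb hs
  have h1 := (tbI hH).supmod ha.1.qp hb.1.qp s ((ce hm).trans (ce hb).symm) (obs hH hS ha hb hs)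
  have h2 := En_sub hH ha.1 (P_mem hH hS ha hb hs).1
  have h3 := En_sub hH hm.1 hb.1
  have h4 : Er H a (PE H a b s) ≤ Er H (b ⊔ fun x => a x - s) b := h1
  linarith

omit hS in
theorem cvx : ConvexOn ℝ (QQ H) fun f => -En H f :=
  ⟨convex H, fun a ha b hb s t hs ht hst => by
    have h1 : s * En H a + t * En H b ≤ En H (s • a + t • b) := En_concave hH ha.1 hb.1 hs ht hst
    simp only [smul_eq_mul]
    linarith⟩

omit hS in
theorem xi_fin (ha : a ∈ QQ H) : IsFiniteMeasure (xiM H a) :=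
  (tbI hH).xi_fin (qp_zero (pos_semi hH)) ha.1.qp ha.2 (ce ha)

omit hS in
theorem xi_anti (ha : a ∈ QQ H) (hb : b ∈ QQ H) (h : a ≤ b) : xiM H b ≤ xiM H a :=
  (tbI hH).xi_anti ha.1.qp hb.1.qp h hb.2 continuous_const

omit hH hS in
theorem xi_le (a : M → ℝ) : xiM H a ≤ MA H 0 := Sup.Tb.xi_le _ _ _

omit hS in
theorem xi_univ (ha : a ∈ QQ H) : xiM H a univ = MA H a {x | a x < 0} :=
  (tbI hH).xi_univ (qp_zero (pos_semi hH)) ha.1.qp ha.2 (ce ha)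

omit hS in
theorem xi_real (ha : a ∈ QQ H) : (xiM H a).real univ = (MA H a).real {x | a x < 0} :=
  (tbI hH).xi_real (qp_zero (pos_semi hH)) ha.1.qp ha.2 (ce ha)

omit hS in
theorem xi_zero : xiM H 0 = 0 := (tbI hH).xi_self (qp_zero (pos_semi hH))

omit hS in
theorem xi_off (ha : a ∈ QQ H) (hK : IsClosed K) (h : ∀ x ∉ K, a x = 0) :
    (xiM H a).restrict Kᶜ = 0 := (tbI hH).xi_off (qp_zero (pos_semi hH)) ha.1.qp hK h

omit hH hS in
theorem MA_iso' {γ : M ≃ₜ M} (hγ : Iso H γ) (ha : QP H univ a) :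
    (MA H fun x => a (γ x)) = (MA H a).map γ.symm := by
  rw [← MA_iso hγ ha, Measure.map_map γ.symm.continuous.measurable γ.continuous.measurable]
  simp

omit hS in
theorem xi_iso {γ : M ≃ₜ M} (hγ : Iso H γ) (ha : a ∈ QQ H) :
    xiM H (fun x => a (γ x)) = (xiM H a).map γ.symm :=
  Sup.Tb.xi_map (μ := MA H) (o := 0) γ (MA_iso' hγ (qp_zero (pos_semi hH))) (MA_iso' hγ ha.1.qp)

/-- (K5) -/
theorem k5 (ha : a ∈ QQ H) (hs : 0 ≤ s) :
    -En H a - -En H (PE H 0 a s) ≤ s * (xiM H a).real univ := by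
  have h0 := zero (pos_semi hH)
  have hP := P_mem hH hS h0 ha hs
  have h1 := (tbI hH).k5 h0.1.qp ha.1.qp hP.1.qp ha.2 hP.2 (ce ha) (ce hP) (P_le' hH hS h0 ha hs)
  have h2 := En_sub hH hP.1 ha.1
  unfold xiM
  linarith

/-- (K1) -/
theorem k1 (ha : a ∈ QQ H) (hb : b ∈ QQ H) (hs : 0 ≤ s) :
    s * ((xiM H (PE H b a s)).real univ - (xiM H b).real univ) ≤
      -En H (PE H b a 0) - -En H (PE H b a s) := by
  have h0 := zero (pos_semi hH)
  have hW := P_mem hH hS hb ha le_rfl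
  have h1 := (tbI hH).k1 h0.1.qp hb.1.qp hb.2 (ce hb) hW.1.qp ((ce hW).trans (ce hb).symm)
    (P_le hH hS hb ha le_rfl) hs (g := fun x => a x + s)
    (fun x => by linarith [P_le' hH hS hb ha le_rfl x]) (obs hH hS hb ha hs)
  have h2 := En_sub hH (P_mem hH hS hb ha hs).1 hW.1
  have h3 : s * ((xiM H (PE H b a s)).real univ - (xiM H b).real univ) ≤
    Er H (PE H b a s) (PE H b a 0) := h1
  linarith

end QQ

/-- the energy lattice -/
def lsOf (hH : H.Pos) (hS : Slow H) : Pole.LS M where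
  Q := QQ H
  D f := -En H f
  P := PE H
  zero_mem := QQ.zero (pos_semi hH)
  D_zero := by rw [En_zero, neg_zero]
  nonpos _ h := h.2
  anti _ ha _ hb h := neg_le_neg (En_mono hH ha.1 hb.1 h)
  maxs_mem _ ha _ hb _ hs := QQ.maxs ha hb hs
  P_mem _ ha _ hb _ hs := QQ.P_mem hH hS ha hb hs
  P_le _ ha _ hb _ hs := QQ.P_le hH hS ha hb hs
  P_le' _ ha _ hb _ hs := QQ.P_le' hH hS ha hb hs
  le_P _ _ _ _ _ _ _ hf := QQ.le_P hf.1.qp
  s3 _ ha _ hb _ hs := QQ.s3 hH hS ha hb hs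
  cvx := QQ.cvx hH

/-- the swept measures -/
def msOf (hH : H.Pos) (hS : Slow H) : Two.MS (lsOf hH hS) where
  xi := xiM H
  xi_fin _ h := QQ.xi_fin hH h
  xi_anti _ ha _ hb h := QQ.xi_anti hH ha hb h
  k5 _ ha _ hs := QQ.k5 hH hS ha hs
  k1 _ ha _ hb _ hs := QQ.k1 hH hS ha hb hs
  xi_zero := by rw [QQ.xi_zero hH]; rfl

/-- the facts on discs which are proved in `BT/Disc*` -/
structure Dsc (H : KP A) : Prop where
  fib : DiscX.Fib H (En H)
  sups : ∀ V W, JC H V → JC H W → ∀ α β : ℂ, (∀ w : ℂ, ‖w‖ ≤ 1 → 0 ≤ (α + w * β).re) →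
    JC H fun w => V w ⊔ fun x => W w x - (α + w * β).re
  mp : ∀ V, JC H V → ∀ (x : M) (c : ℝ), (∀ w : ℂ, ‖w‖ = 1 → V w x ≤ c) → V 0 x ≤ c
  sub : ∀ V, JC H V → ∀ g : ℂ → ℝ, Continuous g → (∀ w : ℂ, ‖w‖ = 1 → En H (V w) ≤ g w) →
    En H (V 0) ≤ Real.circleAverage g 0 1

theorem JC.zero (hH : H.Semipos) : JC H fun _ => 0 :=
  ⟨((DiscX.JQ.of_qp' (qp_zero hH)).mono isOpen_ball (subset_univ _)).jp isCompact_empty
    fun _ _ _ _ => rfl, continuousOn_const, fun _ _ => QQ.zero hH⟩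

/-- the energy calculus with discs -/
def dsOf (hH : H.Pos) (hS : Slow H) (hD : Dsc H) : Two.DS M where
  Q := QQ H
  D f := -En H f
  JP := JC H
  zero_mem := QQ.zero (pos_semi hH)
  D_zero := by rw [En_zero, neg_zero]
  convex := QQ.convex H
  cont _ h := QQ.cont h
  nonpos _ h := h.2
  cpt _ h := h.1.cpt
  sup_mem _ ha _ hb := QQ.sup ha hb
  tr_mem _ ha _ hs := QQ.tr (pos_semi hH) ha hs
  maxs_mem _ ha _ hb _ hs := QQ.maxs ha hb hs
  anti _ ha _ hb h := neg_le_neg (En_mono hH ha.1 hb.1 h)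
  lip := QQ.lip hH
  bfun := QQ.bfun (pos_semi hH) hS
  J_mem _ h := h.mem
  J_sup V W hV hW := by simpa using hD.sups V W hV hW 0 0 (by simp)
  J_tr V hV α β h := by simpa using hD.sups V _ hV (JC.zero (pos_semi hH)) α β h
  J_sups := hD.sups
  J_mp := hD.mp
  J_sub V hV g hg h := by simpa using hD.sub V hV g hg (by simpa using h)
  J_ex := DiscX.jex_of hH hD.fib (QQ.lip hH) (QQ.bfun (pos_semi hH) hS)

end

end Crest.Agent.X261.BT
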