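import Crest.Agent.X261.BT.MxA
import Crest.Agent.R281.Rich3_710

/-!
# X261, BT (helper9), part B: continuous psh functions, mollifiers, Chern-Levine-Nirenberg

* `CP O u` : continuous psh on `O`; `Sp U v` : smooth, psh on `U`; `Tst O φ` : test functions;
* `Mo O K` : a linear mollifier; `exists_mo`;
* `cln`    : the Chern-Levine-Nirenberg bound; `cauchy` : uniform continuity of `∫ φ mh v`.
-/

set_option autoImplicit false
set_option linter.unusedSectionVars false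

open Set Filter Topology Complex MeasureTheory Function Metric
open scoped ContDiff Matrix ComplexConjugate ComplexOrder Convolution Manifold

namespace Crest.Agent.X261.BT

open Crest.Agent.R275.Geo Crest.Agent.R275.EDR890
open Crest.Agent.R273.Hess_333 Crest.Agent.R273.HessB_333
open Crest.Agent.R281.Rich_710 (PshL dav cj_jc qf_hess psd_of_qf le_dav_of_lvE lvE_ge_of_le conv_le
  conv_apply disc_subset dav_congr unif_near integrable_mul_bump)
open Crest.Agent.R257.HoB_843 (lvE)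
open Crest.Agent.R257.Glue2_101 (lvE_add lvE_const_mul)

noncomputable section

variable {n : ℕ}

/-- continuous plurisubharmonic functions on `O` -/
def CP (O : Set (Cn n)) (u : Cn n → ℝ) : Prop := ContinuousOn u O ∧ PshL O u

/-- smooth functions which are plurisubharmonic on `U` -/
def Sp (U : Set (Cn n)) (v : Cn n → ℝ) : Prop :=
  ContDiff ℝ ∞ v ∧ ∀ z ∈ U, (hess v z).PosSemidef

/-- continuous test functions with compact support in `O` -/
structure Tst {X : Type*} [TopologicalSpace X] (O : Set X) (φ : X → ℝ) : Prop where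
  cont : Continuous φ
  cpt : HasCompactSupport φ
  sub : tsupport φ ⊆ O

theorem CP.mono {O O' : Set (Cn n)} {u : Cn n → ℝ} (h : CP O u) (hO : O' ⊆ O) : CP O' u :=
  ⟨h.1.mono hO, h.2.mono hO⟩

theorem Sp.mono {U U' : Set (Cn n)} {v : Cn n → ℝ} (h : Sp U v) (hU : U' ⊆ U) : Sp U' v :=
  ⟨h.1, fun z hz => h.2 z (hU hz)⟩

namespace Tst

variable {X : Type*} [TopologicalSpace X] {O O' : Set X} {φ ψ : X → ℝ}

theorem mono (h : Tst O φ) (hO : O ⊆ O') : Tst O' φ := ⟨h.cont, h.cpt, h.sub.trans hO⟩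

theorem zero_off (h : Tst O φ) {x : X} (hx : x ∉ O) : φ x = 0 :=
  image_eq_zero_of_notMem_tsupport fun h1 => hx (h.sub h1)

theorem of_cpt [T2Space X] (hc : Continuous φ) {K : Set X} (hK : IsCompact K) (hKO : K ⊆ O)
    (h0 : ∀ x, x ∉ K → φ x = 0) : Tst O φ :=
  ⟨hc, HasCompactSupport.intro hK h0,
    (closure_minimal (s := support φ) (fun x hx => not_not.1 fun h1 => hx (h0 x h1))
      hK.isClosed).trans hKO⟩

theorem add [T2Space X] (h : Tst O φ) (h' : Tst O ψ) : Tst O fun x => φ x + ψ x :=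
  of_cpt (h.cont.add h'.cont) (h.cpt.union h'.cpt) (union_subset h.sub h'.sub) fun x hx => by
    rw [image_eq_zero_of_notMem_tsupport fun h1 => hx (Or.inl h1),
      image_eq_zero_of_notMem_tsupport fun h1 => hx (Or.inr h1), add_zero]

theorem mul_on [T2Space X] (h : Tst O φ) (hO : IsOpen O) {g : X → ℝ} (hg : ContinuousOn g O) :
    Tst O fun x => φ x * g x := by
  refine of_cpt (continuous_iff_continuousAt.2 fun x => ?_) h.cpt h.sub fun x hx => by
    rw [image_eq_zero_of_notMem_tsupport hx, zero_mul]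
  by_cases hx : x ∈ tsupport φ
  · exact h.cont.continuousAt.mul (hg.continuousAt (hO.mem_nhds (h.sub hx)))
  · refine continuousAt_const.congr (f := fun _ => (0 : ℝ)) ?_
    filter_upwards [notMem_tsupport_iff_eventuallyEq.1 hx] with y hy
    rw [hy, Pi.zero_apply, zero_mul]

theorem const_mul [T2Space X] (h : Tst O φ) (c : ℝ) : Tst O fun x => c * φ x :=
  of_cpt (continuous_const.mul h.cont) h.cpt h.sub fun x hx => by
    rw [image_eq_zero_of_notMem_tsupport hx, mul_zero]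

theorem sub' [T2Space X] (h : Tst O φ) (h' : Tst O ψ) : Tst O fun x => φ x - ψ x := by
  simpa [sub_eq_add_neg] using h.add (h'.const_mul (-1))

end Tst

theorem psd_iff {v : Cn n → ℝ} {z : Cn n} (hv : ContDiffAt ℝ ∞ v z) :
    (hess v z).PosSemidef ↔ ∀ w, 0 ≤ lvE v z w := by
  refine ⟨fun h w => ?_, fun h => psd_of_qf (hess_herm hv) fun x => by rw [qf_hess hv]; exact h _⟩
  have h1 := R281.Rich_710.qf_nonneg h (R281.Rich_710.jc w)
  rwa [qf_hess hv, cj_jc] at h1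

theorem cp_of_smooth {O : Set (Cn n)} (hO : IsOpen O) {v : Cn n → ℝ}
    (hv : ∀ z ∈ O, ContDiffAt ℝ ∞ v z ∧ (hess v z).PosSemidef) : CP O v := by
  refine ⟨fun z hz => (hv z hz).1.continuousAt.continuousWithinAt, fun z hz => ?_⟩
  obtain ⟨r, hr, hb⟩ := Metric.isOpen_iff.1 hO z hz
  refine ⟨r / 2, half_pos hr, fun x hx w hw => ?_⟩
  have h1 := le_dav_of_lvE (f := v) (z := x) (v := w) (c := 0) fun t ht => by
    have h2 : x + t • w ∈ O := hb (by simpa [mul_div_cancel₀] using disc_subset hx hw ht)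
    exact ⟨(hv _ h2).1.of_le (WithTop.coe_le_coe.2 le_top), (psd_iff (hv _ h2).1).1 (hv _ h2).2 w⟩
  rwa [add_zero] at h1

theorem Sp.cp {O : Set (Cn n)} {v : Cn n → ℝ} (h : Sp O v) (hO : IsOpen O) : CP O v :=
  cp_of_smooth hO fun z hz => ⟨h.1.contDiffAt, h.2 z hz⟩

theorem CP.psd {O : Set (Cn n)} {v : Cn n → ℝ} (h : CP O v) {z : Cn n} (hz : z ∈ O)
    (hv : ContDiffAt ℝ ∞ v z) : (hess v z).PosSemidef := by
  obtain ⟨r, hr, h1⟩ := h.2 z hz
  refine (psd_iff hv).2 fun w => R281.Rich_710.lvE_nonneg_of_le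
    (hv.of_le (WithTop.coe_le_coe.2 le_top)) ⟨r / (‖w‖ + 1), by positivity, fun s hs hsr => ?_⟩
  refine h1 z (mem_ball_self hr) _ ?_
  rw [norm_smul, Real.norm_of_nonneg hs.le]
  rw [lt_div_iff₀ (by positivity)] at hsr
  nlinarith [norm_nonneg w]

theorem exists_cut {K U : Set (Cn n)} (hK : IsCompact K) (hU : IsOpen U) (hKU : K ⊆ U) :
    ∃ χ : Cn n → ℝ, ContDiff ℝ ∞ χ ∧ Tst U χ ∧ (∀ᶠ z in 𝓝ˢ K, χ z = 1) ∧ (∀ z, 0 ≤ χ z) ∧
      ∀ z, χ z ≤ 1 := by
  obtain ⟨L, hL, h1, h2⟩ := exists_compact_between hK hU hKU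
  obtain ⟨f, a1, a2, a3⟩ := exists_contMDiffMap_one_nhds_of_subset_interior (n := ⊤)
    (modelWithCornersSelf ℝ (Cn n)) hK.isClosed h1
  have hf : ContDiff ℝ ∞ f := f.contMDiff.contDiff
  exact ⟨f, hf, Tst.of_cpt hf.continuous hL h2 a2, a1, fun z => (a3 z).1, fun z => (a3 z).2⟩

theorem exists_rc {K O : Set (Cn n)} (hK : IsCompact K) (hO : IsOpen O) (hKO : K ⊆ O) :
    ∃ U, IsOpen U ∧ K ⊆ U ∧ closure U ⊆ O ∧ IsCompact (closure U) :=
  exists_open_between_and_isCompact_closure hK hO hKO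

theorem lvE_nsq (z v : Cn n) : lvE (fun x : Cn n => ‖x‖ ^ 2) z v = ‖v‖ ^ 2 := by
  have e : fderiv ℝ (fun x : Cn n => ‖x‖ ^ 2) = fun x => ((2 : ℝ) • innerSL ℝ (E := Cn n)) x := by
    funext x
    rw [fderiv_norm_sq_apply]
    ext w
    simp
  unfold lvE
  rw [e, ContinuousLinearMap.fderiv]
  have h1 : ∀ w : Cn n, ((2 : ℝ) • innerSL ℝ (E := Cn n)) w w = 2 * ‖w‖ ^ 2 := fun w => by
    rw [← real_inner_self_eq_norm_sq]; rfl
  rw [h1, h1, norm_smul, Complex.norm_I]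
  ring

theorem sp_nsq {c : ℝ} (hc : 0 ≤ c) : Sp univ fun x : Cn n => c * ‖x‖ ^ 2 := by
  have h1 : ContDiff ℝ ∞ fun x : Cn n => ‖x‖ ^ 2 := contDiff_norm_sq ℝ
  refine ⟨contDiff_const.mul h1, fun z _ => (psd_iff (contDiff_const.mul h1).contDiffAt).2 fun w => ?_⟩
  rw [lvE_const_mul h1.contDiffAt, lvE_nsq]
  positivity

theorem exists_bd2 {E : Type*} [NormedAddCommGroup E] [NormedSpace ℝ E] {χ : E → ℝ}
    (hχ : ContDiff ℝ ∞ χ) (hc : HasCompactSupport χ) :
    ∃ c : ℝ, 0 ≤ c ∧ ∀ z u, -(c * ‖u‖ ^ 2) ≤ fderiv ℝ (fderiv ℝ χ) z u u := by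
  have h1 : ContDiff ℝ ∞ (fderiv ℝ χ) := hχ.fderiv_right (m := ∞) (by simp)
  have h2 : Continuous (fderiv ℝ (fderiv ℝ χ)) := h1.continuous_fderiv (by simp)
  have h2' : HasCompactSupport (fderiv ℝ (fderiv ℝ χ)) := (hc.fderiv ℝ).fderiv ℝ
  obtain ⟨c, hc'⟩ : ∃ c : ℝ, ∀ z, ‖fderiv ℝ (fderiv ℝ χ) z‖ ≤ c :=
    Continuous.bounded_above_of_compact_support (E := E →L[ℝ] E →L[ℝ] ℝ) h2 h2'
  have hc0 : 0 ≤ c := le_trans (norm_nonneg (fderiv ℝ (fderiv ℝ χ) 0)) (hc' 0)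
  refine ⟨c, hc0, fun z u => ?_⟩
  have h3 := hc' z
  generalize fderiv ℝ (fderiv ℝ χ) z = B at h3 ⊢
  have h4 := B.le_of_opNorm₂_le_of_le h3 (le_refl ‖u‖) (le_refl ‖u‖)
  have h6 := (abs_le.1 h4).1
  linarith

/-- a smooth function with compact support is a difference of smooth psh functions -/
theorem exists_dp {χ : Cn n → ℝ} (hχ : ContDiff ℝ ∞ χ) (hc : HasCompactSupport χ) :
    ∃ c : ℝ, 0 ≤ c ∧ Sp univ fun x => χ x + c * ‖x‖ ^ 2 := by
  have h1 : ContDiff ℝ ∞ fun x : Cn n => ‖x‖ ^ 2 := contDiff_norm_sq ℝ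
  obtain ⟨c, hc0, h4⟩ := exists_bd2 hχ hc
  have h3 := hχ.add (contDiff_const (c := c).mul h1)
  refine ⟨c, hc0, h3, fun z _ => (psd_iff h3.contDiffAt).2 fun w => ?_⟩
  rw [lvE_add hχ.contDiffAt (contDiff_const.mul h1).contDiffAt, lvE_const_mul h1.contDiffAt,
    lvE_nsq]
  have h5 := h4 z w
  have h6 := h4 z (I • w)
  rw [norm_smul, Complex.norm_I, one_mul] at h6
  have h7 := mul_nonneg hc0 (sq_nonneg ‖w‖)
  unfold lvE
  linarith

/-! ### mollifiers -/

/-- a linear mollifier for functions continuous on `O`, good on `K` -/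
structure Mo (O K : Set (Cn n)) (S : ℕ → (Cn n → ℝ) → Cn n → ℝ) : Prop where
  sm : ∀ j f, ContinuousOn f O → ContDiff ℝ ∞ (S j f)
  lim : ∀ f, ContinuousOn f O → TendstoUniformlyOn (fun j => S j f) f atTop K
  psd : ∀ f, CP O f → ∀ᶠ j in atTop, ∀ z ∈ K, (hess (S j f) z).PosSemidef
  sub : ∀ j f g, ContinuousOn f O → ContinuousOn g O → ∀ z,
    S j (fun y => f y - g y) z = S j f z - S j g z
  zero : ∀ (j : ℕ) f z, (∀ y ∈ ball z (1 / ((j : ℝ) + 1)), y ∈ O → f y = 0) → S j f z = 0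
  mono : ∀ j f g, ContinuousOn f O → ContinuousOn g O → (∀ y ∈ O, f y ≤ g y) → ∀ z,
    S j f z ≤ S j g z

theorem exists_mo {O K : Set (Cn n)} (hO : IsOpen O) (hK : IsCompact K) (hKO : K ⊆ O) :
    ∃ S, Mo O K S := by
  obtain ⟨r₀, hr₀, hK2⟩ := hK.exists_cthickening_subset_open hO hKO
  obtain ⟨χ, -, hχ, h1, h2, -⟩ := exists_cut (hK.cthickening (r := r₀)) hO hK2
  have hone : ∀ x ∈ K, ∀ y ∈ ball x r₀, χ y = 1 := fun x hx y hy =>
    h1.self_of_nhdsSet y (mem_cthickening_of_dist_le y x _ _ hx (le_of_lt hy))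
  let φ : ℕ → ContDiffBump (0 : Cn n) := fun j =>
    ⟨1 / ((j : ℝ) + 1) / 2, 1 / ((j : ℝ) + 1), by positivity, half_lt_self (by positivity)⟩
  have hφ : ∀ r : ℝ, 0 < r → ∀ᶠ j in atTop, (φ j).rOut < r := fun r hr =>
    tendsto_one_div_add_atTop_nhds_zero_nat.eventually (gt_mem_nhds hr)
  have hc : ∀ {f}, ContinuousOn f O → Continuous fun y => χ y * f y := fun hf =>
    (hχ.mul_on hO hf).cont
  have hsm : ∀ j f, ContinuousOn f O → ContDiff ℝ ∞
      ((φ j).normed volume ⋆[ContinuousLinearMap.lsmul ℝ ℝ, volume] fun y => χ y * f y) :=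
    fun j f hf => (φ j).hasCompactSupport_normed.contDiff_convolution_left _
      (φ j).contDiff_normed (hc hf).locallyIntegrable
  have hi : ∀ j {f}, ContinuousOn f O → ∀ z : Cn n,
      Integrable fun t => (φ j).normed volume t * (χ (z - t) * f (z - t)) := fun j f hf z =>
    integrable_mul_bump (φ j) ((hc hf).comp (continuous_const.sub continuous_id))
  have hsub : ∀ j (x t : Cn n), t ∈ ball (0 : Cn n) (φ j).rOut → x - t ∈ ball x (φ j).rOut :=
    fun j x t ht => by simpa [mem_ball, dist_eq_norm] using ht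
  refine ⟨fun j f => (φ j).normed volume ⋆[ContinuousLinearMap.lsmul ℝ ℝ, volume]
    fun y => χ y * f y, hsm, fun f hf => ?_, fun f hf => ?_, fun j f g hf hg z => ?_,
    fun j f z h => ?_, fun j f g hf hg h z => ?_⟩
  · refine Metric.tendstoUniformlyOn_iff.2 fun ε hε => ?_
    obtain ⟨r, hr, h3⟩ := unif_near hK (fun a _ => (hc hf).continuousAt) (half_pos hε)
    filter_upwards [hφ r hr] with j hj x hx
    have h4 := (φ j).dist_normed_convolution_le (μ := volume) (x₀ := x)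
      (hc hf).aestronglyMeasurable fun y hy => h3 x hx y (ball_subset_ball hj.le hy)
    rw [hone x hx x (mem_ball_self hr₀), one_mul, dist_comm] at h4
    exact h4.trans_lt (half_lt_self hε)
  · obtain ⟨r, hr, h3⟩ := hf.2.uniform hK hKO
    filter_upwards [hφ r hr, hφ _ (half_pos hr₀)] with j hj hj' x hx
    refine (psd_iff (hsm j f hf.1).contDiffAt).2 fun v => lvE_ge_of_le
      ((hsm j f hf.1).contDiffAt.of_le (WithTop.coe_le_coe.2 le_top))
      ⟨(φ j).rOut / (‖v‖ + 1), div_pos (φ j).rOut_pos (by positivity), fun s hs hsr =>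
        conv_le (φ j) (hc hf.1) fun t ht => ?_⟩
    have hv : ‖s • v‖ < (φ j).rOut := by
      rw [norm_smul, Real.norm_of_nonneg hs.le]
      rw [lt_div_iff₀ (by positivity)] at hsr
      nlinarith [norm_nonneg v]
    rw [mul_zero, add_zero, hone x hx _ (ball_subset_ball (by linarith) (hsub j x t ht)), one_mul,
      dav_congr (g := f) fun w hw => by
        rw [hone x hx _ (ball_subset_ball (by linarith) (disc_subset (hsub j x t ht) hv hw.le)),
          one_mul]]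
    exact h3 x hx _ (ball_subset_ball hj.le (hsub j x t ht)) _ (hv.trans hj)
  · simp only [conv_apply]
    rw [← integral_sub (hi j hf z) (hi j hg z)]
    exact integral_congr_ae (Eventually.of_forall fun t => by ring)
  · simp only [conv_apply]
    refine integral_eq_zero_of_ae (Eventually.of_forall fun t => ?_)
    by_cases ht : t ∈ ball (0 : Cn n) (φ j).rOut
    · by_cases h3 : z - t ∈ O
      · simp [h _ (hsub j z t ht) h3]
      · simp [hχ.zero_off h3]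
    · rw [← (φ j).support_normed_eq (μ := volume)] at ht
      simp [notMem_support.1 ht]
  · simp only [conv_apply]
    refine integral_mono (hi j hf z) (hi j hg z) fun t =>
      mul_le_mul_of_nonneg_left ?_ ((φ j).nonneg_normed t)
    by_cases h3 : z - t ∈ O
    · exact mul_le_mul_of_nonneg_left (h _ h3) (h2 _)
    · simp [hχ.zero_off h3]

/-! ### Chern-Levine-Nirenberg -/

theorem abs_int_le {U K : Set (Cn n)} {χ ψ : Cn n → ℝ} (hχ : Tst U χ) (h1 : ∀ z ∈ K, χ z = 1)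
    (h2 : ∀ z, 0 ≤ χ z) {v : Fin n → Cn n → ℝ} (hv : ∀ k, Sp U (v k)) {ε : ℝ} (hε : 0 ≤ ε)
    (h3 : ∀ z ∈ K, |ψ z| ≤ ε) (h4 : ∀ z, z ∉ K → ψ z = 0) :
    |∫ z, ψ z * mh v z| ≤ ε * ∫ z, χ z * mh v z := by
  have hp : ∀ z, 0 ≤ χ z * mh v z := fun z => by
    by_cases hz : z ∈ U
    · exact mul_nonneg (h2 z) (mh_nonneg fun k => (hv k).2 z hz)
    · rw [hχ.zero_off hz, zero_mul]
  rw [← integral_const_mul, ← Real.norm_eq_abs]
  refine norm_integral_le_of_norm_le ((int_l hχ.cont (cont_mh fun k => (hv k).1) hχ.cpt).const_mul _)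
    (Eventually.of_forall fun z => ?_)
  by_cases hz : z ∈ K
  · have h5 := hp z
    rw [h1 z hz, one_mul] at h5 ⊢
    rw [Real.norm_eq_abs, abs_mul, abs_of_nonneg h5]
    exact mul_le_mul_of_nonneg_right (h3 z hz) h5
  · rw [h4 z hz, zero_mul, norm_zero]
    exact mul_nonneg hε (hp z)

/-- the bound for the class of tuples `P` -/
def Bd (K : Set (Cn n)) (P : (Fin n → Cn n → ℝ) → Prop) (C : ℝ) : Prop :=
  ∀ v, P v → ∀ (ψ : Cn n → ℝ) (ε : ℝ), 0 ≤ ε → (∀ z ∈ K, |ψ z| ≤ ε) → (∀ z, z ∉ K → ψ z = 0) →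
    |∫ z, ψ z * mh v z| ≤ ε * C

/-- tuples with fixed slots off `S` and bounded slots on `S` -/
def Cl (U : Set (Cn n)) (R : ℝ) (S : Finset (Fin n)) (a v : Fin n → Cn n → ℝ) : Prop :=
  (∀ k, Sp U (v k)) ∧ (∀ k ∈ S, ∀ z ∈ U, |v k z| ≤ R) ∧ ∀ k, k ∉ S → v k = a k

theorem Cl.update {U : Set (Cn n)} {R : ℝ} {S : Finset (Fin n)} {a v : Fin n → Cn n → ℝ} {k : Fin n}
    (h : Cl U R (insert k S) a v) (hk : k ∉ S) {p : Cn n → ℝ} (hp : Sp U p) :
    Cl U R S (update a k p) (update v k p) := by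
  refine ⟨fun l => ?_, fun l hl => ?_, fun l hl => ?_⟩
  · rcases eq_or_ne l k with rfl | h1
    · rwa [update_self]
    · rw [update_of_ne h1]; exact h.1 l
  · rw [update_of_ne (by rintro rfl; exact hk hl)]
    exact h.2.1 l (Finset.mem_insert_of_mem hl)
  · rcases eq_or_ne l k with rfl | h1
    · rw [update_self, update_self]
    · rw [update_of_ne h1, update_of_ne h1, h.2.2 l (by simp [h1, hl])]

theorem parts_le {U : Set (Cn n)} (hU : IsOpen U) {R : ℝ} {S : Finset (Fin n)} {k : Fin n}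
    (hk : k ∉ S) (H : ∀ a K, IsCompact K → K ⊆ U → ∃ C, 0 ≤ C ∧ Bd K (Cl U R S a) C)
    (a : Fin n → Cn n → ℝ) {χ : Cn n → ℝ} (hχ : ContDiff ℝ ∞ χ) (hc : Tst U χ) :
    ∃ C, 0 ≤ C ∧ ∀ v, Cl U R (insert k S) a v → ∀ w, ContDiff ℝ ∞ w → ∀ δ, 0 ≤ δ →
      (∀ z ∈ U, |w z| ≤ δ) → |∫ z, χ z * mh (update v k w) z| ≤ δ * C := by
  obtain ⟨χ1, -, t1, h1, h2, h3⟩ := exists_cut hc.cpt hU hc.sub
  obtain ⟨c, hc0, p1⟩ := exists_dp hχ hc.cpt
  have p2 := sp_nsq (n := n) hc0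
  obtain ⟨C1, a1, b1⟩ := H (update a k fun x => χ x + c * ‖x‖ ^ 2) _ t1.cpt t1.sub
  obtain ⟨C2, a2, b2⟩ := H (update a k fun x => c * ‖x‖ ^ 2) _ t1.cpt t1.sub
  refine ⟨C1 + C2, add_nonneg a1 a2, fun v hv w hw δ hδ h4 => ?_⟩
  have t2 := t1.mul_on hU hw.continuous.continuousOn
  have h5 : ∀ z ∈ tsupport χ1, |χ1 z * w z| ≤ δ := fun z hz => by
    rw [abs_mul, abs_of_nonneg (h2 z)]
    exact (mul_le_of_le_one_left (abs_nonneg _) (h3 z)).trans (h4 z (t1.sub hz))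
  have h6 : ∀ z, z ∉ tsupport χ1 → χ1 z * w z = 0 := fun z hz => by
    rw [image_eq_zero_of_notMem_tsupport hz, zero_mul]
  have c1 := b1 _ (hv.update hk (p1.mono (subset_univ _))) _ δ hδ h5 h6
  have c2 := b2 _ (hv.update hk (p2.mono (subset_univ _))) _ δ hδ h5 h6
  have hs : ∀ l, ContDiff ℝ ∞ (v l) := fun l => (hv.1 l).1
  rw [stokes hs k hχ hw hc.cpt]
  have e : ∀ z, w z * mh (update v k χ) z =
      χ1 z * w z * mh (update v k fun x => χ x + c * ‖x‖ ^ 2) z -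
        χ1 z * w z * mh (update v k fun x => c * ‖x‖ ^ 2) z := fun z => by
    rw [mh_update_add v k hχ.contDiffAt p2.1.contDiffAt]
    by_cases hz : z ∈ tsupport χ
    · rw [h1.self_of_nhdsSet z hz]; ring
    · rw [supp_mh v k hz]; ring
  simp only [e]
  rw [integral_sub (int_l t2.cont (cont_mh (sm_update hs k p1.1)) t2.cpt)
    (int_l t2.cont (cont_mh (sm_update hs k p2.1)) t2.cpt)]
  exact (abs_sub _ _).trans (by linarith)

theorem cln_aux {U : Set (Cn n)} (hU : IsOpen U) {R : ℝ} (hR : 0 ≤ R) (S : Finset (Fin n)) :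
    ∀ a K, IsCompact K → K ⊆ U → ∃ C, 0 ≤ C ∧ Bd K (Cl U R S a) C := by
  induction S using Finset.induction_on with
  | empty =>
    intro a K hK hKU
    obtain ⟨χ, -, t1, h1, h2, -⟩ := exists_cut hK hU hKU
    refine ⟨_, abs_nonneg (∫ z, χ z * mh a z), fun v hv ψ ε hε h3 h4 => ?_⟩
    obtain rfl : v = a := funext fun k => hv.2.2 k (by simp)
    exact (abs_int_le t1 h1.self_of_nhdsSet h2 hv.1 hε h3 h4).trans
      (mul_le_mul_of_nonneg_left (le_abs_self _) hε)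
  | insert k S hk ih =>
    intro a K hK hKU
    obtain ⟨χ, s1, t1, h1, h2, -⟩ := exists_cut hK hU hKU
    obtain ⟨C, hC, H⟩ := parts_le hU hk ih a s1 t1
    refine ⟨R * C, mul_nonneg hR hC, fun v hv ψ ε hε h3 h4 => ?_⟩
    have h5 := H v hv (v k) (hv.1 k).1 R hR (hv.2.1 k (Finset.mem_insert_self _ _))
    rw [update_eq_self] at h5
    exact (abs_int_le t1 h1.self_of_nhdsSet h2 hv.1 hε h3 h4).trans
      (mul_le_mul_of_nonneg_left ((le_abs_self _).trans h5) hε)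

/-- bounded tuples of smooth psh functions -/
def Bt (U : Set (Cn n)) (R : ℝ) (v : Fin n → Cn n → ℝ) : Prop :=
  ∀ k, Sp U (v k) ∧ ∀ z ∈ U, |v k z| ≤ R

theorem Bt.cl {U : Set (Cn n)} {R : ℝ} {v : Fin n → Cn n → ℝ} (h : Bt U R v)
    {S : Finset (Fin n)} (hS : ∀ k, k ∈ S) (a : Fin n → Cn n → ℝ) : Cl U R S a v :=
  ⟨fun k => (h k).1, fun k _ => (h k).2, fun k hk => (hk (hS k)).elim⟩

/-- **Chern-Levine-Nirenberg** -/
theorem cln {U K : Set (Cn n)} (hU : IsOpen U) (hK : IsCompact K) (hKU : K ⊆ U) {R : ℝ}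
    (hR : 0 ≤ R) : ∃ C, 0 ≤ C ∧ Bd K (Bt U R) C := by
  obtain ⟨C, hC, H⟩ := cln_aux hU hR Finset.univ 0 K hK hKU
  exact ⟨C, hC, fun v hv => H v (hv.cl Finset.mem_univ 0)⟩

theorem lip_smooth {U : Set (Cn n)} (hU : IsOpen U) {R : ℝ} (hR : 0 ≤ R) {φ : Cn n → ℝ}
    (hφ : ContDiff ℝ ∞ φ) (hc : Tst U φ) : ∃ C, 0 ≤ C ∧ ∀ v v', Bt U R v → Bt U R v' → ∀ δ, 0 ≤ δ →
      (∀ k, ∀ z ∈ U, |v k z - v' k z| ≤ δ) →
        |(∫ z, φ z * mh v z) - ∫ z, φ z * mh v' z| ≤ δ * C := by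
  choose C hC H using fun k : Fin n => parts_le hU (Finset.notMem_erase k Finset.univ)
    (cln_aux hU hR _) 0 hφ hc
  refine ⟨∑ k, C k, Finset.sum_nonneg fun k _ => hC k, fun v v' hv hv' δ hδ h1 => ?_⟩
  have key : ∀ S : Finset (Fin n),
      |(∫ z, φ z * mh (S.piecewise v v') z) - ∫ z, φ z * mh v' z| ≤ δ * ∑ k ∈ S, C k := by
    intro S
    induction S using Finset.induction_on with
    | empty => simp
    | insert k S hk ih =>
      have b1 : Bt U R (S.piecewise v v') := fun l => by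
        by_cases hl : l ∈ S
        · rw [Finset.piecewise_eq_of_mem _ _ _ hl]; exact hv l
        · rw [Finset.piecewise_eq_of_notMem _ _ _ hl]; exact hv' l
      have hs : ∀ l, ContDiff ℝ ∞ (S.piecewise v v' l) := fun l => (b1 l).1.1
      have h2 := H k _ (b1.cl (by simp) 0) (fun y => v k y - v' k y) ((hv k).1.1.sub (hv' k).1.1)
        δ hδ (h1 k)
      have e1 : update (S.piecewise v v') k (v' k) = S.piecewise v v' := by
        rw [← Finset.piecewise_eq_of_notMem S v v' hk, update_eq_self]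
      simp only [mh_update_sub _ k (hv k).1.1.contDiffAt (hv' k).1.1.contDiffAt, mul_sub, e1] at h2
      rw [integral_sub (int_l hc.cont (cont_mh (sm_update hs k (hv k).1.1)) hc.cpt)
        (int_l hc.cont (cont_mh hs) hc.cpt)] at h2
      rw [Finset.piecewise_insert, Finset.sum_insert hk, mul_add]
      exact (abs_sub_le _ _ _).trans (add_le_add h2 ih)
  simpa using key Finset.univ

theorem exists_smooth_near {U : Set (Cn n)} (hU : IsOpen U) {φ : Cn n → ℝ} (hc : Tst U φ) :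
    ∃ K, IsCompact K ∧ K ⊆ U ∧ ∀ ε, 0 < ε → ∃ φ', ContDiff ℝ ∞ φ' ∧ Tst U φ' ∧
      (∀ z, |φ z - φ' z| ≤ ε) ∧ ∀ z, z ∉ K → φ z - φ' z = 0 := by
  obtain ⟨χ, s1, t1, h1, h2, h3⟩ := exists_cut hc.cpt hU hc.sub
  obtain ⟨S, hS⟩ := exists_mo hU t1.cpt t1.sub
  refine ⟨_, t1.cpt, t1.sub, fun ε hε => ?_⟩
  obtain ⟨j, hj⟩ := (Metric.tendstoUniformlyOn_iff.1 (hS.lim φ hc.cont.continuousOn) ε hε).exists
  have s2 := hS.sm j φ hc.cont.continuousOn
  have e : ∀ z, φ z - χ z * S j φ z = χ z * (φ z - S j φ z) := fun z => by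
    by_cases hz : z ∈ tsupport φ
    · rw [h1.self_of_nhdsSet z hz]; ring
    · rw [image_eq_zero_of_notMem_tsupport hz]; ring
  refine ⟨fun z => χ z * S j φ z, s1.mul s2, t1.mul_on hU s2.continuous.continuousOn, fun z => ?_,
    fun z hz => by rw [e, image_eq_zero_of_notMem_tsupport hz, zero_mul]⟩
  rw [e]
  by_cases hz : z ∈ tsupport χ
  · rw [abs_mul, abs_of_nonneg (h2 z)]
    exact (mul_le_of_le_one_left (abs_nonneg _) (h3 z)).trans (hj z hz).le
  · rw [image_eq_zero_of_notMem_tsupport hz, zero_mul, abs_zero]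
    exact hε.le

/-- uniform continuity of `v ↦ ∫ φ mh v` on bounded tuples -/
theorem cauchy {U : Set (Cn n)} (hU : IsOpen U) {R : ℝ} (hR : 0 ≤ R) {φ : Cn n → ℝ} (hc : Tst U φ)
    {ε : ℝ} (hε : 0 < ε) : ∃ δ, 0 < δ ∧ ∀ v v', Bt U R v → Bt U R v' →
      (∀ k, ∀ z ∈ U, |v k z - v' k z| ≤ δ) → |(∫ z, φ z * mh v z) - ∫ z, φ z * mh v' z| ≤ ε := by
  obtain ⟨K, hK, hKU, H⟩ := exists_smooth_near hU hc
  obtain ⟨C, hC, b1⟩ := cln hU hK hKU hR
  obtain ⟨φ', s1, t1, h1, h2⟩ := H (ε / 3 / (C + 1)) (by positivity)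
  obtain ⟨D, hD, b2⟩ := lip_smooth hU hR s1 t1
  refine ⟨ε / 3 / (D + 1), by positivity, fun v v' hv hv' h3 => ?_⟩
  have h4 : ∀ E : ℝ, 0 ≤ E → ε / 3 / (E + 1) * E ≤ ε / 3 := fun E hE => by
    rw [div_mul_eq_mul_div, div_le_iff₀ (by positivity)]
    nlinarith
  have h5 : ∀ w, Bt U R w → |(∫ z, φ z * mh w z) - ∫ z, φ' z * mh w z| ≤ ε / 3 := fun w hw => by
    have h6 := b1 w hw _ _ (by positivity) (fun z _ => h1 z) h2
    have c1 := cont_mh fun k => (hw k).1.1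
    simp only [sub_mul] at h6
    rw [integral_sub (int_l hc.cont c1 hc.cpt) (int_l t1.cont c1 t1.cpt)] at h6
    exact h6.trans (h4 C hC)
  have h6 := (b2 v v' hv hv' _ (by positivity) h3).trans (h4 D hD)
  have h7 := abs_le.1 (h5 v hv)
  have h8 := abs_le.1 (h5 v' hv')
  have h9 := abs_le.1 h6
  exact abs_le.2 ⟨by linarith, by linarith⟩

end

end Crest.Agent.X261.BT
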