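import Crest.Agent.X261.BT.Part

/-!
# X261 / BT (helper20): abstract energy calculus

`MXS Q μ` : the formal properties of mixed Monge-Ampere measures on a class `Q`;
`ErA μ a b` : the relative energy `E a - E b`; cocycle, concavity, bounds.
-/

set_option autoImplicit false
set_option linter.unusedSectionVars false

open Set Filter Topology MeasureTheory Function
open scoped ENNReal

namespace Crest.Agent.X261.BT

noncomputable section

variable {n : ℕ} {M : Type} [TopologicalSpace M] [T2Space M] [MeasurableSpace M] [BorelSpace M]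

/-- formal properties of mixed Monge-Ampere measures -/
structure MXS (Q : (M → ℝ) → Prop) (μ : (Fin n → M → ℝ) → Measure M) : Prop where
  cont : ∀ a, Q a → Continuous a
  perm : ∀ f, (∀ k, Q (f k)) → ∀ σ : Equiv.Perm (Fin n), μ (f ∘ σ) = μ f
  fin : ∀ f, (∀ k, Q (f k)) → ∀ K, IsCompact K → μ f K < ⊤
  stokes : ∀ f, (∀ k, Q (f k)) → ∀ k a b c d, Q a → Q b → Q c → Q d → CE a b → CE c d →
    ∫ x, (a x - b x) ∂μ (update f k c) - ∫ x, (a x - b x) ∂μ (update f k d) =
      ∫ x, (c x - d x) ∂μ (update f k a) - ∫ x, (c x - d x) ∂μ (update f k b)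
  neg : ∀ f, (∀ k, Q (f k)) → ∀ k a b, Q a → Q b → CE a b →
    ∫ x, (a x - b x) ∂μ (update f k a) ≤ ∫ x, (a x - b x) ∂μ (update f k b)

/-- the relative energy `E a - E b` -/
def ErA (μ : (Fin n → M → ℝ) → Measure M) (a b : M → ℝ) : ℝ :=
  (1 / (n + 1 : ℝ)) * ∑ j ∈ Finset.range (n + 1), ∫ x, (a x - b x) ∂μ (mx n j a b)

namespace CE

variable {a b c : M → ℝ}

theorem cvx (h : CE a b) {s t : ℝ} (hst : s + t = 1) : CE a fun x => s * a x + t * b x := by
  obtain ⟨K, hK, h1⟩ := h.exists_cpt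
  exact of_cpt hK fun x hx => by rw [← h1 x hx, ← add_mul, hst, one_mul]

theorem add_const (h : CE a b) (t : ℝ) : CE (fun x => a x + t) fun x => b x + t := by
  obtain ⟨K, hK, h1⟩ := h.exists_cpt
  exact of_cpt hK fun x hx => by rw [h1 x hx]

theorem max_left (h : CE a b) : CE a fun x => max (a x) (b x) := by
  obtain ⟨K, hK, h1⟩ := h.exists_cpt
  exact of_cpt hK fun x hx => by rw [← h1 x hx, max_self]

theorem min_left (h : CE a b) : CE a fun x => min (a x) (b x) := by
  obtain ⟨K, hK, h1⟩ := h.exists_cpt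
  exact of_cpt hK fun x hx => by rw [← h1 x hx, min_self]

end CE

/-! ### tuples -/

section Tup

variable {α : Type*}

theorem mx_zero (a b : α) : mx n 0 a b = fun _ => b := by funext k; simp [mx]

theorem mx_top (a b : α) : mx n n a b = fun _ => a := by funext k; simp [mx]

theorem mx_self (j : ℕ) (a : α) : mx n j a a = fun _ => a := by funext k; simp [mx]

theorem mx_prop {P : α → Prop} {a b : α} (ha : P a) (hb : P b) (j : ℕ) (k : Fin n) :
    P (mx n j a b k) := by
  unfold mx; split_ifs <;> assumption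

theorem mx_succ {j : ℕ} (hj : j < n) (a b : α) :
    mx n (j + 1) a b = update (mx n j a b) ⟨j, hj⟩ a := by
  funext k
  by_cases h : k = ⟨j, hj⟩
  · subst h; simp [mx]
  · have h1 : (k : ℕ) ≠ j := fun h2 => h (Fin.ext h2)
    rw [update_of_ne h]
    have : (k : ℕ) < j + 1 ↔ (k : ℕ) < j := by omega
    simp [mx, this]

theorem mx_upd {j : ℕ} (hj : j < n) (a b : α) :
    update (mx n j a b) ⟨j, hj⟩ b = mx n j a b := by
  have : mx n j a b ⟨j, hj⟩ = b := by simp [mx]
  exact update_eq_self_iff.2 this.symm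

theorem mx_comp {β : Type*} (g : α → β) (j : ℕ) (a b : α) :
    (fun k => g (mx n j a b k)) = mx n j (g a) (g b) := by
  funext k; unfold mx; split_ifs <;> rfl

/-- `i` copies of `a`, then copies of `c`, then `j` copies of `b` -/
def mx3 (n i j : ℕ) (a b c : α) : Fin n → α :=
  fun k => if (k : ℕ) < i then a else if n ≤ (k : ℕ) + j then b else c

theorem mx3_prop {P : α → Prop} {a b c : α} (ha : P a) (hb : P b) (hc : P c) (i j : ℕ)
    (k : Fin n) : P (mx3 n i j a b c k) := by
  unfold mx3; split_ifs <;> assumption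

theorem mx3_ab {i : ℕ} (hi : i ≤ n) (a b c : α) : mx3 n i (n - i) a b c = mx n i a b := by
  funext k
  unfold mx3 mx
  split_ifs with h1 h2
  · rfl
  · rfl
  · omega

theorem mx3_ac (i : ℕ) (a b c : α) : mx3 n i 0 a b c = mx n i a c := by
  funext k
  have := k.2
  unfold mx3 mx
  split_ifs with h1 h2
  · rfl
  · omega
  · rfl

theorem mx3_bc (j : ℕ) (a b c : α) : mx3 n 0 j a b c ∘ Fin.revPerm = mx n j b c := by
  funext k
  have := k.2
  simp only [comp_apply, Fin.revPerm_apply, mx3, mx, Fin.val_rev, Nat.not_lt_zero, if_false]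
  split_ifs with h1 h2 h3
  · rfl
  · omega
  · omega
  · rfl

theorem upd_swap (f : Fin n → α) {k l : Fin n} (h : f k = f l) (a : α) :
    update f k a ∘ Equiv.swap k l = update f l a := by
  funext m
  by_cases h1 : m = l
  · subst h1; simp
  · by_cases h2 : m = k
    · subst h2
      rw [comp_apply, Equiv.swap_apply_left, update_of_ne h1, update_of_ne (Ne.symm h1), h]
    · rw [comp_apply, Equiv.swap_apply_of_ne_of_ne h2 h1, update_of_ne h1, update_of_ne h2]

theorem mx3_upd_a {i j : ℕ} (h : i + j < n) (a b c : α) :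
    update (mx3 n i j a b c) ⟨i, by omega⟩ a = mx3 n (i + 1) j a b c := by
  funext k
  by_cases h1 : k = ⟨i, by omega⟩
  · subst h1; simp [mx3]
  · have h2 : (k : ℕ) ≠ i := fun h2 => h1 (Fin.ext h2)
    rw [update_of_ne h1]
    have : (k : ℕ) < i + 1 ↔ (k : ℕ) < i := by omega
    simp [mx3, this]

theorem mx3_upd_b {i j : ℕ} (h : i + j < n) (a b c : α) :
    update (mx3 n i j a b c) ⟨n - 1 - j, by omega⟩ b = mx3 n i (j + 1) a b c := by
  funext k
  by_cases h1 : k = ⟨n - 1 - j, by omega⟩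
  · subst h1
    have h2 : ¬ n - 1 - j < i := by omega
    have h3 : n ≤ n - 1 - j + (j + 1) := by omega
    simp [mx3, h2, h3]
  · have h2 : (k : ℕ) ≠ n - 1 - j := fun h2 => h1 (Fin.ext h2)
    rw [update_of_ne h1]
    have : n ≤ (k : ℕ) + (j + 1) ↔ n ≤ (k : ℕ) + j := by omega
    simp [mx3, this]

theorem mx3_at_a {i j : ℕ} (h : i + j < n) (a b c : α) :
    mx3 n i j a b c ⟨i, by omega⟩ = c := by
  have h3 : ¬ n ≤ i + j := by omega
  simp [mx3, h3]

theorem mx3_at_b {i j : ℕ} (h : i + j < n) (a b c : α) :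
    mx3 n i j a b c ⟨n - 1 - j, by omega⟩ = c := by
  have h2 : ¬ n - 1 - j < i := by omega
  have h3 : ¬ n ≤ n - 1 - j + j := by omega
  simp [mx3, h2, h3]

end Tup

/-- a closed one-form on the triangle has zero integral along the boundary -/
theorem tri_sum (α β : ℕ → ℕ → ℝ) (m : ℕ)
    (h : ∀ i j, i + j < m → α i (j + 1) - α i j = β (i + 1) j - β i j) :
    ∑ i ∈ Finset.range (m + 1), (α i (m - i) - β i (m - i)) +
      ∑ j ∈ Finset.range (m + 1), β 0 j = ∑ i ∈ Finset.range (m + 1), α i 0 := by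
  induction m with
  | zero => simp
  | succ m ih =>
    have ih' := ih fun i j hij => h i j (by omega)
    have h1 : ∑ i ∈ Finset.range (m + 1 + 1), (α i (m + 1 - i) - β i (m + 1 - i)) =
        ∑ i ∈ Finset.range (m + 1), (α i (m - i) - β i (m - i)) + α (m + 1) 0 - β 0 (m + 1) := by
      rw [Finset.sum_sub_distrib, Finset.sum_range_succ (fun i => α i (m + 1 - i)),
        Finset.sum_range_succ' (fun i => β i (m + 1 - i))]
      have h2 : ∑ i ∈ Finset.range (m + 1), α i (m + 1 - i) -
          ∑ i ∈ Finset.range (m + 1), β (i + 1) (m + 1 - (i + 1)) =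
          ∑ i ∈ Finset.range (m + 1), (α i (m - i) - β i (m - i)) := by
        rw [← Finset.sum_sub_distrib]
        refine Finset.sum_congr rfl fun i hi => ?_
        have hi' := Finset.mem_range.1 hi
        have h3 := h i (m - i) (by omega)
        rw [show m + 1 - i = m - i + 1 by omega, show m + 1 - (i + 1) = m - i by omega]
        linarith
      simp only [Nat.sub_self, Nat.sub_zero]
      linarith
    rw [h1, Finset.sum_range_succ (fun j => β 0 j) (m + 1),
      Finset.sum_range_succ (fun i => α i 0) (m + 1)]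
    linarith

theorem ErA_self (μ : (Fin n → M → ℝ) → Measure M) (a : M → ℝ) : ErA μ a a = 0 := by
  simp [ErA]

namespace MXS

variable {Q : (M → ℝ) → Prop} {μ : (Fin n → M → ℝ) → Measure M} {a b c d : M → ℝ}

theorem int (h : MXS Q μ) {f : Fin n → M → ℝ} (hf : ∀ k, Q (f k)) {φ : M → ℝ}
    (hc : Continuous φ) (hs : HasCompactSupport φ) : Integrable φ (μ f) := by
  have : IsFiniteMeasureOnCompacts (μ f) := ⟨fun K hK => h.fin f hf K hK⟩
  exact hc.integrable_of_hasCompactSupport hs

theorem int_sub (h : MXS Q μ) {f : Fin n → M → ℝ} (hf : ∀ k, Q (f k)) (ha : Q a) (hb : Q b)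
    (hab : CE a b) : Integrable (fun x => a x - b x) (μ f) :=
  h.int hf ((h.cont a ha).sub (h.cont b hb)) hab

theorem upd_prop {f : Fin n → M → ℝ} (hf : ∀ k, Q (f k)) (ha : Q a) (k l : Fin n) :
    Q (update f k a l) := by
  by_cases h1 : l = k
  · subst h1; rwa [update_self]
  · rw [update_of_ne h1]; exact hf l

theorem upd_swap (h : MXS Q μ) {f : Fin n → M → ℝ} (hf : ∀ k, Q (f k)) (ha : Q a) {k l : Fin n}
    (hkl : f k = f l) : μ (update f k a) = μ (update f l a) := by
  rw [← BT.upd_swap f hkl a, h.perm _ (upd_prop hf ha k)]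

/-- the cocycle identity -/
theorem er_add (h : MXS Q μ) (ha : Q a) (hb : Q b) (hc : Q c) (hab : CE a b) (hbc : CE b c) :
    ErA μ a b + ErA μ b c = ErA μ a c := by
  have hac := hab.trans hbc
  have h3 := fun i j => mx3_prop (n := n) ha hb hc i j
  have key := tri_sum (fun i j => ∫ x, (a x - c x) ∂μ (mx3 n i j a b c))
    (fun i j => ∫ x, (b x - c x) ∂μ (mx3 n i j a b c)) n fun i j hij => by
      have h1 := h.stokes _ (h3 i j) ⟨i, by omega⟩ a c b c ha hc hb hc hac hbc
      have h2 : update (mx3 n i j a b c) ⟨i, by omega⟩ c = mx3 n i j a b c := by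
        conv_lhs => rw [← mx3_at_a hij a b c]
        rw [mx3_at_a hij a b c]
        conv_lhs => enter [3]; rw [← mx3_at_a hij a b c]
        exact update_eq_self _ _
      rw [h2, mx3_upd_a hij, h.upd_swap (h3 i j) hb
        ((mx3_at_a hij a b c).trans (mx3_at_b hij a b c).symm), mx3_upd_b hij] at h1
      exact h1
  unfold ErA
  rw [← mul_add]
  congr 1
  convert key using 2
  · refine Finset.sum_congr rfl fun i hi => ?_
    have hi' : i ≤ n := Nat.lt_succ_iff.1 (Finset.mem_range.1 hi)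
    rw [mx3_ab hi', ← integral_sub (h.int_sub (mx_prop ha hb i) ha hc hac)
      (h.int_sub (mx_prop ha hb i) hb hc hbc)]
    congr 1; funext x; ring
  · refine Finset.sum_congr rfl fun j _ => ?_
    rw [← mx3_bc j a b c, h.perm _ (h3 0 j)]
  · rw [mx3_ac]

theorem er_neg (h : MXS Q μ) (ha : Q a) (hb : Q b) (hab : CE a b) : ErA μ b a = -ErA μ a b := by
  have := h.er_add ha hb ha hab hab.symm
  rw [ErA_self] at this
  linarith

theorem er_sub (h : MXS Q μ) (ha : Q a) (hb : Q b) (hc : Q c) (hac : CE a c) (hbc : CE b c) :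
    ErA μ a c - ErA μ b c = ErA μ a b := by
  have := h.er_add ha hb hc (hac.trans hbc.symm) hbc
  linarith

theorem term_anti (h : MXS Q μ) (ha : Q a) (hb : Q b) (hab : CE a b) {i j : ℕ} (hij : i ≤ j)
    (hj : j ≤ n) :
    ∫ x, (a x - b x) ∂μ (mx n j a b) ≤ ∫ x, (a x - b x) ∂μ (mx n i a b) := by
  induction j, hij using Nat.le_induction with
  | base => exact le_rfl
  | succ j _ ih =>
    refine le_trans ?_ (ih (by omega))
    have h1 := h.neg _ (mx_prop ha hb j) ⟨j, by omega⟩ a b ha hb hab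
    rwa [mx_upd, ← mx_succ] at h1

theorem le_er (h : MXS Q μ) (ha : Q a) (hb : Q b) (hab : CE a b) :
    ∫ x, (a x - b x) ∂μ (fun _ => a) ≤ ErA μ a b := by
  have h1 : ∀ j ∈ Finset.range (n + 1), ∫ x, (a x - b x) ∂μ (fun _ => a) ≤
      ∫ x, (a x - b x) ∂μ (mx n j a b) := fun j hj => by
    have := h.term_anti ha hb hab (Nat.lt_succ_iff.1 (Finset.mem_range.1 hj)) le_rfl
    rwa [mx_top] at this
  have h2 := Finset.sum_le_sum h1
  rw [Finset.sum_const, Finset.card_range, nsmul_eq_mul] at h2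
  unfold ErA
  rw [one_div, ← div_eq_inv_mul, le_div_iff₀ (by positivity)]
  push_cast at h2
  linarith

theorem er_le (h : MXS Q μ) (ha : Q a) (hb : Q b) (hab : CE a b) :
    ErA μ a b ≤ ∫ x, (a x - b x) ∂μ (fun _ => b) := by
  have h1 : ∀ j ∈ Finset.range (n + 1), ∫ x, (a x - b x) ∂μ (mx n j a b) ≤
      ∫ x, (a x - b x) ∂μ (fun _ => b) := fun j hj => by
    have := h.term_anti ha hb hab (Nat.zero_le j) (Nat.lt_succ_iff.1 (Finset.mem_range.1 hj))
    rwa [mx_zero] at this
  have h2 := Finset.sum_le_sum h1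
  rw [Finset.sum_const, Finset.card_range, nsmul_eq_mul] at h2
  unfold ErA
  rw [one_div, ← div_eq_inv_mul, div_le_iff₀ (by positivity)]
  push_cast at h2
  linarith

theorem er_nonneg (hba : ∀ x, b x ≤ a x) : 0 ≤ ErA μ a b :=
  mul_nonneg (by positivity) (Finset.sum_nonneg fun _ _ =>
    integral_nonneg fun x => sub_nonneg.2 (hba x))

theorem er_nonpos (hab : ∀ x, a x ≤ b x) : ErA μ a b ≤ 0 :=
  mul_nonpos_of_nonneg_of_nonpos (by positivity) (Finset.sum_nonpos fun _ _ =>
    integral_nonpos fun x => sub_nonpos.2 (hab x))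

theorem er_ge_term (hba : ∀ x, b x ≤ a x) {j : ℕ} (hj : j ≤ n) :
    (∫ x, (a x - b x) ∂μ (mx n j a b)) / (n + 1) ≤ ErA μ a b := by
  unfold ErA
  rw [one_div, ← div_eq_inv_mul]
  refine div_le_div_of_nonneg_right ?_ (by positivity)
  exact Finset.single_le_sum (f := fun j => ∫ x, (a x - b x) ∂μ (mx n j a b))
    (fun _ _ => integral_nonneg fun x => sub_nonneg.2 (hba x))
    (Finset.mem_range.2 (Nat.lt_succ_iff.2 hj))

theorem er_ge (hba : ∀ x, b x ≤ a x) :
    (∫ x, (a x - b x) ∂μ (fun _ => b)) / (n + 1) ≤ ErA μ a b := by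
  have := er_ge_term (μ := μ) hba (Nat.zero_le n)
  rwa [mx_zero] at this

theorem er_mono (h : MXS Q μ) (ha : Q a) (hb : Q b) (hc : Q c) (hac : CE a c) (hbc : CE b c)
    (hab : ∀ x, a x ≤ b x) : ErA μ a c ≤ ErA μ b c := by
  have h1 := h.er_sub ha hb hc hac hbc
  have h2 := er_nonpos (μ := μ) hab
  linarith

theorem er_anti (h : MXS Q μ) (ha : Q a) (hb : Q b) (hc : Q c) (hac : CE a c) (hbc : CE b c)
    (hab : ∀ x, a x ≤ b x) : ErA μ c b ≤ ErA μ c a := by
  rw [h.er_neg hb hc hbc, h.er_neg ha hc hac]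
  exact neg_le_neg (h.er_mono ha hb hc hac hbc hab)

/-- tangent inequality (concavity in the first variable) -/
theorem er_tan (h : MXS Q μ) (ha : Q a) (hb : Q b) (hc : Q c) (hac : CE a c) (hbc : CE b c) :
    ErA μ a c ≤ ErA μ b c + ∫ x, (a x - b x) ∂μ (fun _ => b) := by
  have h1 := h.er_sub ha hb hc hac hbc
  have h2 := h.er_le ha hb (hac.trans hbc.symm)
  linarith

/-- concavity -/
theorem er_concave (h : MXS Q μ) (ha : Q a) (hb : Q b) (hc : Q c) (hac : CE a c) (hbc : CE b c)
    {s t : ℝ} (hs : 0 ≤ s) (ht : 0 ≤ t) (hst : s + t = 1)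
    (hm : Q fun x => s * a x + t * b x) :
    s * ErA μ a c + t * ErA μ b c ≤ ErA μ (fun x => s * a x + t * b x) c := by
  have hab := hac.trans hbc.symm
  have ham := hab.cvx hst
  have hmc := ham.symm.trans hac
  have h1 := h.er_tan ha hm hc hac hmc
  have h2 := h.er_tan hb hm hc hbc hmc
  have e1 : (fun x => a x - (s * a x + t * b x)) = fun x => t * (a x - b x) := by
    funext x; rw [show s = 1 - t by linarith]; ring
  have e2 : (fun x => b x - (s * a x + t * b x)) = fun x => -s * (a x - b x) := by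
    funext x; rw [show t = 1 - s by linarith]; ring
  rw [e1, integral_const_mul] at h1
  rw [e2, integral_const_mul] at h2
  have h3 := mul_le_mul_of_nonneg_left h1 hs
  have h4 := mul_le_mul_of_nonneg_left h2 ht
  have h5 : s * ErA μ (fun x => s * a x + t * b x) c + t * ErA μ (fun x => s * a x + t * b x) c =
      ErA μ (fun x => s * a x + t * b x) c := by rw [← add_mul, hst, one_mul]
  nlinarith

theorem abs_int_le (h : MXS Q μ) {f : Fin n → M → ℝ} (hf : ∀ k, Q (f k)) {K : Set M}
    (hK : IsCompact K) {φ : M → ℝ} (h0 : ∀ x, x ∉ K → φ x = 0) {S : ℝ}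
    (hS : ∀ x ∈ K, |φ x| ≤ S) : |∫ x, φ x ∂μ f| ≤ S * (μ f).real K := by
  rw [← setIntegral_eq_integral_of_forall_compl_eq_zero h0, ← Real.norm_eq_abs]
  exact norm_setIntegral_le_of_norm_le_const (h.fin f hf K hK) hS

/-- upper bound by the mass of `MA b` -/
theorem er_le_mass (h : MXS Q μ) (ha : Q a) (hb : Q b) {K : Set M} (hK : IsCompact K)
    (h0 : ∀ x, x ∉ K → a x = b x) {S : ℝ} (hS : ∀ x ∈ K, a x - b x ≤ S) :
    ErA μ a b ≤ S * (μ fun _ => b).real K := by
  have hab := CE.of_cpt hK h0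
  refine (h.er_le ha hb hab).trans ?_
  rw [← setIntegral_eq_integral_of_forall_compl_eq_zero (s := K) fun x hx => sub_eq_zero.2 (h0 x hx)]
  have h1 := setIntegral_mono_on (h.int_sub (f := fun _ => b) (fun _ => hb) ha hb hab).integrableOn
    (integrableOn_const (C := S) (h.fin _ (fun _ => hb) K hK).ne) hK.measurableSet hS
  rwa [setIntegral_const, smul_eq_mul, mul_comm] at h1

theorem abs_er_le (h : MXS Q μ) (ha : Q a) (hb : Q b) {K : Set M} (hK : IsCompact K)
    (h0 : ∀ x, x ∉ K → a x = b x) {S : ℝ} (hS : ∀ x ∈ K, |a x - b x| ≤ S)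
    (hm : (μ fun _ => a) K = (μ fun _ => b) K) : |ErA μ a b| ≤ S * (μ fun _ => b).real K := by
  refine abs_le.2 ⟨?_, h.er_le_mass ha hb hK h0 fun x hx => (le_abs_self _).trans (hS x hx)⟩
  have h1 := h.er_le_mass hb ha hK (fun x hx => (h0 x hx).symm) (S := S) fun x hx => by
    have := neg_abs_le (a x - b x); have := hS x hx; linarith
  rw [h.er_neg ha hb (CE.of_cpt hK h0), measureReal_def, hm, ← measureReal_def] at h1
  linarith

end MXS

/-- shift invariance -/
theorem ErA_shift {μ : (Fin n → M → ℝ) → Measure M} {a b : M → ℝ} {t : ℝ}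
    (h : ∀ j, μ (fun k x => mx n j a b k x + t) = μ (mx n j a b)) :
    ErA μ (fun x => a x + t) (fun x => b x + t) = ErA μ a b := by
  unfold ErA
  congr 1
  refine Finset.sum_congr rfl fun j _ => ?_
  rw [← mx_comp (fun (g : M → ℝ) x => g x + t), h j]
  congr 1; funext x; ring

/-- locality (and comparison of two families of measures) -/
theorem ErA_congr {μ μ' : (Fin n → M → ℝ) → Measure M} {a b a' b' : M → ℝ} {W : Set M}
    (h0 : ∀ x, x ∉ W → a x = b x) (h1 : ∀ x, a x - b x = a' x - b' x)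
    (h : ∀ j, (μ (mx n j a b)).restrict W = (μ' (mx n j a' b')).restrict W) :
    ErA μ a b = ErA μ' a' b' := by
  unfold ErA
  congr 1
  refine Finset.sum_congr rfl fun j _ => ?_
  rw [← setIntegral_eq_integral_of_forall_compl_eq_zero (s := W) fun x hx => sub_eq_zero.2 (h0 x hx),
    ← setIntegral_eq_integral_of_forall_compl_eq_zero (s := W) (f := fun x => a' x - b' x)
      fun x hx => by rw [← h1, h0 x hx, sub_self], h j]
  simp only [h1]

/-- invariance under a homeomorphism -/
theorem ErA_map {μ : (Fin n → M → ℝ) → Measure M} {a b : M → ℝ} (γ : M ≃ₜ M)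
    (h : ∀ j, μ (fun k x => mx n j a b k (γ x)) = (μ (mx n j a b)).map γ.symm) :
    ErA μ (fun x => a (γ x)) (fun x => b (γ x)) = ErA μ a b := by
  unfold ErA
  congr 1
  refine Finset.sum_congr rfl fun j _ => ?_
  rw [← mx_comp (fun (g : M → ℝ) x => g (γ x)), h j]
  have := γ.symm.toMeasurableEquiv.measurableEmbedding.integral_map (μ := μ (mx n j a b))
    fun x => a (γ x) - b (γ x)
  simpa using this

end

end Crest.Agent.X261.BT
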