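import Crest.Agent.X261.BT.GlobB
import Crest.Agent.X261.BT.EnA

/-!
# X261 / BT (helper9): global integration by parts without positivity hypotheses

`MX_stokes_on'`, `MX_neg_on'`, `MX_mass'`, `mxs_MX0`.
-/

set_option autoImplicit false
set_option linter.unusedSectionVars false

open Set Filter Topology MeasureTheory Metric Function
open scoped ContDiff

namespace Crest.Agent.X261.BT

open Crest.Agent.R275.Geo
open Crest.Agent.R281.Kp_487 (KP pot)

noncomputable section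

variable {n : ℕ} {M : Type} [TopologicalSpace M] [T2Space M] {A : Atl n M} {U V W K : Set M}
  {G G' : KP A} {a b c d f g P Q ψ : M → ℝ}

/-- bounded psh functions -/
def BZ (A : Atl n M) (V : Set M) (a : M → ℝ) : Prop :=
  QP (zr A) V a ∧ ∃ S, ∀ x ∈ V, |a x| ≤ S

/-- differences of bounded psh functions -/
def BD (A : Atl n M) (V : Set M) (f : M → ℝ) : Prop :=
  ∃ P Q, BZ A V P ∧ BZ A V Q ∧ ∀ x ∈ V, f x = P x - Q x

theorem BZ.prod (h : BZ A V a) (h' : BZ A V b) : IsDP A V fun x => a x * b x :=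
  let ⟨_, h1⟩ := h.2; let ⟨_, h2⟩ := h'.2; IsDP.prod h.1 semi_zr h'.1 semi_zr h1 h2

theorem BD.dp (h : BD A V f) : IsDP A V f := let ⟨P, Q, h1, h2, h3⟩ := h; ⟨_, P, Q, h1.1, h2.1, h3⟩

theorem BD.prod (h : BD A V f) (h' : BD A V g) : IsDP A V fun x => f x * g x := by
  obtain ⟨P, Q, h1, h2, h3⟩ := h
  obtain ⟨P', Q', h4, h5, h6⟩ := h'
  exact (((h1.prod h4).sub (h1.prod h5)).sub ((h2.prod h4).sub (h2.prod h5))).congr fun x hx => by
    rw [h3 x hx, h6 x hx]; ring

section chart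

variable {i : A.ι} (hV : IsOpen V) (hc : IsCompact (closure V))
  (hs : closure V ⊆ U ∩ (A.e i).source)
include hV hc hs

theorem bz_of_cp {w : Cn n → ℝ} (hw : CP (chU A U i) w) : BZ A V fun x => w (A.e i x) := by
  have h1 : ContinuousOn (fun x => w (A.e i x)) (closure V) :=
    hw.1.comp ((A.e i).continuousOn.mono fun x hx => (hs hx).2) fun x hx =>
      mem_chU (hs hx).2 (hs hx).1
  obtain ⟨S, hS⟩ := hc.exists_bound_of_continuousOn h1
  refine ⟨QP.of_chart1 hV (h1.mono subset_closure) (fun x hx => (hs (subset_closure hx)).2)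
    ((hw.mono (chU_mono (fun x hx => (hs (subset_closure hx)).1) i)).congr (isOpen_chU hV i)
      fun z hz => ?_).2, S, fun x hx => hS x (subset_closure hx)⟩
  rw [pot_apply, wt_zr, zero_add, (A.e i).right_inv hz.1]

theorem bd_sub (ha : QP G U a) (hb : QP G U b) : BD A V fun x => a x - b x :=
  ⟨_, _, bz_of_cp hV hc hs (ha.cp i), bz_of_cp hV hc hs (hb.cp i), fun x hx => by
    rw [pot_apply, pot_apply, (A.e i).left_inv (hs (subset_closure hx)).2]; ring⟩

theorem bd_sm (hU : IsOpen U) (hf : A.Sm f) : BD A V f := by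
  have ho := hU.inter (A.e i).open_source
  obtain ⟨η, s, t, h1, -⟩ := exists_cutM A hc ho hs
  have t1 := t.mul_on ho (sm_cont hf).continuousOn
  obtain ⟨C, hC, h2⟩ := exists_dp (rd_smooth t1 fun j => (s j).mul (hf j)) t1.rd.cpt
  refine ⟨_, _, bz_of_cp hV hc hs ((h2.mono (subset_univ _)).cp (isOpen_chU hU i)),
    bz_of_cp hV hc hs (((sp_nsq hC).mono (subset_univ _)).cp (isOpen_chU hU i)), fun x hx => ?_⟩
  have h3 := (hs (subset_closure hx)).2
  rw [rd_of_mem ((A.e i).map_source h3), (A.e i).left_inv h3,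
    h1.self_of_nhdsSet x (subset_closure hx)]
  ring

end chart

theorem IsDP.mono (h : IsDP A W f) (hV : IsOpen V) (hs : V ⊆ W) : IsDP A V f :=
  let ⟨G, P, Q, h⟩ := h; ⟨G, P, Q, h.p.mono hV hs, h.q.mono hV hs, fun x hx => h.eq x (hs hx)⟩

variable [MeasurableSpace M] [BorelSpace M] [Countable A.ι] {H : Fin n → KP A}
  {φ : Fin n → M → ℝ}

section slot

variable (hW : IsOpen W) (h : ∀ k, QP (H k) W (φ k)) (k : Fin n)
include hW h

theorem dI_loc (hP : QP G W P) (hQ : QP G W Q) (hV : IsOpen V) (hs : V ⊆ W)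
    (h0 : ∀ x ∈ W, x ∉ V → ψ x = 0) : dI V H φ k G P Q ψ = dI W H φ k G P Q ψ := by
  rw [dI, dI, int_MX_sub hW (qp_upd h k hP) hV hs h0, int_MX_sub hW (qp_upd h k hQ) hV hs h0]

theorem dJ_loc (h1 : IsDP A W f) (hV : IsOpen V) (hs : V ⊆ W) (hψ : Tst V ψ) :
    dJ V H φ k f ψ = dJ W H φ k f ψ := by
  obtain ⟨G, P, Q, h1⟩ := h1
  rw [dJ_eq hW h k h1 (hψ.mono hs), dJ_eq hV (fun l => (h l).mono hV hs) k
    ⟨h1.p.mono hV hs, h1.q.mono hV hs, fun x hx => h1.eq x (hs hx)⟩ hψ,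
    dI_loc hW h k h1.p h1.q hV hs fun x _ hx => hψ.zero_off hx]

theorem dJ_off (h1 : IsDP A W f) (hK : IsClosed K) (t : ℝ) (h0 : ∀ x ∈ W, x ∉ K → f x = t)
    (hψ : Tst W ψ) (hg : Tst W g) (e : ∀ x ∈ K, ψ x = g x) :
    dJ W H φ k f ψ = dJ W H φ k f g := by
  obtain ⟨G, P, Q, h1⟩ := h1
  have h2 : ∀ x ∈ W, x ∉ K → P x = Q x + t := fun x hx hx' => by
    linarith [h1.eq x hx, h0 x hx hx']
  rw [dJ_eq hW h k h1 hψ, dJ_eq hW h k h1 hg, dI_set hW h k h1.p h1.q hK t h2 hψ e,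
    dI_set hW h k h1.p h1.q hK t h2 hg fun _ _ => rfl]

theorem dJ_zero (h1 : IsDP A W f) : dJ W H φ k f (fun _ => 0) = 0 := by
  obtain ⟨G, P, Q, h1⟩ := h1
  rw [dJ_eq hW h k h1 (Tst.zero W), dI, integral_zero, integral_zero, sub_zero]

end slot

/-- finite partition with relatively compact chart domains -/
structure Pd (A : Atl n M) (U K : Set M) (t : Finset A.ι) (V : A.ι → Set M)
    (χ η : A.ι → M → ℝ) : Prop where
  op : ∀ i, IsOpen (V i)
  cpt : ∀ i, IsCompact (closure (V i))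
  sub : ∀ i, closure (V i) ⊆ U ∩ (A.e i).source
  sm : ∀ i, A.Sm (χ i)
  tχ : ∀ i, Tst (V i) (χ i)
  tη : ∀ i, Tst (V i) (η i)
  nn : ∀ i x, 0 ≤ χ i x
  one : ∀ i, ∀ x ∈ tsupport (χ i), η i x = 1
  sum : ∀ᶠ y in 𝓝ˢ K, ∑ i ∈ t, χ i y = 1

theorem exists_pd (A : Atl n M) [Countable A.ι] (hU : IsOpen U) (hK : IsCompact K) (hKU : K ⊆ U) :
    ∃ t V χ η, Pd A U K t V χ η := by
  have := lcs A
  have := sct A
  obtain ⟨t, χ, p1, p2, p3, -, p5⟩ := exists_partM A hK hU hKU
  choose V v1 v2 v3 v4 using fun i => exists_open_between_and_isCompact_closure (p2 i).cpt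
    (hU.inter (A.e i).open_source) (p2 i).sub
  choose η t1 t2 _ using fun i => exists_tst (p2 i).cpt (v1 i) (v2 i)
  exact ⟨t, V, χ, η, v1, v4, v3, p1, fun i => ⟨(p2 i).cont, (p2 i).cpt, v2 i⟩, t1,
    fun i x => (p3 i x).1, t2, p5⟩

namespace Pd

variable {t : Finset A.ι} {V : A.ι → Set M} {χ η : A.ι → M → ℝ} (p : Pd A U K t V χ η)
include p

theorem le (i : A.ι) : V i ⊆ U := fun _ hx => (p.sub i (subset_closure hx)).1

theorem ch (i : A.ι) (hf : Tst (V i) f) : Tst (V i ∩ (A.e i).source) f :=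
  hf.inter fun _ hx => (p.sub i (subset_closure (hf.sub hx))).2

theorem mul (i : A.ι) (hg : ContinuousOn g U) : Tst (V i) fun x => χ i x * g x :=
  (p.tχ i).mul_on (p.op i) (hg.mono (p.le i))

theorem csum (hg : ContinuousOn g U) : ContinuousOn (fun x => ∑ j ∈ t, χ j x * g x) U :=
  continuousOn_finsetSum _ fun j _ => (p.tχ j).cont.continuousOn.mul hg

theorem split (h0 : ∀ x ∈ U, x ∉ K → f x = 0) : ∀ x ∈ U, f x = ∑ i ∈ t, χ i x * f x :=
  fun x hx => by
    rw [← Finset.sum_mul]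
    by_cases hxK : x ∈ K
    · rw [p.sum.self_of_nhdsSet x hxK, one_mul]
    · rw [h0 x hx hxK, mul_zero]

/-- exchange of the charts -/
theorem exch (h : ∀ k, QP (H k) U (φ k)) (k : Fin n) (i : A.ι) (hf : ∀ j, IsDP A (V j) f)
    (h0 : ∀ x, x ∉ tsupport (χ i) → f x = 0) (hg : ContinuousOn g U) :
    dJ (V i) H φ k f (fun x => η i x * ∑ j ∈ t, χ j x * g x) =
      ∑ j ∈ t, dJ (V j) H φ k f fun x => χ j x * g x := by
  have h' : ∀ j l, QP (H l) (V j) (φ l) := fun j l => (h l).mono (p.op j) (p.le j)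
  have t1 : ∀ j, Tst (V i) fun x => η i x * (χ j x * g x) := fun j =>
    (p.tη i).mul_on (p.op i) (((p.tχ j).cont.continuousOn.mul hg).mono (p.le i))
  have t2 : ∀ j, Tst (V i ∩ V j) fun x => η i x * (χ j x * g x) := fun j =>
    (t1 j).inter (tsupport_mul_subset_right.trans (p.mul j hg).sub)
  obtain ⟨G, P, Q, d⟩ := hf i
  rw [dJ_eq (p.op i) (h' i) k d ((p.tη i).mul_on (p.op i) ((p.csum hg).mono (p.le i))),
    dI_sum (p.op i) (h' i) k d.p d.q t t1 fun x _ => Finset.mul_sum _ _ _]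
  refine Finset.sum_congr rfl fun j _ => ?_
  have ho := (p.op i).inter (p.op j)
  rw [← dJ_eq (p.op i) (h' i) k d (t1 j), ← dJ_loc (p.op i) (h' i) k ⟨_, _, _, d⟩ ho
    inter_subset_left (t2 j), dJ_loc (p.op j) (h' j) k (hf j) ho inter_subset_right (t2 j)]
  exact dJ_off (p.op j) (h' j) k (hf j) (isClosed_tsupport _) 0 (fun x _ hx => h0 x hx)
    ((t2 j).mono inter_subset_right) (p.mul j hg) fun x hx => by rw [p.one i x hx, one_mul]

end Pd

section main

variable (hU : IsOpen U) (h : ∀ k, QP (H k) U (φ k)) (k : Fin n)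
  (ha : QP G U a) (hb : QP G U b) (hK : IsCompact K) (hKU : K ⊆ U)
  (e : ∀ x ∈ U, x ∉ K → a x = b x)
include hU h ha hb hK hKU e

/-- **Stokes** -/
theorem MX_stokes_on' (hc : QP G' U c) (hd : QP G' U d) :
    ∫ x, (a x - b x) ∂MX U (update H k G') (update φ k c) -
      ∫ x, (a x - b x) ∂MX U (update H k G') (update φ k d) =
      ∫ x in K, (c x - d x) ∂MX U (update H k G) (update φ k a) -
        ∫ x in K, (c x - d x) ∂MX U (update H k G) (update φ k b) := by
  obtain ⟨t, V, χ, η, p⟩ := exists_pd A hU hK hKU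
  have h' : ∀ j l, QP (H l) (V j) (φ l) := fun j l => (h l).mono (p.op j) (p.le j)
  have c1 : ContinuousOn (fun x => a x - b x) U := ha.cont.sub hb.cont
  have c2 : ContinuousOn (fun x => c x - d x) U := hc.cont.sub hd.cont
  have e0 : ∀ x ∈ U, x ∉ K → a x - b x = 0 := fun x h1 h2 => sub_eq_zero.2 (e x h1 h2)
  have d1 : ∀ j i, IsDP A (V j) fun x => χ i x * (a x - b x) := fun j i =>
    (bd_sm (p.op j) (p.cpt j) (p.sub j) hU (p.sm i)).prod
      (bd_sub (p.op j) (p.cpt j) (p.sub j) ha hb)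
  have t1 : ∀ j, Tst U fun x => χ j x * (c x - d x) := fun j => (p.mul j c2).mono (p.le j)
  have t2 : Tst U fun x => ∑ j ∈ t, χ j x * (c x - d x) :=
    Tst.of_cpt (continuous_finsetSum _ fun j _ => (t1 j).cont)
      (t.isCompact_biUnion fun j _ => (t1 j).cpt) (iUnion₂_subset fun j _ => (t1 j).sub)
      fun x hx => Finset.sum_eq_zero fun j hj => image_eq_zero_of_notMem_tsupport
        (f := fun x => χ j x * (c x - d x)) fun h1 => hx (mem_biUnion hj h1)
  rw [← dI_set hU h k ha hb hK.isClosed 0 (fun x hx hx' => by rw [e x hx hx', add_zero]) t2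
      fun x hx => by rw [← Finset.sum_mul, p.sum.self_of_nhdsSet x hx, one_mul],
    dI_sum hU h k ha hb t t1 fun _ _ => rfl]
  refine (dI_sum hU h k hc hd t (fun i => (p.mul i c1).mono (p.le i)) (p.split e0)).trans ?_
  have h1 : ∀ i, dI U H φ k G' c d (fun x => χ i x * (a x - b x)) =
      ∑ j ∈ t, dJ (V j) H φ k (fun x => χ i x * (a x - b x)) fun x => χ j x * (c x - d x) := by
    intro i
    obtain ⟨G₁, P, Q, d2⟩ := d1 i i
    have t3 := (p.tη i).mul_on (p.op i) ((p.csum c2).mono (p.le i))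
    have h2 : tsupport (fun x => χ i x * (a x - b x)) ⊆ K := tsupp_of hK fun x hx => by
      by_cases hxU : x ∈ U
      · rw [e0 x hxU hx, mul_zero]
      · rw [(p.tχ i).zero_off fun h3 => hxU (p.le i h3), zero_mul]
    rw [← p.exch h k i (fun j => d1 j i) (fun x hx => by
        rw [image_eq_zero_of_notMem_tsupport hx, zero_mul]) c2, dJ_eq (p.op i) (h' i) k d2 t3,
      ← dI_loc hU h k hc hd (p.op i) (p.le i) fun x _ hx => (p.mul i c1).zero_off hx]
    exact dI_stokes1 (p.op i) (h' i) k d2 (p.ch i (p.mul i c1)) (hc.mono (p.op i) (p.le i))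
      (hd.mono (p.op i) (p.le i)) t3 fun x hx => by
        rw [p.one i x (tsupport_mul_subset_left hx), one_mul, ← Finset.sum_mul,
          p.sum.self_of_nhdsSet x (h2 hx), one_mul]
  simp only [h1]
  rw [Finset.sum_comm]
  refine Finset.sum_congr rfl fun j _ => ?_
  rw [← dJ_sum (p.op j) (h' j) k t (d1 j) (p.mul j c2), dJ_eq (p.op j) (h' j) k
    ⟨ha.mono (p.op j) (p.le j), hb.mono (p.op j) (p.le j), fun x hx =>
      (p.split e0 x (p.le j hx)).symm⟩ (p.mul j c2),
    dI_loc hU h k ha hb (p.op j) (p.le j) fun x _ hx => (p.mul j c2).zero_off hx]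

/-- **negativity** -/
theorem MX_neg_on' : ∫ x, (a x - b x) ∂MX U (update H k G) (update φ k a) ≤
    ∫ x, (a x - b x) ∂MX U (update H k G) (update φ k b) := by
  obtain ⟨t, V, χ, η, p⟩ := exists_pd A hU hK hKU
  have h' : ∀ j l, QP (H l) (V j) (φ l) := fun j l => (h l).mono (p.op j) (p.le j)
  have c1 : ContinuousOn (fun x => a x - b x) U := ha.cont.sub hb.cont
  have c2 : ContinuousOn (fun x => (a x - b x) ^ 2) U := c1.pow 2
  have e0 : ∀ x ∈ U, x ∉ K → a x - b x = 0 := fun x h1 h2 => sub_eq_zero.2 (e x h1 h2)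
  have e2 : ∀ x ∈ U, x ∉ K → (a x - b x) ^ 2 = 0 := fun x h1 h2 => by rw [e0 x h1 h2]; simp
  have d1 : ∀ j i, IsDP A (V j) (χ i) := fun j i =>
    (bd_sm (p.op j) (p.cpt j) (p.sub j) hU (p.sm i)).dp
  have h1 : ∀ i, 2 * dI U H φ k G a b (fun x => χ i x * (a x - b x)) ≤
      ∑ j ∈ t, dJ (V j) H φ k (χ i) fun x => χ j x * (a x - b x) ^ 2 := by
    intro i
    obtain ⟨G₁, P, Q, d2⟩ := d1 i i
    have t3 := (p.tη i).mul_on (p.op i) ((p.csum c2).mono (p.le i))
    rw [← p.exch h k i (fun j => d1 j i) (fun x hx => image_eq_zero_of_notMem_tsupport hx) c2,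
      dJ_eq (p.op i) (h' i) k d2 t3,
      ← dI_loc hU h k ha hb (p.op i) (p.le i) fun x _ hx => (p.mul i c1).zero_off hx]
    exact dI_neg1 (p.op i) (h' i) k d2 (p.ch i (p.tχ i)) (p.nn i) (ha.mono (p.op i) (p.le i))
      (hb.mono (p.op i) (p.le i)) t3 fun x hx => by
        rw [p.one i x hx, one_mul, ← p.split e2 x (p.le i ((p.tχ i).sub hx))]
  obtain ⟨W, v1, v2, v3⟩ := mem_nhdsSet_iff_exists.1 p.sum
  have h2 : 2 * dI U H φ k G a b (fun x => a x - b x) ≤ 0 := by
    rw [dI_sum hU h k ha hb t (fun i => (p.mul i c1).mono (p.le i)) (p.split e0), Finset.mul_sum]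
    refine (Finset.sum_le_sum fun i _ => h1 i).trans (le_of_eq ?_)
    rw [Finset.sum_comm]
    refine Finset.sum_eq_zero fun j _ => ?_
    have d3 := IsDP.sum (p.op j) t (d1 j)
    rw [← dJ_sum (p.op j) (h' j) k t (d1 j) (p.mul j c2), dJ_off (p.op j) (h' j) k d3
      v1.isClosed_compl 1 (fun x _ hx => v3 (not_not.1 hx)) (p.mul j c2) (Tst.zero _) fun x hx => by
        by_cases hxU : x ∈ U
        · rw [e2 x hxU fun h3 => hx (v2 h3), mul_zero]
        · rw [(p.tχ j).zero_off fun h3 => hxU (p.le j h3), zero_mul],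
      dJ_zero (p.op j) (h' j) k d3]
  rw [dI] at h2
  linarith

theorem MX_mass_upd' : (MX U (update H k G) (update φ k a)).real K =
    (MX U (update H k G) (update φ k b)).real K := by
  have h1 := MX_stokes_on' hU h k ha hb hK hKU e (hb.add_const 1) hb
  have h2 : MX U (update H k G) (update φ k fun x => b x + 1) =
      MX U (update H k G) (update φ k b) := by
    rw [← MX_const hU (qp_upd h k hb) (update 0 k 1)]
    congr 1
    funext l x
    rcases eq_or_ne l k with rfl | hl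
    · simp only [update_self]
    · simp only [update_of_ne hl, Pi.zero_apply, add_zero]
  simp only [h2, sub_self, add_sub_cancel_left, integral_const, smul_eq_mul, mul_one,
    measureReal_restrict_apply_univ] at h1
  linarith

end main

/-- **conservation of the mass** -/
theorem MX_mass' {U : Set M} {H : Fin n → KP A} {φ ψ : Fin n → M → ℝ} (hU : IsOpen U)
    (h : ∀ k, QP (H k) U (φ k)) (h' : ∀ k, QP (H k) U (ψ k)) {K : Set M} (hK : IsCompact K)
    (hKU : K ⊆ U) (he : ∀ k, ∀ x ∈ U, x ∉ K → φ k x = ψ k x) : MX U H φ K = MX U H ψ K := by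
  rw [← ENNReal.toReal_eq_toReal_iff' (MX_lt_top hU h hK hKU).ne (MX_lt_top hU h' hK hKU).ne]
  exact slots_ind' (P := fun w => (MX U H w).real K = (MX U H ψ).real K)
    (Q := fun k w => QP (H k) U w) h' h rfl fun w k hw h1 => by
      have h2 := MX_mass_upd' hU hw k (h k) (h' k) hK hKU (he k)
      rw [update_eq_self] at h2
      exact h2.trans h1

theorem mxs_MX0 (H : KP A) : MXS (QP H univ) (MX univ fun _ => H) where
  cont _ ha := ha.continuous
  perm f hf σ := MX_perm isOpen_univ (H := fun _ => H) hf σ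
  fin f hf K hK := MX_lt_top isOpen_univ (H := fun _ => H) hf hK (subset_univ _)
  stokes f hf k a b c d ha hb hc hd hab hcd := by
    obtain ⟨K, hK, e⟩ := hab.exists_cpt
    obtain ⟨L, hL, e'⟩ := hcd.exists_cpt
    have h1 := MX_stokes_on' isOpen_univ (H := fun _ => H) hf k ha hb (hK.union hL) (subset_univ _)
      (fun x _ hx => e x fun h2 => hx (Or.inl h2)) hc hd
    have h2 : ∀ x, x ∉ K ∪ L → c x - d x = 0 := fun x hx =>
      sub_eq_zero.2 (e' x fun h2 => hx (Or.inr h2))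
    rwa [update_eq_self k (fun _ => H), setIntegral_eq_integral_of_forall_compl_eq_zero h2,
      setIntegral_eq_integral_of_forall_compl_eq_zero h2] at h1
  neg f hf k a b ha hb hab := by
    obtain ⟨K, hK, e⟩ := hab.exists_cpt
    have h1 := MX_neg_on' isOpen_univ (H := fun _ => H) hf k ha hb hK (subset_univ _)
      fun x _ hx => e x hx
    rwa [update_eq_self k (fun _ => H)] at h1

end

end Crest.Agent.X261.BT
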