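import Crest.Agent.X261.BT.MxB
import Crest.Agent.R281.Kp0_487
import Crest.Agent.R273.Vm_333

/-!
# X261 / BT (helper21): global objects of the Bedford-Taylor toolbox (no measures yet)

`sc`, `ad`, `zr` (forms), `chU`, `QP`, `PP`, `env`, `Obs`, `Slow`, `Iso`, `JP`, `Smo`.
-/

set_option autoImplicit false

open Set Filter Topology Complex MeasureTheory Metric
open scoped ContDiff Matrix ComplexConjugate ComplexOrder

namespace Crest.Agent.X261.BT

open Crest.Agent.R275.Geo Crest.Agent.R275.EDR890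
open Crest.Agent.R273.Hess_333 Crest.Agent.R273.HessB_333
open Crest.Agent.R281.Rich_710 (PshL dav)
open Crest.Agent.R281.Kp_487 (KP pot wt_contDiffAt uj_contDiffAt)
open Crest.Agent.R257.HoB_843 (lvE)
open Crest.Agent.R273.YauDefs_635 (inC)

noncomputable section

variable {n : ℕ} {M : Type} [TopologicalSpace M] {A : Atl n M}

theorem kp_diff_smooth (H : KP A) {i j : A.ι} {z : Cn n} (hz : z ∈ A.ov i j) :
    ContDiffAt ℝ ∞ (fun w => H.u i ((A.e i).symm w) - H.u j ((A.e i).symm w)) z := by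
  have hx : (A.e i).symm z ∈ (A.e i).source ∩ (A.e j).source := ⟨(A.e i).map_target hz.1, hz.2⟩
  have h2 := uj_contDiffAt H hx
  rw [(A.e i).right_inv hz.1] at h2
  exact (wt_contDiffAt H i hz.1).sub h2

/-- the form `c ω` -/
def sc (c : ℝ) (H : KP A) : KP A where
  u i x := c * H.u i x
  sm i := contDiffOn_const.mul (H.sm i)
  tr i j z hz := by
    have h3 : (fun w => c * H.u i ((A.e i).symm w) - c * H.u j ((A.e i).symm w)) =
        fun w => c * (H.u i ((A.e i).symm w) - H.u j ((A.e i).symm w)) := by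
      funext w; ring
    rw [h3, hess_const_mul c (kp_diff_smooth H hz), H.tr i j z hz, smul_zero]

/-- the form `ω + ω'` -/
def ad (H H' : KP A) : KP A where
  u i x := H.u i x + H'.u i x
  sm i := (H.sm i).add (H'.sm i)
  tr i j z hz := by
    have h3 : (fun w => H.u i ((A.e i).symm w) + H'.u i ((A.e i).symm w) -
        (H.u j ((A.e i).symm w) + H'.u j ((A.e i).symm w))) =
        fun w => (H.u i ((A.e i).symm w) - H.u j ((A.e i).symm w)) +
          (H'.u i ((A.e i).symm w) - H'.u j ((A.e i).symm w)) := by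
      funext w; ring
    rw [h3, hess_add (kp_diff_smooth H hz) (kp_diff_smooth H' hz), H.tr i j z hz,
      H'.tr i j z hz, add_zero]

/-- the zero form -/
def zr (A : Atl n M) : KP A where
  u _ _ := 0
  sm _ := contDiffOn_const
  tr _ _ z _ := by simpa using hess_zero_fun z

/-- the part of the chart `i` over `U` -/
def chU (A : Atl n M) (U : Set M) (i : A.ι) : Set (Cn n) :=
  (A.e i).target ∩ (A.e i).symm ⁻¹' U

/-- `φ` is continuous and `ω`-psh on the open set `U` -/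
structure QP (H : KP A) (U : Set M) (φ : M → ℝ) : Prop where
  op : IsOpen U
  cont : ContinuousOn φ U
  psh : ∀ i, PshL (chU A U i) (pot H φ i)

/-- continuous `ω`-psh with compact support -/
structure PP (H : KP A) (φ : M → ℝ) : Prop where
  qp : QP H univ φ
  cpt : HasCompactSupport φ

/-- `a = b` off a compact set -/
def CE (a b : M → ℝ) : Prop := HasCompactSupport fun x => a x - b x

/-- the envelope of an obstacle -/
def env (H : KP A) (v : M → ℝ) (x : M) : ℝ :=
  sSup {s | ∃ φ, QP H univ φ ∧ (∀ y, φ y ≤ v y) ∧ φ x = s}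

/-- admissible obstacle: continuous, with a strict competitor equal to it off a compact set -/
structure Obs (H : KP A) (v : M → ℝ) : Prop where
  cont : Continuous v
  bar : ∃ θ : ℝ, 0 ≤ θ ∧ θ < 1 ∧ ∃ φ, QP (sc θ H) univ φ ∧ (∀ y, φ y ≤ v y) ∧ CE φ v

/-- slowly varying cut-off functions -/
def Slow (H : KP A) : Prop :=
  ∀ K : Set M, IsCompact K → ∀ ε > (0 : ℝ), ∃ η : M → ℝ, A.Sm η ∧ HasCompactSupport η ∧
    (∀ x, 0 ≤ η x ∧ η x ≤ 1) ∧ (∀ x ∈ K, η x = 1) ∧
    ∀ i, ∀ z ∈ (A.e i).target, ∀ v : Cn n,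
      |lvE (inC A i η) z v| ≤ ε * lvE (H.wt i) z v ∧
        (fderiv ℝ (inC A i η) z v) ^ 2 ≤ ε * lvE (H.wt i) z v

/-- the charts `i` and `j` related by `γ` -/
def ovI (A : Atl n M) (γ : M → M) (i j : A.ι) : Set (Cn n) :=
  {z | z ∈ (A.e i).target ∧ γ ((A.e i).symm z) ∈ (A.e j).source}

/-- holomorphic homeomorphism preserving `ω` -/
structure Iso (H : KP A) (γ : M ≃ₜ M) : Prop where
  holo : ∀ i j, DifferentiableOn ℂ (fun z => A.e j (γ ((A.e i).symm z))) (ovI A γ i j)
  holo' : ∀ i j, DifferentiableOn ℂ (fun z => A.e j (γ.symm ((A.e i).symm z))) (ovI A γ.symm i j)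
  tr : ∀ i j, ∀ z ∈ ovI A γ i j,
    hess (fun w => H.wt i w - H.u j (γ ((A.e i).symm w))) z = 0

/-- jointly continuous `ω`-psh family over the open set `D ⊆ ℂ`, with a common compact support -/
structure JP (H : KP A) (D : Set ℂ) (Φ : ℂ → M → ℝ) : Prop where
  op : IsOpen D
  cont : ContinuousOn (fun p : ℂ × M => Φ p.1 p.2) (D ×ˢ univ)
  psh : ∀ i, PshL (D ×ˢ (A.e i).target) (fun p : ℂ × Cn n => pot H (Φ p.1) i p.2)
  cpt : ∃ K : Set M, IsCompact K ∧ ∀ t ∈ D, ∀ x ∉ K, Φ t x = 0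

/-- ONE smoothing operator for all continuous quasi-psh functions on `U`, good on `V` -/
structure Smo (H₀ : KP A) (U V : Set M) (S : ℝ → ℕ → KP A → (M → ℝ) → M → ℝ) : Prop where
  app : ∀ (H : KP A) (φ : M → ℝ), QP H U φ → ∀ κ > (0 : ℝ), ∀ᶠ j in atTop,
    A.Sm (S κ j H φ) ∧ QP (ad H (sc κ H₀)) V (S κ j H φ) ∧ ∀ x ∈ V, |S κ j H φ x - φ x| ≤ κ
  loc : ∀ (H : KP A) (φ ψ : M → ℝ), QP H U φ → QP H U ψ → ∀ L W : Set M, IsCompact L → IsOpen W →
    L ⊆ W → (∀ x ∈ U, x ∉ L → φ x = ψ x) → ∀ κ > (0 : ℝ), ∀ᶠ j in atTop,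
      ∀ x ∈ V, x ∉ W → S κ j H φ x = S κ j H ψ x

/-- the tuple `(a, …, a, b, …, b)` with `j` copies of `a` -/
def mx {α : Type*} (n j : ℕ) (a b : α) : Fin n → α := fun k => if (k : ℕ) < j then a else b

theorem pot_apply (H : KP A) (φ : M → ℝ) (i : A.ι) (z : Cn n) :
    pot H φ i z = H.wt i z + φ ((A.e i).symm z) := rfl

theorem wt_sc (c : ℝ) (H : KP A) (i : A.ι) (z : Cn n) : (sc c H).wt i z = c * H.wt i z := rfl

theorem wt_ad (H H' : KP A) (i : A.ι) (z : Cn n) :
    (ad H H').wt i z = H.wt i z + H'.wt i z := rfl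

theorem wt_zr (i : A.ι) (z : Cn n) : (zr A).wt i z = 0 := rfl

theorem chU_univ (i : A.ι) : chU A univ i = (A.e i).target := by simp [chU]

theorem isOpen_chU {U : Set M} (hU : IsOpen U) (i : A.ι) : IsOpen (chU A U i) :=
  (A.e i).continuousOn_symm.isOpen_inter_preimage (A.e i).open_target hU

theorem chU_mono {U U' : Set M} (h : U ⊆ U') (i : A.ι) : chU A U i ⊆ chU A U' i :=
  fun _ hz => ⟨hz.1, h hz.2⟩

theorem mem_chU {U : Set M} {i : A.ι} {x : M} (hx : x ∈ (A.e i).source) (hU : x ∈ U) :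
    A.e i x ∈ chU A U i :=
  ⟨(A.e i).map_source hx, by rw [mem_preimage, (A.e i).left_inv hx]; exact hU⟩

theorem contOn_pot {H : KP A} {U : Set M} {φ : M → ℝ} (h : ContinuousOn φ U) (i : A.ι) :
    ContinuousOn (pot H φ i) (chU A U i) :=
  ((H.sm i).continuousOn.mono inter_subset_left).add
    (h.comp ((A.e i).continuousOn_symm.mono inter_subset_left) fun _ hz => hz.2)

theorem QP.cp {H : KP A} {U : Set M} {φ : M → ℝ} (h : QP H U φ) (i : A.ι) :
    CP (chU A U i) (pot H φ i) := ⟨contOn_pot h.cont i, h.psh i⟩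

theorem QP.mono {H : KP A} {U U' : Set M} {φ : M → ℝ} (h : QP H U φ) (hU' : IsOpen U')
    (hs : U' ⊆ U) : QP H U' φ :=
  ⟨hU', h.cont.mono hs, fun i => (h.psh i).mono (chU_mono hs i)⟩

theorem QP.continuous {H : KP A} {φ : M → ℝ} (h : QP H univ φ) : Continuous φ :=
  continuousOn_univ.1 h.cont

end

end Crest.Agent.X261.BT
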