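import Crest.Agent.X261.BT.DiscC
import Crest.Agent.X261.BT.Inst

/-!
# X261 / BT (helper20), DISC part D: the disc fields of `Two.DS`

`JC.mem`, `JC.sup`, `JC.tr`, `JC.sups`, `JC.mp`, `JC.sub`, `JC.ex`; `En_psh`, `JP.en_psh`.
-/

set_option autoImplicit false
set_option linter.unusedSectionVars false

open Set Filter Topology Complex MeasureTheory Metric Function
open scoped ContDiff

namespace Crest.Agent.X261.BT

open Crest.Agent.R275.Geo Crest.Agent.R275.EDR890
open Crest.Agent.R273.Hess_333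
open Crest.Agent.R281.Rich_710 (PshL dav)
open Crest.Agent.R281.Kp_487 (KP pot wt_contDiffAt)
open Crest.Agent.R257.HoB_843 (lvE)
open Crest.Agent.R257.Glue2_101 (lvE_const)

noncomputable section

variable {n : ℕ} {M : Type} [TopologicalSpace M] {A : Atl n M}

theorem fderiv_of_inv {E F : Type*} [NormedAddCommGroup E] [NormedSpace ℝ E]
    [NormedAddCommGroup F] [NormedSpace ℝ F] {f : E → F} {w v : E}
    (h : ∀ s : ℝ, f (w + s • v) = f w) : fderiv ℝ f w v = 0 := by
  by_cases hd : DifferentiableAt ℝ f w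
  · rw [← hd.lineDeriv_eq_fderiv, lineDeriv]
    simp [h]
  · rw [fderiv_zero_of_not_differentiableAt hd, zero_apply]

theorem det_hess_zc (g : Cn n → ℝ) (w : Cn (n + 1)) : (hess (fun w => g (zc w)) w).det = 0 := by
  have h1 : ∀ (c : ℂ) (y : Cn (n + 1)),
      fderiv ℝ (cu fun w => g (zc w)) y (EuclideanSpace.single 0 c) = 0 := fun c y =>
    fderiv_of_inv fun s => by
      have : zc (y + s • EuclideanSpace.single 0 c) = zc y := by
        ext a; simp
      simp only [cu, this]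
  have h2 : wd (true, (0 : Fin (n + 1))) (cu fun w => g (zc w)) = fun _ => 0 := by
    funext y
    simp only [wd, wdL, h1, smul_zero, add_zero]
  exact Matrix.det_eq_zero_of_column_eq_zero 0 fun a => by rw [hess_apply, h2, wd_const]

theorem psh_re (D : Set ℂ) (hD : IsOpen D) (α β : ℂ) : PshL D fun t => (α + t * β).re := by
  let L : ℂ →L[ℝ] ℝ := reCLM.comp ((ContinuousLinearMap.mul ℝ ℂ).flip β)
  have h : PshL D fun t => α.re + L t :=
    PL.of_lvE hD fun p _ => ⟨by fun_prop, fun v => by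
      have e1 : fderiv ℝ (fun p => α.re + L p) = fun _ => L :=
        funext fun p => (L.hasFDerivAt.const_add α.re).fderiv
      simp [lvE, e1]⟩
  exact h

/-- sub-mean value inequality up to the boundary -/
theorem le_avg_closed {e g : ℂ → ℝ} (hp : PshL (ball 0 1) e) (hc : ContinuousOn e (closedBall 0 1))
    (hg : Continuous g) (h : ∀ w : ℂ, ‖w‖ = 1 → e w ≤ g w) : e 0 ≤ Real.circleAverage g 0 1 := by
  refine le_of_forall_pos_le_add fun ε hε => ?_
  obtain ⟨η, hη, h1⟩ := Metric.uniformContinuousOn_iff.1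
    ((isCompact_closedBall (0 : ℂ) 1).uniformContinuousOn_of_continuous hc) ε hε
  set r : ℝ := 1 - min (η / 2) (1 / 2) with hr
  have m1 := min_le_left (η / 2) (1 / 2)
  have m2 := min_le_right (η / 2) (1 / 2)
  have m3 : 0 < min (η / 2) (1 / 2) := by positivity
  have hI : PL.In (ball (0 : ℂ) 1) 0 (r : ℂ) := fun w hw => by
    rw [zero_add, mem_ball_zero_iff, norm_smul, norm_real, Real.norm_of_nonneg (by linarith)]
    exact (mul_le_of_le_one_left (by linarith) hw).trans_lt (by linarith)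
  have hc' := hc.mono ball_subset_closedBall
  have h2 : Real.circleAverage (fun w => g w + ε) 0 1 = Real.circleAverage g 0 1 + ε := by
    rw [Real.circleAverage_fun_add hg.continuousOn.circleIntegrable' (circleIntegrable_const _ _ _),
      Real.circleAverage_const]
  rw [← h2]
  refine (PL.le_dav isOpen_ball hc' hp hI).trans (Real.circleAverage_mono (PL.circ hc' hI)
    (hg.add continuous_const).continuousOn.circleIntegrable' fun w hw => ?_)
  have hw1 : ‖w‖ = 1 := by simpa using hw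
  have h3 := h1 _ (ball_subset_closedBall (hI w hw1.le)) w (mem_closedBall_zero_iff.2 hw1.le) (by
    rw [dist_eq_norm, zero_add, smul_eq_mul, ← mul_sub_one, norm_mul, hw1, one_mul,
      ← ofReal_one, ← ofReal_sub, norm_real, Real.norm_eq_abs, abs_of_nonpos (by linarith)]
    linarith)
  have h4 := h w hw1
  rw [Real.dist_eq] at h3
  linarith [(abs_lt.1 h3).2]

variable {H : KP A} {V W : ℂ → M → ℝ}

namespace JC

theorem qp (h : JC H V) : QP (pbd 0 H) (ball 0 1 ×ˢ univ) fun p => V p.1 p.2 := h.jp.qp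

theorem cpt (h : JC H V) : ∃ K : Set M, IsCompact K ∧ ∀ w : ℂ, ‖w‖ ≤ 1 → ∀ x ∉ K, V w x = 0 := by
  obtain ⟨K, hK, h0⟩ := h.jp.cpt
  refine ⟨K, hK, fun w hw x hx => ?_⟩
  have h1 : ContinuousOn (fun t => V t x) (closure (ball (0 : ℂ) 1)) := by
    rw [closure_ball _ one_ne_zero]
    exact h.cont.comp (Continuous.prodMk_left x).continuousOn fun t ht => ⟨ht, trivial⟩
  exact (show EqOn (fun t => V t x) (fun _ => 0) (ball 0 1) from fun t ht => h0 t ht x hx).of_subset_closure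
    h1 continuousOn_const subset_closure Subset.rfl
    (by rw [closure_ball _ one_ne_zero]; exact mem_closedBall_zero_iff.2 hw)

theorem mp (h : JC H V) (x : M) (c : ℝ) (hc : ∀ w : ℂ, ‖w‖ = 1 → V w x ≤ c) : V 0 x ≤ c := by
  have h1 := le_avg_closed (e := fun t => V t x) (g := fun _ => c)
    (PL.congr isOpen_ball ((h.qp.tslice x).mono fun t ht => ⟨ht, trivial⟩) fun t _ => by simp)
    (h.cont.comp (Continuous.prodMk_left x).continuousOn fun t ht => ⟨ht, trivial⟩)
    continuous_const hc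
  rwa [Real.circleAverage_const] at h1

variable [T2Space M]

theorem const {f : M → ℝ} (hf : PP H f) (h0 : f ≤ 0) : JC H fun _ => f :=
  ⟨JP.of_qp isOpen_ball ((hf.qp.lift' le_rfl).mono (isOpen_ball.prod isOpen_univ) (subset_univ _))
    hf.cpt fun _ _ _ hx => image_eq_zero_of_notMem_tsupport hx,
    (hf.qp.continuous.comp continuous_snd).continuousOn, fun _ _ => ⟨hf, h0⟩⟩

variable [MeasurableSpace M] [BorelSpace M] [Countable A.ι]

theorem sups (h : JC H V) (h' : JC H W) (α β : ℂ)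
    (hs : ∀ w : ℂ, ‖w‖ ≤ 1 → 0 ≤ (α + w * β).re) :
    JC H fun w => V w ⊔ fun x => W w x - (α + w * β).re := by
  obtain ⟨K, hK, h0⟩ := h.cpt
  obtain ⟨L, hL, h1⟩ := h'.cpt
  have q := h.qp.max (h'.qp.add_t isOpen_univ (fun _ _ => trivial)
    (τ := fun t => (-α + t * -β).re) (by fun_prop) (psh_re _ isOpen_univ _ _))
  refine ⟨JP.of_qp isOpen_ball (q.congr fun p _ => ?_) (hK.union hL) fun t ht x hx => ?_,
    h.cont.sup (h'.cont.sub (by fun_prop)), fun w hw =>
      ⟨(h'.mem w hw).1.maxs (h.mem w hw).1 (hs w hw), fun x => max_le ((h.mem w hw).2 x) ?_⟩⟩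
  · change max _ _ = max _ _
    congr 1
    simp only [add_re, neg_re, mul_neg]; ring
  · have ht' := (mem_ball_zero_iff.1 ht).le
    change max (V t x) (W t x - (α + t * β).re) = _
    rw [h0 t ht' x fun h2 => hx (Or.inl h2), h1 t ht' x fun h2 => hx (Or.inr h2)]
    exact max_eq_left (by linarith [hs t ht'])
  · have h2 : W w x ≤ 0 := (h'.mem w hw).2 x
    change _ ≤ (0 : ℝ)
    linarith [hs w hw]

theorem sup (h : JC H V) (h' : JC H W) : JC H fun w => V w ⊔ W w := by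
  simpa using h.sups h' 0 0 fun _ _ => by simp

theorem tr (hH : H.Semipos) (h : JC H V) (α β : ℂ)
    (hs : ∀ w : ℂ, ‖w‖ ≤ 1 → 0 ≤ (α + w * β).re) :
    JC H fun w => V w ⊔ fun _ => -(α + w * β).re := by
  simpa only [zero_sub] using h.sups (const (PP.zero hH) le_rfl) α β hs

end JC

variable [T2Space M] [MeasurableSpace M] [BorelSpace M] [Countable A.ι]

theorem MAo_pbd_zero (hH : H.Semipos) {U : Set (ℂ × M)} (hU : IsOpen U) :
    MAo (pbd 0 H) U (fun _ => 0) = 0 := by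
  have q : QP (pbd 0 H) U fun _ => 0 := QP.const (pbd_semi le_rfl hH) hU 0
  have c := MX_cmp hU (H := fun _ => pbd 0 H) (φ := fun _ _ => 0) fun _ => q
  rw [MAo, MX_eq, c.smul_eq c (c := 0) fun i => ?_, zero_smul]
  have e : pot (pbd 0 H) (fun _ => 0) i = fun w => H.wt i.1 (zc w) := by
    funext w; rw [pot_apply, wt_pbd]; ring
  rw [zero_smul, ma_smooth_eq (isOpen_chU hU i) (fun _ => q.cp i) fun _ w hw => by
    rw [e]; exact smR_zc (wt_contDiffAt H i.1 hw.1.2)]
  simp only [mh_same, e, det_hess_zc, zero_re, mul_zero, ENNReal.ofReal_zero]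
  exact withDensity_zero

theorem En_psh (hH : H.Pos) {δ : ℝ} (hδ : 0 ≤ δ) {D : Set ℂ} (hD : IsOpen D) {K : Set M}
    (hK : IsCompact K) {a b : ℂ × M → ℝ} (ha : QP (pbd δ H) (D ×ˢ univ) a)
    (hb : QP (pbd δ H) (D ×ˢ univ) b) (ea : ∀ t ∈ D, ∀ x ∉ K, a (t, x) = 0)
    (eb : ∀ t ∈ D, ∀ x ∉ K, b (t, x) = 0)
    (hm : MAo (pbd δ H) (D ×ˢ univ) b ≤ MAo (pbd δ H) (D ×ˢ univ) a) :
    ContinuousOn (fun t => En H (fun x => a (t, x)) - En H fun x => b (t, x)) D ∧
      PshL D fun t => En H (fun x => a (t, x)) - En H fun x => b (t, x) := by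
  obtain ⟨h1, h2⟩ := Er_psh hH hδ hD hK ha hb
    (fun t ht x hx => (ea t ht x hx).trans (eb t ht x hx).symm) hm
  have e : ∀ t ∈ D, En H (fun x => a (t, x)) - En H (fun x => b (t, x)) =
      Er H (fun x => a (t, x)) fun x => b (t, x) := fun t ht =>
    En_sub hH (PP.of_cpt (ha.slice' ht) hK (ea t ht)) (PP.of_cpt (hb.slice' ht) hK (eb t ht))
  exact ⟨h1.congr e, PL.congr hD h2 e⟩

/-- the energy is subharmonic along jointly psh families -/
theorem JP.en_psh (hH : H.Pos) {D : Set ℂ} (h : JP H D V) :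
    ContinuousOn (fun t => En H (V t)) D ∧ PshL D fun t => En H (V t) := by
  obtain ⟨K, hK, h0⟩ := h.cpt
  have ho : IsOpen (D ×ˢ (univ : Set M)) := h.op.prod isOpen_univ
  have := En_psh hH le_rfl h.op hK h.qp (QP.const (pbd_semi le_rfl (pos_semi hH)) ho 0) h0
    (fun _ _ _ _ => rfl) (by rw [MAo_pbd_zero (pos_semi hH) ho]; exact Measure.zero_le _)
  simpa only [show En H (fun _ => 0) = 0 from En_zero H, sub_zero] using this

theorem fib_En (hH : H.Pos) : DiscX.Fib H (En H) := fun d hd D K b hD hK hb h0 hm => by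
  have := En_psh hH hd.le hD hK (QP.const (pbd_semi hd.le (pos_semi hH)) hb.op 0) hb
    (fun _ _ _ _ => rfl) h0 hm
  simpa only [show En H (fun _ => 0) = 0 from En_zero H, zero_sub] using this

theorem JC.en_cont (hH : H.Pos) (h : JC H V) :
    ContinuousOn (fun t => En H (V t)) (closedBall 0 1) := by
  obtain ⟨K, hK, h0⟩ := h.cpt
  intro t ht
  exact En_tendsto hH (h.mem t (mem_closedBall_zero_iff.1 ht)).1 hK
    (eventually_nhdsWithin_of_forall fun s hs =>
      ⟨(h.mem s (mem_closedBall_zero_iff.1 hs)).1.qp, h0 s (mem_closedBall_zero_iff.1 hs)⟩)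
    (h0 t (mem_closedBall_zero_iff.1 ht)) (tuo_slice h.cont ht hK)

/-- **DISC (i)** : the field `J_sub` with `D = -En H` -/
theorem JC.sub (hH : H.Pos) (h : JC H V) (g : ℂ → ℝ) (hg : Continuous g)
    (hb : ∀ w : ℂ, ‖w‖ = 1 → - -En H (V w) ≤ g w) : - -En H (V 0) ≤ Real.circleAverage g 0 1 := by
  simp only [neg_neg] at hb ⊢
  exact le_avg_closed (h.jp.en_psh hH).2 (h.en_cont hH) hg hb

/-- the field `lip` with `D = -En H` -/
theorem En_lip_field (hH : H.Pos) (K : Set M) (hK : IsCompact K) (T : ℝ) :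
    ∃ C : ℝ, 0 ≤ C ∧ ∀ f, PP H f ∧ f ≤ 0 → ∀ g, PP H g ∧ g ≤ 0 → (∀ x ∉ K, f x = 0) →
      (∀ x ∉ K, g x = 0) → (∀ x, -T ≤ f x) → (∀ x, -T ≤ g x) → ∀ ε : ℝ, 0 ≤ ε →
      (∀ x, g x ≤ f x + ε) → -En H f ≤ -En H g + C * ε :=
  ⟨(MA H 0).real K, measureReal_nonneg, fun f hf g hg f0 g0 _ _ ε _ h => by
    linarith [En_lip hH hg.1 hf.1 hK g0 f0 fun x _ => h x]⟩

/-- **DISC (ii)** : the field `J_ex` with `D = -En H` -/
theorem JC.ex (hH : H.Pos)
    (bfun : ∀ K : Set M, IsCompact K → ∀ T : ℝ, ∃ b, (PP H b ∧ b ≤ 0) ∧ ∀ x ∈ K, b x ≤ -T)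
    (ι : Type) [Fintype ι] (β : ι → M → ℝ) (ρ : ι → ℂ → ℝ) (hβ : ∀ i, PP H (β i) ∧ β i ≤ 0)
    (hρ : ∀ i, Continuous (ρ i)) (hρ0 : ∀ i w, 0 ≤ ρ i w) (hρ1 : ∀ w, ∑ i, ρ i w = 1)
    (ε : ℝ) (hε : 0 < ε) :
    ∃ V, JC H V ∧ (∀ w : ℂ, ‖w‖ = 1 → V w ≤ ∑ i, ρ i w • β i) ∧
      -En H (V 0) ≤ Real.circleAverage (fun w => -En H (∑ i, ρ i w • β i)) 0 1 + ε :=
  DiscX.jex_of hH (fib_En hH) (En_lip_field hH) bfun ι β ρ hβ hρ hρ0 hρ1 ε hε

/-- all disc facts -/
theorem dsc (hH : H.Pos) : Dsc H where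
  fib := fib_En hH
  sups _ _ h h' := h.sups h'
  mp _ h := h.mp
  sub _ h g hg hb := le_avg_closed (h.jp.en_psh hH).2 (h.en_cont hH) hg hb

end

end Crest.Agent.X261.BT
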