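import Crest.Agent.X261.BT.GlobB
import Crest.Agent.X261.BT.EnA

/-!
# X261 / BT (helper21): the Monge-Ampere energy

`Er H a b` : the relative energy `E a - E b` (for `a = b` off a compact set); `En H a = Er H a 0`.
-/

set_option autoImplicit false
set_option linter.unusedSectionVars false

open Set Filter Topology MeasureTheory Metric Function
open scoped ContDiff

namespace Crest.Agent.X261.BT

open Crest.Agent.R275.Geo
open Crest.Agent.R281.Kp_487 (KP pot)

noncomputable section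

variable {n : ℕ} {M : Type} [TopologicalSpace M] {A : Atl n M} [MeasurableSpace M] [BorelSpace M]
  [Countable A.ι] [T2Space M]

/-- the relative energy `E a - E b` -/
def Er (H : KP A) (a b : M → ℝ) : ℝ := ErA (MX univ fun _ => H) a b

/-- the energy of a compactly supported function -/
def En (H : KP A) (a : M → ℝ) : ℝ := Er H a 0

variable {H H' : KP A} {a b c d a' b' : M → ℝ} {U W K : Set M}

theorem Er_def (H : KP A) (a b : M → ℝ) : Er H a b = (1 / (n + 1 : ℝ)) *
    ∑ j ∈ Finset.range (n + 1), ∫ x, (a x - b x) ∂MX univ (fun _ => H) (mx n j a b) := rfl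

theorem MA_def (H : KP A) (a : M → ℝ) : MA H a = MX univ (fun _ => H) fun _ => a := rfl

theorem Er_self (H : KP A) (a : M → ℝ) : Er H a a = 0 := ErA_self _ a

theorem En_zero (H : KP A) : En H 0 = 0 := Er_self H 0

theorem mxs_MX' {H₀ : KP A} (h₀ : H₀.Pos) (hH : H.Semipos) :
    MXS (QP H univ) (MX univ fun _ => H) :=
  ⟨fun _ h => h.continuous, fun _ h σ => MX_perm (H := fun _ => H) isOpen_univ h σ,
    fun _ h _ hK => MX_lt_top isOpen_univ h hK (subset_univ _),
    fun _ h k _ _ _ _ => MX_stokes h₀ (fun _ => hH) h k, fun _ h k _ _ => MX_neg h₀ h k⟩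

theorem mxs_MX (hH : H.Pos) : MXS (QP H univ) (MX univ fun _ => H) := mxs_MX' hH (pos_semi hH)

/-! ### Monge-Ampere measures -/

theorem MA_rad (ha : QP H univ a) : Rad univ (MA H a) := MX_rad isOpen_univ fun _ => ha

theorem MA_lt_top (ha : QP H univ a) (hK : IsCompact K) : MA H a K < ⊤ :=
  MX_lt_top isOpen_univ (fun _ => ha) hK (subset_univ _)

theorem MA_fin (ha : QP H univ a) : IsFiniteMeasureOnCompacts (MA H a) :=
  ⟨fun _ hK => MA_lt_top ha hK⟩

theorem MA_int (ha : QP H univ a) {f : M → ℝ} (hf : Continuous f) (hs : HasCompactSupport f) :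
    Integrable f (MA H a) :=
  have := MA_fin ha
  hf.integrable_of_hasCompactSupport hs

theorem MA_int_sub (ha : QP H univ a) (hb : Continuous b) (hc : Continuous c) (h : CE b c) :
    Integrable (fun x => b x - c x) (MA H a) := MA_int ha (hb.sub hc) h

theorem MA_const (ha : QP H univ a) (t : ℝ) : MA H (fun x => a x + t) = MA H a :=
  MX_const isOpen_univ (fun _ => ha) fun _ => t

theorem MA_restrict (ha : QP H univ a) (hW : IsOpen W) (t : ℝ) (he : ∀ x ∈ W, b x = a x + t) :
    (MA H a).restrict W = MAo H W b :=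
  MX_restrict_const isOpen_univ (fun _ => ha) hW (subset_univ _) (fun _ => t) fun _ => he

theorem MA_restrict_eq (ha : QP H univ a) (hb : QP H univ b) (hW : IsOpen W) (t : ℝ)
    (he : ∀ x ∈ W, b x = a x + t) : (MA H b).restrict W = (MA H a).restrict W :=
  MX_restrict_eq isOpen_univ (fun _ => ha) isOpen_univ (fun _ => hb) hW (subset_univ _)
    (subset_univ _) (fun _ => t) fun _ => he

/-- conservation of mass -/
theorem MA_mass (hH : H.Pos) (ha : QP H univ a) (hb : QP H univ b) (hK : IsCompact K)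
    (he : ∀ x, x ∉ K → a x = b x) : MA H a K = MA H b K :=
  MX_mass hH (fun _ => pos_semi hH) (fun _ => hb) (fun _ => ha) hK fun _ => he

theorem MA_contact (ha : QP H univ a) (hb : QP H univ b) (hle : ∀ x, a x ≤ b x) {S : Set M}
    (hS : MeasurableSet S) (hge : ∀ x ∈ S, b x ≤ a x) : (MA H a).restrict S ≤ MA H b :=
  MX_contact isOpen_univ (fun _ => ha) (fun _ => hb) (fun _ x _ => hle x) hS
    fun _ x hx _ => hge x hx

/-- local contact inequality -/
theorem MA_contact_loc (ha : QP H univ a) (hb : QP H U b) (hle : ∀ x ∈ U, a x ≤ b x) {S : Set M}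
    (hS : MeasurableSet S) (hSU : S ⊆ U) (hge : ∀ x ∈ S, b x ≤ a x) :
    (MA H a).restrict S ≤ MAo H U b := by
  have h1 := MX_contact (H := fun _ => H) hb.op (fun _ => ha.mono hb.op (subset_univ _))
    (fun _ => hb) (fun _ => hle) hS fun _ x hx _ => hge x hx
  have h2 := MA_restrict (b := a) ha hb.op 0 fun _ _ => (add_zero _).symm
  rw [← Measure.restrict_restrict_of_subset (μ := MA H a) hSU, h2]
  exact h1

theorem MAo_smul (ha : QP H U a) {t : ℝ} (ht : 0 ≤ t) :
    MAo (sc t H) U (fun x => t * a x) = ENNReal.ofReal (t ^ n) • MAo H U a :=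
  MX_smul_all ha.op (fun _ => ha) ht

theorem MX_smul_le (hH : H.Semipos) {φ : Fin n → M → ℝ} (hU : IsOpen U) (h : ∀ k, QP H U (φ k))
    {t : ℝ} (h0 : 0 ≤ t) (h1 : t ≤ 1) : ENNReal.ofReal (t ^ n) • MX U (fun _ => H) φ ≤
      MX U (fun _ => H) fun k x => t * φ k x := by
  rw [← MX_smul_all hU h h0]
  refine (MX_le_ad hU (fun k => (h k).smul h0)
    (H' := fun _ => sc (1 - t) H) fun _ => semi_sc hH (sub_nonneg.2 h1)).trans (le_of_eq ?_)
  refine MX_of_pot hU (fun k => (h k).mul_le_one hH h0 h1)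
    (fun k => ((h k).smul h0).cont) fun k i z _ => ?_
  simp only [pot_apply, wt_ad, wt_sc]
  ring

theorem MA_smul_le (hH : H.Semipos) (ha : QP H univ a) {t : ℝ} (h0 : 0 ≤ t) (h1 : t ≤ 1) :
    ENNReal.ofReal (t ^ n) • MA H a ≤ MA H fun x => t * a x :=
  MX_smul_le hH isOpen_univ (fun _ => ha) h0 h1

/-- `MA` of a convex combination dominates `tⁿ MA a` -/
theorem MA_cvx_le (ha : QP H univ a) (hb : QP H univ b) {t : ℝ} (h0 : 0 ≤ t) (h1 : t ≤ 1) :
    ENNReal.ofReal (t ^ n) • MA H a ≤ MA H fun x => (1 - t) * b x + t * a x := by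
  rw [MA, ← MAo_smul ha h0]
  refine (MX_le_add isOpen_univ (fun _ => ha.smul h0)
    fun _ => hb.smul (sub_nonneg.2 h1)).trans (le_of_eq ?_)
  refine MX_of_pot isOpen_univ (fun _ => hb.convex ha h0 h1)
    (fun _ => ((ha.smul h0).add (hb.smul (sub_nonneg.2 h1))).cont) fun k i z _ => ?_
  simp only [pot_apply, wt_ad, wt_sc]
  ring

theorem MA_iso {γ : M ≃ₜ M} (hγ : Iso H γ) (ha : QP H univ a) :
    (MA H fun x => a (γ x)).map γ = MA H a := MX_iso hγ fun _ => ha

theorem Iso.qp' {γ : M ≃ₜ M} (hγ : Iso H γ) (ha : QP H univ a) : QP H univ fun x => a (γ x) :=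
  hγ.qp ha

theorem Iso.pp {γ : M ≃ₜ M} (hγ : Iso H γ) (ha : PP H a) : PP H fun x => a (γ x) :=
  ⟨hγ.qp' ha.qp, ha.cpt.comp_homeomorph γ⟩

/-! ### the relative energy -/

section er

variable (hH : H.Pos) (ha : QP H univ a) (hb : QP H univ b)
include hH ha hb

theorem Er_add (hc : QP H univ c) (hab : CE a b) (hbc : CE b c) :
    Er H a b + Er H b c = Er H a c := (mxs_MX hH).er_add ha hb hc hab hbc

theorem Er_neg (hab : CE a b) : Er H b a = -Er H a b := (mxs_MX hH).er_neg ha hb hab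

theorem Er_sub (hc : QP H univ c) (hac : CE a c) (hbc : CE b c) :
    Er H a c - Er H b c = Er H a b := (mxs_MX hH).er_sub ha hb hc hac hbc

theorem le_Er (hab : CE a b) : ∫ x, (a x - b x) ∂MA H a ≤ Er H a b :=
  (mxs_MX hH).le_er ha hb hab

theorem Er_le (hab : CE a b) : Er H a b ≤ ∫ x, (a x - b x) ∂MA H b :=
  (mxs_MX hH).er_le ha hb hab

omit hH ha hb in
theorem Er_nonneg (hba : ∀ x, b x ≤ a x) : 0 ≤ Er H a b := MXS.er_nonneg hba

omit hH ha hb in
theorem Er_nonpos (hab : ∀ x, a x ≤ b x) : Er H a b ≤ 0 := MXS.er_nonpos hab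

omit hH ha hb in
theorem Er_ge (hba : ∀ x, b x ≤ a x) : (∫ x, (a x - b x) ∂MA H b) / (n + 1) ≤ Er H a b :=
  MXS.er_ge hba

omit hH ha hb in
theorem Er_ge' (hba : ∀ x, b x ≤ a x) : (∫ x, (a x - b x) ∂MA H a) / (n + 1) ≤ Er H a b := by
  have := MXS.er_ge_term (μ := MX univ fun _ => H) hba (le_refl n)
  rwa [mx_top] at this

theorem Er_mono (hc : QP H univ c) (hac : CE a c) (hbc : CE b c) (hab : ∀ x, a x ≤ b x) :
    Er H a c ≤ Er H b c := (mxs_MX hH).er_mono ha hb hc hac hbc hab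

theorem Er_anti (hc : QP H univ c) (hac : CE a c) (hbc : CE b c) (hab : ∀ x, a x ≤ b x) :
    Er H c b ≤ Er H c a := (mxs_MX hH).er_anti ha hb hc hac hbc hab

theorem Er_tan (hc : QP H univ c) (hac : CE a c) (hbc : CE b c) :
    Er H a c ≤ Er H b c + ∫ x, (a x - b x) ∂MA H b := (mxs_MX hH).er_tan ha hb hc hac hbc

theorem Er_concave (hc : QP H univ c) (hac : CE a c) (hbc : CE b c) {s t : ℝ} (hs : 0 ≤ s)
    (ht : 0 ≤ t) (hst : s + t = 1) :
    s * Er H a c + t * Er H b c ≤ Er H (fun x => s * a x + t * b x) c :=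
  (mxs_MX hH).er_concave ha hb hc hac hbc hs ht hst
    ((ha.convex hb ht (by linarith)).congr fun x _ => by rw [show 1 - t = s by linarith])

theorem Er_le_mass (hK : IsCompact K) (h0 : ∀ x, x ∉ K → a x = b x) {S : ℝ}
    (hS : ∀ x ∈ K, a x - b x ≤ S) : Er H a b ≤ S * (MA H b).real K :=
  (mxs_MX hH).er_le_mass ha hb hK h0 hS

theorem abs_Er_le (hK : IsCompact K) (h0 : ∀ x, x ∉ K → a x = b x) {S : ℝ}
    (hS : ∀ x ∈ K, |a x - b x| ≤ S) : |Er H a b| ≤ S * (MA H b).real K :=
  (mxs_MX hH).abs_er_le ha hb hK h0 hS (MA_mass hH ha hb hK h0)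

omit hH

theorem Er_shift (t : ℝ) : Er H (fun x => a x + t) (fun x => b x + t) = Er H a b :=
  ErA_shift fun j => MX_const isOpen_univ (mx_prop (P := QP H univ) ha hb j) fun _ => t

/-- the energy computed on an open set -/
theorem Er_eq_loc (hW : IsOpen W) (h0 : ∀ x, x ∉ W → a x = b x) :
    Er H a b = ErA (MX W fun _ => H) a b :=
  ErA_congr h0 (fun _ => rfl) fun j => by
    have h := mx_prop (n := n) (P := QP H univ) ha hb j
    rw [MX_restrict isOpen_univ h hW (subset_univ _) fun _ _ _ => rfl,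
      MX_self hW fun k => (h k).mono hW (subset_univ _)]

/-- locality, with a change of the form -/
theorem Er_ph (ha' : QP H' univ a') (hb' : QP H' univ b') (hW : IsOpen W)
    (h0 : ∀ x, x ∉ W → a x = b x) (h1 : ∀ x, a x - b x = a' x - b' x)
    (hp : ∀ i, Ph (chU A W i) fun z => pot H' a' i z - pot H a i z) :
    Er H a b = Er H' a' b' :=
  ErA_congr h0 h1 fun j => by
    have h := mx_prop (n := n) (P := QP H univ) ha hb j
    have h' := mx_prop (n := n) (P := QP H' univ) ha' hb' j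
    rw [MX_restrict isOpen_univ h' hW (subset_univ _) fun _ _ _ => rfl]
    refine MX_ph isOpen_univ h hW (subset_univ _) (fun k => (h' k).cont.mono (subset_univ _))
      fun k i => ?_
    unfold mx
    split_ifs
    · exact hp i
    · convert hp i using 2 with z
      simp only [pot_apply]
      linarith [h1 ((A.e i).symm z)]

/-- locality -/
theorem Er_local (ha' : QP H univ a') (hb' : QP H univ b') (hW : IsOpen W)
    (h0 : ∀ x, x ∉ W → a x = b x) (h0' : ∀ x, x ∉ W → a' x = b' x) (t : ℝ)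
    (h1 : ∀ x ∈ W, a' x = a x + t) (h2 : ∀ x ∈ W, b' x = b x + t) : Er H a b = Er H a' b' :=
  ErA_congr h0 (fun x => by
      by_cases hx : x ∈ W
      · rw [h1 x hx, h2 x hx]; ring
      · rw [h0 x hx, h0' x hx, sub_self, sub_self]) fun j =>
    (MX_restrict_eq isOpen_univ (mx_prop (P := QP H univ) ha hb j) isOpen_univ
      (mx_prop (P := QP H univ) ha' hb' j) hW (subset_univ _) (subset_univ _) (fun _ => t)
      fun k x hx => by unfold mx; split_ifs; exacts [h1 x hx, h2 x hx]).symm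

/-- the energy read in one chart -/
theorem Er_chart (i : A.ι) (hK : IsCompact K) (hKi : K ⊆ (A.e i).source)
    (h0 : ∀ x, x ∉ K → a x = b x) : Er H a b = (1 / (n + 1 : ℝ)) * ∑ j ∈ Finset.range (n + 1),
      ∫ z, rd A i (fun x => a x - b x) z
        ∂ma (A.e i).target (mx n j (pot H a i) (pot H b i)) := by
  rw [Er_def]
  congr 1
  refine Finset.sum_congr rfl fun j _ => ?_
  have t : Tst (univ ∩ (A.e i).source) fun x => a x - b x :=
    Tst.of_cpt (ha.continuous.sub hb.continuous) hK (fun x hx => ⟨trivial, hKi hx⟩)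
      fun x hx => sub_eq_zero.2 (h0 x hx)
  rw [MX_int_tst isOpen_univ (mx_prop (P := QP H univ) ha hb j) t, chU_univ,
    mx_comp (fun g => pot H g i)]

theorem Er_sc {t : ℝ} (ht : 0 ≤ t) :
    Er (sc t H) (fun x => t * a x) (fun x => t * b x) = t ^ (n + 1) * Er H a b := by
  rw [Er_def, Er_def, mul_left_comm]
  congr 1
  rw [Finset.mul_sum]
  refine Finset.sum_congr rfl fun j _ => ?_
  rw [← mx_comp (fun (g : M → ℝ) x => t * g x),
    MX_smul_all isOpen_univ (mx_prop (P := QP H univ) ha hb j) ht, integral_smul_measure,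
    ENNReal.toReal_ofReal (pow_nonneg ht n)]
  simp only [← mul_sub, integral_const_mul, smul_eq_mul]
  ring

theorem Er_iso {γ : M ≃ₜ M} (hγ : Iso H γ) :
    Er H (fun x => a (γ x)) (fun x => b (γ x)) = Er H a b :=
  ErA_map γ fun j => by
    rw [← MX_iso hγ (mx_prop (P := QP H univ) ha hb j),
      Measure.map_map γ.symm.continuous.measurable γ.continuous.measurable]
    simp

/-- continuity under locally uniform convergence, with supports in a fixed compact set -/
theorem Er_tendsto {ι : Type*} {l : Filter ι} {as bs : ι → M → ℝ} (hK : IsCompact K)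
    (hq : ∀ᶠ j in l, QP H univ (as j) ∧ QP H univ (bs j) ∧ ∀ x, x ∉ K → as j x = bs j x)
    (h0 : ∀ x, x ∉ K → a x = b x) (hla : TendstoLocallyUniformly as a l)
    (hlb : TendstoLocallyUniformly bs b l) :
    Tendsto (fun j => Er H (as j) (bs j)) l (𝓝 (Er H a b)) := by
  simp only [Er_def]
  refine (tendsto_finsetSum _ fun j _ => ?_).const_mul _
  have := lcs A
  refine MX_tendsto' isOpen_univ (mx_prop (P := QP H univ) ha hb j)
    (hq.mono fun m hm => mx_prop (P := QP H univ) hm.1 hm.2.1 j) (fun k => ?_) hK (subset_univ _)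
    (hq.mono fun m hm => ⟨hm.1.cont.sub hm.2.1.cont, fun x hx => sub_eq_zero.2 (hm.2.2 x hx)⟩)
    (ha.cont.sub hb.cont) (fun x hx => sub_eq_zero.2 (h0 x hx)) ?_
  · rw [tendstoLocallyUniformlyOn_univ]
    unfold mx
    split_ifs
    exacts [hla, hlb]
  · exact (tendstoLocallyUniformly_iff_forall_isCompact.1 hla K hK).sub
      (tendstoLocallyUniformly_iff_forall_isCompact.1 hlb K hK)

end er

/-! ### the energy of compactly supported functions -/

section en

theorem qp_zero (hH : H.Semipos) : QP H univ 0 := QP.const hH isOpen_univ 0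

theorem PP.ce0 (ha : PP H a) : CE a 0 := ha.ce

theorem PP.ce2 (ha : PP H a) (hb : PP H b) : CE a b := ha.ce.trans hb.ce.symm

theorem PP.exists_cpt (ha : PP H a) : ∃ K : Set M, IsCompact K ∧ ∀ x, x ∉ K → a x = 0 :=
  ⟨_, ha.cpt, fun _ hx => image_eq_zero_of_notMem_tsupport hx⟩

theorem PP.of_cpt (ha : QP H univ a) (hK : IsCompact K) (h : ∀ x, x ∉ K → a x = 0) : PP H a :=
  ⟨ha, HasCompactSupport.intro hK h⟩

theorem PP.of_ce (ha : QP H univ a) (hb : PP H b) (h : CE a b) : PP H a :=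
  ⟨ha, CE.zero_iff.1 (h.trans hb.ce)⟩

theorem PP.max (ha : PP H a) (hb : PP H b) : PP H fun x => max (a x) (b x) :=
  PP.of_ce (ha.qp.max hb.qp) ha (ha.ce2 hb).max_left.symm

theorem PP.cvx (ha : PP H a) (hb : PP H b) {s t : ℝ} (hs : 0 ≤ s) (ht : 0 ≤ t) (hst : s + t = 1) :
    PP H fun x => s * a x + t * b x :=
  PP.of_ce ((ha.qp.convex hb.qp ht (by linarith)).congr fun x _ => by
    rw [show 1 - t = s by linarith]) ha ((ha.ce2 hb).cvx hst).symm

/-- `max b (a - s)` -/
theorem PP.maxs (ha : PP H a) (hb : PP H b) {s : ℝ} (hs : 0 ≤ s) :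
    PP H fun x => Max.max (b x) (a x - s) := by
  obtain ⟨K, hK, h1⟩ := ha.exists_cpt
  obtain ⟨L, hL, h2⟩ := hb.exists_cpt
  refine PP.of_cpt (hb.qp.max (ha.qp.sub_const s)) (hK.union hL) fun x hx => ?_
  rw [h1 x fun h => hx (Or.inl h), h2 x fun h => hx (Or.inr h)]
  exact max_eq_left (by linarith)

variable (hH : H.Pos) (ha : PP H a)
include hH ha

theorem En_sub (hb : PP H b) : En H a - En H b = Er H a b :=
  Er_sub hH ha.qp hb.qp (qp_zero (pos_semi hH)) ha.ce0 hb.ce0

theorem En_mono (hb : PP H b) (hab : ∀ x, a x ≤ b x) : En H a ≤ En H b :=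
  Er_mono hH ha.qp hb.qp (qp_zero (pos_semi hH)) ha.ce0 hb.ce0 hab

omit hH ha in
theorem En_nonpos (h : ∀ x, a x ≤ 0) : En H a ≤ 0 := Er_nonpos h

theorem En_concave (hb : PP H b) {s t : ℝ} (hs : 0 ≤ s) (ht : 0 ≤ t) (hst : s + t = 1) :
    s * En H a + t * En H b ≤ En H fun x => s * a x + t * b x :=
  Er_concave hH ha.qp hb.qp (qp_zero (pos_semi hH)) ha.ce0 hb.ce0 hs ht hst

theorem le_En : ∫ x, a x ∂MA H a ≤ En H a := by
  simpa [En] using le_Er hH ha.qp (qp_zero (pos_semi hH)) ha.ce0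

theorem En_le : En H a ≤ ∫ x, a x ∂MA H 0 := by
  simpa [En] using Er_le hH ha.qp (qp_zero (pos_semi hH)) ha.ce0

theorem En_le_div (h : ∀ x, a x ≤ 0) : En H a ≤ (∫ x, a x ∂MA H a) / (n + 1) := by
  have h1 := Er_ge (H := H) (a := 0) (b := a) h
  rw [Er_neg hH ha.qp (qp_zero (pos_semi hH)) ha.ce0] at h1
  simp only [Pi.zero_apply, zero_sub, integral_neg, neg_div] at h1
  exact neg_le_neg_iff.1 h1

theorem En_tan (hb : PP H b) : En H a ≤ En H b + ∫ x, (a x - b x) ∂MA H b :=
  Er_tan hH ha.qp hb.qp (qp_zero (pos_semi hH)) ha.ce0 hb.ce0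

theorem MA_mass0 (hK : IsCompact K) (h : ∀ x, x ∉ K → a x = 0) : MA H a K = MA H 0 K :=
  MA_mass hH ha.qp (qp_zero (pos_semi hH)) hK h

/-- the energy is Lipschitz on functions supported in a fixed compact set -/
theorem En_lip (hb : PP H b) (hK : IsCompact K) (h : ∀ x, x ∉ K → a x = 0)
    (h' : ∀ x, x ∉ K → b x = 0) {ε : ℝ} (hε : ∀ x ∈ K, a x ≤ b x + ε) :
    En H a ≤ En H b + (MA H 0).real K * ε := by
  have h1 := Er_le_mass hH ha.qp hb.qp hK (fun x hx => (h x hx).trans (h' x hx).symm) (S := ε)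
    fun x hx => by linarith [hε x hx]
  rw [← En_sub hH ha hb, measureReal_def, MA_mass0 hH hb hK h', ← measureReal_def] at h1
  linarith

theorem abs_En_sub (hb : PP H b) (hK : IsCompact K) (h : ∀ x, x ∉ K → a x = 0)
    (h' : ∀ x, x ∉ K → b x = 0) {ε : ℝ} (hε : ∀ x ∈ K, |a x - b x| ≤ ε) :
    |En H a - En H b| ≤ (MA H 0).real K * ε := by
  have h1 := En_lip hH ha hb hK h h' (ε := ε) fun x hx => by linarith [(abs_le.1 (hε x hx)).2]
  have h2 := En_lip hH hb ha hK h' h (ε := ε) fun x hx => by linarith [(abs_le.1 (hε x hx)).1]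
  exact abs_le.2 ⟨by linarith, by linarith⟩

theorem abs_En_le (hK : IsCompact K) (h : ∀ x, x ∉ K → a x = 0) {T : ℝ}
    (hT : ∀ x ∈ K, |a x| ≤ T) : |En H a| ≤ (MA H 0).real K * T := by
  have := abs_En_sub hH ha (PP.zero (pos_semi hH)) hK h (fun _ _ => rfl) (ε := T) (by simpa using hT)
  rwa [show En H (fun _ => 0) = 0 from En_zero H, sub_zero] at this

theorem En_iso {γ : M ≃ₜ M} (hγ : Iso H γ) : En H (fun x => a (γ x)) = En H a :=
  Er_iso ha.qp (qp_zero (pos_semi hH)) hγ

/-- additivity for disjoint supports -/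
theorem En_disj (hb : PP H b) (hd : Disjoint (tsupport a) (tsupport b)) :
    PP H (fun x => a x + b x) ∧ En H (fun x => a x + b x) = En H a + En H b := by
  have o1 : IsOpen (tsupport a)ᶜ := (isClosed_tsupport a).isOpen_compl
  have o2 : IsOpen (tsupport b)ᶜ := (isClosed_tsupport b).isOpen_compl
  have z1 : ∀ x, x ∉ tsupport a → a x = 0 := fun _ hx => image_eq_zero_of_notMem_tsupport hx
  have z2 : ∀ x, x ∉ tsupport b → b x = 0 := fun _ hx => image_eq_zero_of_notMem_tsupport hx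
  have q : QP H univ fun x => a x + b x := by
    refine QP.of_local isOpen_univ fun x _ => ?_
    by_cases hx : x ∈ tsupport a
    · exact ⟨_, disjoint_left.1 hd hx, (ha.qp.mono o2 (subset_univ _)).congr fun y hy => by
        rw [z2 y hy, add_zero]⟩
    · exact ⟨_, hx, (hb.qp.mono o1 (subset_univ _)).congr fun y hy => by rw [z1 y hy, zero_add]⟩
  have p : PP H fun x => a x + b x := ⟨q, ha.cpt.add hb.cpt⟩
  refine ⟨p, ?_⟩
  have h1 := En_sub hH p hb
  have h2 := Er_local (H := H) q hb.qp ha.qp (qp_zero (pos_semi hH)) o2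
    (fun x hx => by rw [z1 x (disjoint_right.1 hd (not_not.1 hx)), zero_add])
    (fun x hx => z1 x (disjoint_right.1 hd (not_not.1 hx))) 0
    (fun x hx => by rw [z2 x hx, add_zero, add_zero]) fun x hx => by rw [z2 x hx]; simp
  rw [h2] at h1
  unfold En at *
  linarith

theorem En_tendsto {ι : Type*} {l : Filter ι} {as : ι → M → ℝ} (hK : IsCompact K)
    (hq : ∀ᶠ j in l, QP H univ (as j) ∧ ∀ x, x ∉ K → as j x = 0) (h0 : ∀ x, x ∉ K → a x = 0)
    (hl : TendstoUniformlyOn as a l K) : Tendsto (fun j => En H (as j)) l (𝓝 (En H a)) := by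
  refine Metric.tendsto_nhds.2 fun ε hε => ?_
  have hC : 0 ≤ (MA H 0).real K := measureReal_nonneg
  filter_upwards [hq, Metric.tendstoUniformlyOn_iff.1 hl (ε / ((MA H 0).real K + 1))
    (by positivity)] with j h1 h2
  refine (abs_En_sub hH (PP.of_cpt h1.1 hK h1.2) ha hK h1.2 h0
    (ε := ε / ((MA H 0).real K + 1)) fun x hx => ?_).trans_lt ?_
  · rw [abs_sub_comm]; exact (h2 x hx).le
  · rw [← mul_div_assoc, div_lt_iff₀ (by positivity)]
    nlinarith

end en

end

end Crest.Agent.X261.BT
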