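import Crest.Agent.X261.BT.DiscF
import Crest.Agent.X261.BT.En

/-!
# X261 / BT (helper20), DISC part C: Fubini on `ℂ × M` and the variation of the energy

`MX_fubini`, `Er_psh`.
-/

set_option autoImplicit false
set_option linter.unusedSectionVars false

open Set Filter Topology Complex MeasureTheory Metric Function
open scoped ContDiff

namespace Crest.Agent.X261.BT

open Crest.Agent.R275.Geo
open Crest.Agent.R281.Rich_710 (PshL dav continuousAt_lvE)
open Crest.Agent.R281.Kp_487 (KP pot)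
open Crest.Agent.R257.HoB_843 (lvE lvE_congr)
open Crest.Agent.R257.Glue2_101 (lvE_add lvE_const_mul lvE_sq lvE_comp1 lvE_const)
open Crest.Agent.R273.YauCh_635 (two_le_inf)

noncomputable section

variable {n : ℕ} {M : Type} [TopologicalSpace M] {A : Atl n M} [MeasurableSpace M] [BorelSpace M]
  [Countable A.ι] [T2Space M]

/-- the affine coordinate change on `ℂ` -/
def af (q s : ℂ) : ℂ := 4 * (s - c0) + q

/-- its inverse -/
def afi (q t : ℂ) : ℂ := (t - q) / 4 + c0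

theorem af_afi (q t : ℂ) : af q (afi q t) = t := by unfold af afi; ring

theorem sm_af (q : ℂ) : ContDiff ℂ ∞ (af q) :=
  (contDiff_const.mul (contDiff_id.sub contDiff_const)).add contDiff_const

theorem lvE_af (q : ℂ) {τ : ℂ → ℝ} (hτ : ContDiff ℝ ∞ τ) (s : ℂ) :
    lvE (fun s => τ (af q s)) s 1 = 16 * lvE τ (af q s) 1 := by
  have h1 : HasDerivAt (af q) (4 * 1) s :=
    (((hasDerivAt_id s).sub_const c0).const_mul 4).add_const q
  rw [lvE_comp1 (sm_af q).contDiffAt hτ.contDiffAt, h1.hasFDerivAt.fderiv]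
  simp only [ContinuousLinearMap.toSpanSingleton_apply, one_smul, mul_one, Complex.norm_ofNat]
  ring

theorem int_af (q : ℂ) {B : Set ℂ} (hB : MeasurableSet B) (F : ℂ → ℝ) :
    ∫ s in af q ⁻¹' B, 16 * F (af q s) = ∫ t in B, F t := by
  have h1 : (af q ⁻¹' B).indicator (fun s => 16 * F (af q s)) =
      fun s => 16 * (fun y => B.indicator F (y + (q - 4 * c0))) ((4 : ℝ) • s) := by
    funext s
    have e : (4 : ℝ) • s + (q - 4 * c0) = af q s := by
      simp only [af, real_smul, ofReal_ofNat]; ring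
    simp only [e]
    by_cases h : af q s ∈ B
    · rw [indicator_of_mem h, indicator_of_mem (show s ∈ af q ⁻¹' B from h)]
    · rw [indicator_of_notMem h, indicator_of_notMem (show s ∉ af q ⁻¹' B from h), mul_zero]
  rw [← integral_indicator (hB.preimage (sm_af q).continuous.measurable), h1, integral_const_mul,
    Measure.integral_comp_smul volume (fun y => B.indicator F (y + (q - 4 * c0))) (4 : ℝ),
    integral_add_right_eq_self (B.indicator F), integral_indicator hB,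
    Complex.finrank_real_complex, smul_eq_mul]
  rw [abs_of_pos (by positivity)]
  ring

theorem intOn_of_cpt {B L : Set ℂ} (hB : IsOpen B) (hL : IsCompact L) (hLB : L ⊆ B) {F : ℂ → ℝ}
    (hF : ContinuousOn F B) (h0 : ∀ t ∈ B, t ∉ L → F t = 0) : IntegrableOn F B :=
  ((hF.mono hLB).integrableOn_compact hL).of_forall_sdiff_eq_zero hB.measurableSet
    fun t ht => h0 t ht.1 ht.2

theorem cont_lvE {τ : ℂ → ℝ} (hτ : ContDiff ℝ ∞ τ) : Continuous fun t => lvE τ t 1 :=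
  continuous_iff_continuousAt.2 fun _ => continuousAt_lvE (hτ.contDiffAt.of_le two_le_inf) 1

theorem Tst.slice {U : Set (ℂ × M)} {φ : ℂ × M → ℝ} (h : Tst U φ) (t : ℂ) :
    Tst {x | (t, x) ∈ U} fun x => φ (t, x) := by
  have hc : IsClosed {x | (t, x) ∈ tsupport φ} :=
    (isClosed_tsupport φ).preimage (Continuous.prodMk_right t)
  exact Tst.of_cpt (h.cont.comp (Continuous.prodMk_right t))
    ((h.cpt.image continuous_snd).of_isClosed_subset hc fun x hx => ⟨_, hx, rfl⟩)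
    (fun x hx => h.sub hx) fun x hx => image_eq_zero_of_notMem_tsupport hx

section fub

variable {B : Set ℂ} {W : Set M} {H : Fin n → KP A} {δ : Fin n → ℝ} {f : Fin n → ℂ × M → ℝ}
  {τ : ℂ → ℝ} {φ : ℂ × M → ℝ}

theorem qp_t (hB : IsOpen B) (hW : IsOpen W) (hτ : ContDiff ℝ ∞ τ) (h0 : ∀ t ∈ B, 0 ≤ lvE τ t 1) :
    QP (pbd 0 (zr A)) (B ×ˢ W) fun p => τ p.1 :=
  ((QP.const (pbd_semi le_rfl semi_zr) (hB.prod hW) 0).add_t hB (fun _ hp => hp.1)
    hτ.continuous.continuousOn (PL.of_lvE hB fun t ht => ⟨hτ.contDiffAt.of_le two_le_inf, fun v => by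
      have h1 := lvE_comp1 (g := fun y : ℂ => y) (H := τ) (z := t) contDiffAt_id hτ.contDiffAt v
      have := h0 t ht
      rw [h1]; positivity⟩)).congr fun _ _ => (zero_add _).symm

theorem qp_cons {U : Set (ℂ × M)} {G : KP (dA A)} {c : ℂ × M → ℝ} (hc : QP G U c)
    {Hs : Fin n → KP (dA A)} (hf : ∀ l, QP (Hs l) U (f l)) (l : Fin (n + 1)) :
    QP ((Fin.cons G Hs : Fin (n + 1) → KP (dA A)) l) U
      ((Fin.cons c f : Fin (n + 1) → ℂ × M → ℝ) l) :=
  Fin.cases hc hf l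

theorem fubini_chart (hB : IsOpen B) {k : ℕ} (hBk : B ⊆ ball (qk k) 2) (hW : IsOpen W)
    (hf : ∀ l, QP (pbd (δ l) (H l)) (B ×ˢ W) (f l)) (hτ : ContDiff ℝ ∞ τ)
    (h0 : ∀ t ∈ B, 0 ≤ lvE τ t 1) {i : A.ι} (hφ : Tst (B ×ˢ (W ∩ (A.e i).source)) φ) :
    ContinuousOn (fun t => ∫ x, φ (t, x) ∂MX W H fun l x => f l (t, x)) B ∧
      ∫ p, φ p ∂MX (B ×ˢ W) (Fin.cons (pbd 0 (zr A)) fun l => pbd (δ l) (H l))
        (Fin.cons (fun p => τ p.1) f) =
        ∫ t in B, lvE τ t 1 * ∫ x, φ (t, x) ∂MX W H fun l x => f l (t, x) := by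
  have hq := qp_cons (qp_t hB hW hτ h0) hf
  have hφ' : Tst ((B ×ˢ W) ∩ ((dA A).e (i, k)).source) φ :=
    hφ.mono fun p hp => ⟨⟨hp.1, hp.2.1⟩, hBk hp.1, hp.2.2⟩
  have hB' : IsOpen (af (qk k) ⁻¹' B) := hB.preimage (sm_af _).continuous
  have e1 : chU (dA A) (B ×ˢ W) (i, k) =
      {w | w 0 ∈ af (qk k) ⁻¹' B ∧ zc w ∈ chU A W i} := by
    ext w
    exact ⟨fun h => ⟨h.2.1, h.1.2, h.2.2⟩, fun h => ⟨⟨hBk h.1, h.2.1⟩, h.1, h.2.2⟩⟩
  have e2 : (fun l => pot ((Fin.cons (pbd 0 (zr A)) fun l => pbd (δ l) (H l) :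
      Fin (n + 1) → KP (dA A)) l) ((Fin.cons (fun p => τ p.1) f : Fin (n + 1) → ℂ × M → ℝ) l)
        (i, k)) = Fin.cons (fun w => τ (af (qk k) (w 0)))
          fun l => pot (pbd (δ l) (H l)) (f l) (i, k) := by
    funext l
    refine Fin.cases ?_ (fun _ => rfl) l
    funext w
    simp only [Fin.cons_zero]
    rw [pot_pbd, jpot_apply, wt_zr, zero_add, zero_mul, add_zero]
    rfl
  have h1 := DiscF.fubini hB' (isOpen_chU hW i)
    (u := fun l => pot (pbd (δ l) (H l)) (f l) (i, k)) (fun l => e1 ▸ (hf l).cp (i, k))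
    (g := fun s => τ (af (qk k) s)) (hτ.comp ((sm_af _).restrict_scalars ℝ))
    (fun s hs => by rw [lvE_af _ hτ]; exact mul_nonneg (by norm_num) (h0 _ hs))
    (φ := rd (dA A) (i, k) φ) (e1 ▸ hφ'.rd)
  have e3 : ∀ s ∈ af (qk k) ⁻¹' B, ∫ z, rd (dA A) (i, k) φ (jL s z) ∂ma (chU A W i)
      (fun l z => pot (pbd (δ l) (H l)) (f l) (i, k) (jL s z)) =
      ∫ x, φ (af (qk k) s, x) ∂MX W H fun l x => f l (af (qk k) s, x) := by
    intro s hs
    have h2 := fun l => (hf l).slice' hs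
    have h3 : Tst (W ∩ (A.e i).source) fun x => φ (af (qk k) s, x) :=
      (hφ.slice _).mono fun x hx => hx.2
    rw [← MX_const hW h2 fun l => δ l * ‖af (qk k) s‖ ^ 2,
      MX_int_tst hW (fun l => (h2 l).add_const _) h3]
    congr 1
    · congr 1
      funext l z
      rw [pot_pbd, jpot_apply, pot_apply, add_assoc]
      rfl
    · funext z
      by_cases hz : z ∈ (A.e i).target
      · rw [rd_of_mem hz, rd_of_mem (A := dA A) (i := (i, k)) (z := jL s z) ⟨hBk hs, hz⟩]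
        rfl
      · rw [rd_of_not hz, rd_of_not (A := dA A) (i := (i, k)) (z := jL s z) fun h => hz h.2]
  refine ⟨?_, ?_⟩
  · have h4 : ContinuousOn (fun s => ∫ x, φ (af (qk k) s, x)
        ∂MX W H fun l x => f l (af (qk k) s, x)) (af (qk k) ⁻¹' B) :=
      h1.1.congr fun s hs => (e3 s hs).symm
    have h5 := h4.comp (f := afi (qk k)) (s := B) (by unfold afi; fun_prop) fun t ht => by
      rw [mem_preimage, af_afi]; exact ht
    refine h5.congr fun t _ => ?_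
    simp only [comp_apply, af_afi]
  · rw [MX_int_tst (hB.prod hW) hq hφ', e1, e2, h1.2.1, ← int_af (qk k) hB.measurableSet]
    refine setIntegral_congr_fun hB'.measurableSet fun s hs => ?_
    beta_reduce
    rw [e3 s hs, lvE_af _ hτ, mul_assoc]

/-- **Fubini** -/
theorem MX_fubini (hB : IsOpen B) {k : ℕ} (hBk : B ⊆ ball (qk k) 2) (hW : IsOpen W)
    (hf : ∀ l, QP (pbd (δ l) (H l)) (B ×ˢ W) (f l)) (hτ : ContDiff ℝ ∞ τ)
    (h0 : ∀ t ∈ B, 0 ≤ lvE τ t 1) (hφ : Tst (B ×ˢ W) φ) :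
    ContinuousOn (fun t => ∫ x, φ (t, x) ∂MX W H fun l x => f l (t, x)) B ∧
      ∫ p, φ p ∂MX (B ×ˢ W) (Fin.cons (pbd 0 (zr A)) fun l => pbd (δ l) (H l))
        (Fin.cons (fun p => τ p.1) f) =
        ∫ t in B, lvE τ t 1 * ∫ x, φ (t, x) ∂MX W H fun l x => f l (t, x) := by
  obtain ⟨s, ψ, -, p2, -, -, p5⟩ := exists_partM A (hφ.cpt.image continuous_snd) hW (by
    rintro _ ⟨p, hp, rfl⟩; exact (hφ.sub hp).2)
  have t1 : ∀ i, Tst (B ×ˢ (W ∩ (A.e i).source)) fun p => φ p * ψ i p.2 := fun i => by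
    refine Tst.of_cpt (hφ.cont.mul ((p2 i).cont.comp continuous_snd))
      (hφ.cpt.inter_right ((isClosed_tsupport (ψ i)).preimage continuous_snd))
      (fun p hp => ⟨(hφ.sub hp.1).1, (p2 i).sub hp.2⟩) fun p hp => ?_
    by_cases h : p ∈ tsupport φ
    · rw [image_eq_zero_of_notMem_tsupport (f := ψ i) fun h' => hp ⟨h, h'⟩, mul_zero]
    · rw [image_eq_zero_of_notMem_tsupport h, zero_mul]
  have e : φ = fun p => ∑ i ∈ s, φ p * ψ i p.2 := by
    funext p
    rw [← Finset.mul_sum]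
    by_cases h : p ∈ tsupport φ
    · rw [p5.self_of_nhdsSet _ ⟨p, h, rfl⟩, mul_one]
    · rw [image_eq_zero_of_notMem_tsupport h, zero_mul]
  have h1 := fun i => fubini_chart hB hBk hW hf hτ h0 (t1 i)
  have e2 : ∀ t ∈ B, (∫ x, φ (t, x) ∂MX W H fun l x => f l (t, x)) =
      ∑ i ∈ s, ∫ x, φ (t, x) * ψ i x ∂MX W H fun l x => f l (t, x) := fun t ht => by
    rw [← integral_finsetSum _ fun i _ => MX_int hW (fun l => (hf l).slice' ht)
      (((t1 i).slice t).mono fun x hx => hx.2.1)]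
    exact congrArg _ (funext fun x => congrFun e (t, x))
  refine ⟨(continuousOn_finsetSum s fun i _ => (h1 i).1).congr e2, ?_⟩
  rw [setIntegral_congr_fun hB.measurableSet (g := fun t => ∑ i ∈ s, lvE τ t 1 *
    ∫ x, φ (t, x) * ψ i x ∂MX W H fun l x => f l (t, x)) fun t ht => by
      simp only; rw [e2 t ht, Finset.mul_sum], integral_finsetSum, e, integral_finsetSum]
  · refine Finset.sum_congr rfl fun i _ => ?_
    rw [← e]
    exact (h1 i).2
  · exact fun i _ => MX_int (hB.prod hW) (qp_cons (qp_t hB hW hτ h0) hf)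
      ((t1 i).mono fun p hp => ⟨hp.1, hp.2.1⟩)
  · intro i _
    refine intOn_of_cpt hB (hφ.cpt.image continuous_fst) (by
      rintro _ ⟨p, hp, rfl⟩; exact (hφ.sub hp).1) ((cont_lvE hτ).continuousOn.mul (h1 i).1)
      fun t _ ht => ?_
    have : ∀ x, φ (t, x) = 0 := fun x => image_eq_zero_of_notMem_tsupport fun h => ht ⟨_, h, rfl⟩
    simp [this]

end fub

theorem cons_mx_a {α : Type*} (j : ℕ) (a b : α) :
    (Fin.cons a (mx n j a b) : Fin (n + 1) → α) = mx (n + 1) (j + 1) a b := by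
  funext l
  refine Fin.cases ?_ (fun l => ?_) l <;> simp [mx]

theorem cons_mx_b {α : Type*} {j : ℕ} (hj : j < n + 1) (a b : α) :
    (Fin.cons b (mx n j a b) : Fin (n + 1) → α) =
      fun l => mx (n + 1) j a b (Equiv.swap 0 ⟨j, hj⟩ l) := by
  funext l
  refine Fin.cases ?_ (fun l => ?_) l
  · simp [mx]
  · by_cases h : l.succ = ⟨j, hj⟩
    · have h1 : (l : ℕ) + 1 = j := by simpa using congrArg Fin.val h
      rw [h, Equiv.swap_apply_right, ← h, Fin.cons_succ]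
      have h2 : (l : ℕ) < j := by omega
      have h3 : 0 < j := by omega
      simp [mx, h2, h3]
    · have h1 : (l : ℕ) + 1 ≠ j := fun h2 => h (Fin.ext (by simpa using h2))
      rw [Equiv.swap_apply_of_ne_of_ne (Fin.succ_ne_zero l) h, Fin.cons_succ]
      have h2 : (l : ℕ) + 1 < j ↔ (l : ℕ) < j := by omega
      simp [mx, h2]

theorem upd_const_zero {α : Type*} (x y : α) :
    update (fun _ : Fin (n + 1) => x) 0 y = Fin.cons y fun _ => x := by
  funext l
  refine Fin.cases ?_ (fun l => ?_) l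
  · simp
  · rw [update_of_ne (Fin.succ_ne_zero l), Fin.cons_succ]

variable {H : KP A} {δ : ℝ} {a b : ℂ × M → ℝ}

/-- the fibre formula, for a compactly supported difference -/
theorem fibre (hH : H.Pos) (hδ : 0 ≤ δ) {B : Set ℂ} {W : Set M} (hB : IsOpen B) {k : ℕ}
    (hBk : B ⊆ ball (qk k) 2) (hW : IsOpen W) (ha : QP (pbd δ H) (B ×ˢ W) a)
    (hb : QP (pbd δ H) (B ×ˢ W) b) {K : Set (ℂ × M)} (hK : IsCompact K) (hKU : K ⊆ B ×ˢ W)
    (e : ∀ p ∈ B ×ˢ W, p ∉ K → a p = b p) {χ : ℂ → ℝ} (hχ : ContDiff ℝ ∞ χ)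
    (hc : HasCompactSupport χ) :
    (n + 1 : ℝ) * ∫ t in B, lvE χ t 1 * ErA (MX W fun _ => H) (fun x => a (t, x))
      (fun x => b (t, x)) = ∫ p in K, χ p.1 ∂MAo (pbd δ H) (B ×ˢ W) a -
        ∫ p in K, χ p.1 ∂MAo (pbd δ H) (B ×ˢ W) b := by
  have := lcs (dA A)
  have := sct (dA A)
  have hU := hB.prod hW
  have z : ∀ t, t ∉ tsupport χ → lvE χ t 1 = 0 := fun t ht => by
    rw [lvE_congr (notMem_tsupport_iff_eventuallyEq.1 ht)]
    exact lvE_const 0 t 1
  obtain ⟨C, hC⟩ := (cont_lvE hχ).bounded_above_of_compact_support (HasCompactSupport.intro hc z)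
  have hC0 : 0 ≤ C := (norm_nonneg _).trans (hC 0)
  have s0 : ContDiff ℝ ∞ fun t : ℂ => C * ‖t‖ ^ 2 := contDiff_const.mul (contDiff_norm_sq ℝ)
  have l0 : ∀ t : ℂ, lvE (fun t : ℂ => C * ‖t‖ ^ 2) t 1 = C := fun t => by
    rw [lvE_const_mul (contDiff_norm_sq ℝ).contDiffAt, R257.Glue2_101.lvE_nsq]; simp
  have s1 : ContDiff ℝ ∞ fun t : ℂ => C * ‖t‖ ^ 2 + χ t := s0.add hχ
  have l1 : ∀ t : ℂ, lvE (fun t : ℂ => C * ‖t‖ ^ 2 + χ t) t 1 = C + lvE χ t 1 := fun t => by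
    rw [lvE_add s0.contDiffAt hχ.contDiffAt, l0]
  have p0 : ∀ t ∈ B, 0 ≤ lvE (fun t : ℂ => C * ‖t‖ ^ 2) t 1 := fun t _ => by rw [l0]; exact hC0
  have p1 : ∀ t ∈ B, 0 ≤ lvE (fun t : ℂ => C * ‖t‖ ^ 2 + χ t) t 1 := fun t _ => by
    rw [l1]; linarith [(abs_le.1 (hC t)).1]
  obtain ⟨η, t1, t2, -⟩ := exists_tst hK hU hKU
  have t3 := t1.mul_on hU (ha.cont.sub hb.cont)
  have e1 : ∀ p ∈ B ×ˢ W, a p - b p = η p * (a - b) p := fun p hp => by
    by_cases h : p ∈ K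
    · rw [t2 p h, one_mul]; rfl
    · rw [Pi.sub_apply, e p hp h, sub_self, mul_zero]
  have q := fun j => mx_prop (n := n) (P := QP (pbd δ H) (B ×ˢ W)) ha hb j
  set I : ℕ → ℂ → ℝ := fun j t => ∫ x, η (t, x) * (a - b) (t, x)
    ∂MX W (fun _ => H) fun l x => mx n j a b l (t, x) with hI
  set N : ℕ → ℝ := fun j => ∫ p in K, χ p.1 ∂MX (B ×ˢ W) (fun _ => pbd δ H) (mx (n + 1) j a b)
    with hN
  have z2 : ∀ j t, t ∉ Prod.fst '' tsupport η → I j t = 0 := fun j t ht => by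
    have : ∀ x, η (t, x) = 0 := fun x => image_eq_zero_of_notMem_tsupport fun h => ht ⟨_, h, rfl⟩
    simp [hI, this]
  have hL : Prod.fst '' tsupport η ⊆ B := by rintro _ ⟨p, hp, rfl⟩; exact (t1.sub hp).1
  have cI : ∀ j, ContinuousOn (I j) B := fun j =>
    (MX_fubini (H := fun _ => H) (δ := fun _ => δ) hB hBk hW (q j) s0 p0 t3).1
  have iI : ∀ j, ∀ g : ℂ → ℝ, Continuous g → IntegrableOn (fun t => g t * I j t) B := fun j g hg =>
    intOn_of_cpt hB (t1.cpt.image continuous_fst) hL (hg.continuousOn.mul (cI j))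
      fun t _ ht => by rw [z2 j t ht, mul_zero]
  have key : ∀ j < n + 1, ∫ t in B, lvE χ t 1 * I j t = N (j + 1) - N j := fun j hj => by
    have h1 := MX_stokes_on (H := fun _ => pbd δ H) (φ := Fin.cons a (mx n j a b))
      (pbd_pos one_pos hH) hU (Fin.cases ha (q j)) 0 ha hb hK hKU e (pbd_semi hδ (pos_semi hH))
      (qp_t hB hW s1 p1) (qp_t hB hW s0 p0)
    have f : ∀ {τ : ℂ → ℝ}, ContDiff ℝ ∞ τ → (∀ t ∈ B, 0 ≤ lvE τ t 1) →
        ∫ p, (a p - b p) ∂MX (B ×ˢ W) (Fin.cons (pbd 0 (zr A)) fun _ => pbd δ H)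
          (Fin.cons (fun p => τ p.1) (mx n j a b)) = ∫ t in B, lvE τ t 1 * I j t := fun hτ h0 => by
      rw [← (MX_fubini (H := fun _ => H) (δ := fun _ => δ) hB hBk hW (q j) hτ h0 t3).2]
      refine integral_congr_ae ?_
      filter_upwards [(MX_rad hU (qp_cons (qp_t hB hW hτ h0) (q j))).ae_mem] with p hp
      exact e1 p hp
    simp only [Fin.update_cons_zero, update_eq_self, add_sub_cancel_left] at h1
    rw [upd_const_zero, f s1 p1, f s0 p0, cons_mx_a, cons_mx_b hj,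
      MX_perm hU (mx_prop (P := QP (pbd δ H) (B ×ˢ W)) ha hb j),
      ← integral_sub (iI j _ (cont_lvE s1)) (iI j _ (cont_lvE s0))] at h1
    rw [← h1]
    congr 1
    funext t
    rw [l0, l1]; ring
  have h2 := Finset.sum_range_sub N (n + 1)
  rw [← Finset.sum_congr rfl fun j hj => key j (Finset.mem_range.1 hj),
    ← integral_finsetSum _ fun j _ => iI j _ (cont_lvE hχ)] at h2
  simp only [hN, mx_top, mx_zero] at h2
  rw [MAo, MAo, ← h2, ← integral_const_mul]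
  refine setIntegral_congr_fun hB.measurableSet fun t ht => ?_
  rw [ErA, mul_left_comm, ← mul_assoc (n + 1 : ℝ), mul_one_div_cancel (by positivity), one_mul,
    ← Finset.mul_sum]
  congr 1
  refine Finset.sum_congr rfl fun j _ => ?_
  rw [← mx_comp (fun (g : ℂ × M → ℝ) x => g (t, x))]
  refine integral_congr_ae ?_
  filter_upwards [(MX_rad hW fun l => (q j l).slice' ht).ae_mem] with x hx
  exact e1 (t, x) ⟨ht, hx⟩

theorem tuo_slice {D : Set ℂ} {c : ℂ × M → ℝ} (hc : ContinuousOn c (D ×ˢ univ)) {t : ℂ}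
    (ht : t ∈ D) {L : Set M} (hL : IsCompact L) :
    TendstoUniformlyOn (fun s x => c (s, x)) (fun x => c (t, x)) (𝓝[D] t) L := fun _ hu => by
  obtain ⟨v, h1, h2⟩ := hL.mem_uniformity_of_prod (f := fun s x => c (s, x))
    (hc.mono (prod_mono Subset.rfl (subset_univ _))) ht (symm_le_uniformity hu)
  exact eventually_of_mem h1 h2

theorem Er_contOn {D : Set ℂ} {K : Set M} (hK : IsCompact K)
    (ha : QP (pbd δ H) (D ×ˢ univ) a) (hb : QP (pbd δ H) (D ×ˢ univ) b)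
    (e : ∀ t ∈ D, ∀ x ∉ K, a (t, x) = b (t, x)) :
    ContinuousOn (fun t => Er H (fun x => a (t, x)) fun x => b (t, x)) D := by
  have := lcs A
  intro t ht
  exact Er_tendsto (ha.slice' ht) (hb.slice' ht) hK
    (eventually_nhdsWithin_of_forall fun s hs => ⟨ha.slice' hs, hb.slice' hs, e s hs⟩) (e t ht)
    (tendstoLocallyUniformly_iff_forall_isCompact.2 fun L hL => tuo_slice ha.cont ht hL)
    (tendstoLocallyUniformly_iff_forall_isCompact.2 fun L hL => tuo_slice hb.cont ht hL)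

/-- **plurisubharmonic variation of the energy** -/
theorem Er_psh (hH : H.Pos) (hδ : 0 ≤ δ) {D : Set ℂ} (hD : IsOpen D) {K : Set M}
    (hK : IsCompact K) (ha : QP (pbd δ H) (D ×ˢ univ) a) (hb : QP (pbd δ H) (D ×ˢ univ) b)
    (e : ∀ t ∈ D, ∀ x ∉ K, a (t, x) = b (t, x))
    (hm : MAo (pbd δ H) (D ×ˢ univ) b ≤ MAo (pbd δ H) (D ×ˢ univ) a) :
    ContinuousOn (fun t => Er H (fun x => a (t, x)) fun x => b (t, x)) D ∧
      PshL D fun t => Er H (fun x => a (t, x)) fun x => b (t, x) := by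
  have hc := Er_contOn hK ha hb e
  refine ⟨hc, PL.of_local fun t₀ ht₀ => ?_⟩
  have := lcs A
  obtain ⟨R₀, hR₀, h1⟩ := Metric.isOpen_iff.1 hD t₀ ht₀
  obtain ⟨r, hr, hr1, hrD⟩ : ∃ r : ℝ, 0 < r ∧ 3 * r ≤ 1 ∧ closedBall t₀ (3 * r) ⊆ D :=
    ⟨min (1 / 3) (R₀ / 4), by positivity, by linarith [min_le_left (1 / 3) (R₀ / 4)],
      (closedBall_subset_ball (by linarith [min_le_right (1 / 3) (R₀ / 4)])).trans h1⟩
  obtain ⟨k, hk⟩ := exists_qk t₀ one_pos
  have hBk : ball t₀ (3 * r) ⊆ ball (qk k) 2 := ball_subset_ball' (by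
    rw [mem_ball] at hk; linarith)
  obtain ⟨W, hW, hKW, -, hWc⟩ := exists_open_between_and_isCompact_closure hK isOpen_univ
    (subset_univ _)
  have hBD : ball t₀ (3 * r) ⊆ D := ball_subset_closedBall.trans hrD
  have hb1 : ball t₀ r ⊆ ball t₀ (3 * r) := ball_subset_ball (by linarith)
  have hL := (isCompact_closedBall t₀ (3 * r)).prod hWc
  have hLD : closedBall t₀ (3 * r) ×ˢ closure W ⊆ D ×ˢ univ := prod_mono hrD (subset_univ _)
  obtain ⟨S₁, hS₁⟩ := hL.exists_bound_of_continuousOn (ha.cont.mono hLD)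
  obtain ⟨S₂, hS₂⟩ := hL.exists_bound_of_continuousOn (hb.cont.mono hLD)
  set S := |S₁| + |S₂| with hS
  have hS0 : 0 ≤ S := by positivity
  have hU : IsOpen (ball t₀ (3 * r) ×ˢ W) := isOpen_ball.prod hW
  have hUD : ball t₀ (3 * r) ×ˢ W ⊆ D ×ˢ univ := prod_mono hBD (subset_univ _)
  have bd : ∀ p ∈ ball t₀ (3 * r) ×ˢ W, |a p| ≤ S ∧ |b p| ≤ S := fun p hp => by
    have h2 : p ∈ closedBall t₀ (3 * r) ×ˢ closure W :=
      ⟨ball_subset_closedBall hp.1, subset_closure hp.2⟩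
    have h3 := (hS₁ p h2).trans (le_abs_self _)
    have h4 := (hS₂ p h2).trans (le_abs_self _)
    rw [Real.norm_eq_abs] at h3 h4
    exact ⟨by linarith [abs_nonneg S₂], by linarith [abs_nonneg S₁]⟩
  set L : ℂ → ℝ := fun t => S / r ^ 2 * ‖t - t₀‖ ^ 2 - 2 * S with hLd
  have qL : QP (pbd δ H) (ball t₀ (3 * r) ×ˢ W) fun p => L p.1 :=
    ((QP.const (pbd_semi hδ (pos_semi hH)) hU (-(2 * S))).add_t isOpen_univ (fun _ _ => trivial)
      (τ := fun t => S / r ^ 2 * ‖t - t₀‖ ^ 2) (by fun_prop)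
      (PL.mul (by positivity) (psh_nsq isOpen_univ t₀))).congr fun p _ => by simp only [hLd]; ring
  have L1 : ∀ t ∈ ball t₀ r, L t ≤ -S := fun t ht => by
    have h2 : ‖t - t₀‖ ^ 2 ≤ r ^ 2 :=
      pow_le_pow_left₀ (norm_nonneg _) (mem_ball_iff_norm.1 ht).le 2
    have h3 := mul_le_mul_of_nonneg_left h2 (by positivity : 0 ≤ S / r ^ 2)
    rw [div_mul_cancel₀ _ (by positivity)] at h3
    simp only [hLd]; linarith
  have L2 : ∀ t, t ∉ closedBall t₀ (2 * r) → S ≤ L t := fun t ht => by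
    have h2 : (2 * r) ^ 2 ≤ ‖t - t₀‖ ^ 2 :=
      pow_le_pow_left₀ (by positivity) (not_le.1 fun h => ht (mem_closedBall_iff_norm.2 h)).le 2
    have h3 := mul_le_mul_of_nonneg_left h2 (by positivity : 0 ≤ S / r ^ 2)
    rw [show S / r ^ 2 * (2 * r) ^ 2 = 4 * S by field_simp; ring] at h3
    simp only [hLd]; linarith
  have qa := (ha.mono hU hUD).max qL
  have qb := (hb.mono hU hUD).max qL
  have hK' := (isCompact_closedBall t₀ (2 * r)).prod hK
  have hK'U : closedBall t₀ (2 * r) ×ˢ K ⊆ ball t₀ (3 * r) ×ˢ W :=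
    prod_mono (closedBall_subset_ball (by linarith)) hKW
  have hV : IsOpen (ball t₀ r ×ˢ W) := isOpen_ball.prod hW
  have hVU : ball t₀ r ×ˢ W ⊆ ball t₀ (3 * r) ×ˢ W := prod_mono hb1 Subset.rfl
  have ea : ∀ p ∈ ball t₀ r ×ˢ W, max (a p) (L p.1) = a p := fun p hp =>
    max_eq_left ((L1 _ hp.1).trans (abs_le.1 (bd p (hVU hp)).1).1)
  have eb : ∀ p ∈ ball t₀ r ×ˢ W, max (b p) (L p.1) = b p := fun p hp =>
    max_eq_left ((L1 _ hp.1).trans (abs_le.1 (bd p (hVU hp)).2).1)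
  refine ⟨ball t₀ r, mem_ball_self hr, DiscF.weyl isOpen_ball (hc.mono (hb1.trans hBD))
    fun χ hχ tχ χ0 => ?_⟩
  have h2 := fibre hH hδ isOpen_ball hBk hW qa qb hK' hK'U (fun p hp hp' => by
    by_cases h : p.2 ∈ K
    · have h3 := L2 p.1 fun h4 => hp' ⟨h4, h⟩
      rw [max_eq_right ((abs_le.1 (bd p hp).1).2.trans h3),
        max_eq_right ((abs_le.1 (bd p hp).2).2.trans h3)]
    · rw [show a p = b p from e p.1 (hBD hp.1) p.2 h]) hχ tχ.cpt
  have z : ∀ t, t ∉ ball t₀ r → lvE χ t 1 = 0 := fun t ht => by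
    rw [lvE_congr (notMem_tsupport_iff_eventuallyEq.1 fun h => ht (tχ.sub h))]
    exact lvE_const 0 t 1
  have f : ∀ {c : ℂ × M → ℝ}, QP (pbd δ H) (D ×ˢ univ) c →
      QP (pbd δ H) (ball t₀ (3 * r) ×ˢ W) (fun p => max (c p) (L p.1)) →
      (∀ p ∈ ball t₀ r ×ˢ W, max (c p) (L p.1) = c p) →
      ∫ p in closedBall t₀ (2 * r) ×ˢ K, χ p.1
        ∂MAo (pbd δ H) (ball t₀ (3 * r) ×ˢ W) (fun p => max (c p) (L p.1)) =
      ∫ p in closedBall t₀ (2 * r) ×ˢ K, χ p.1 ∂MAo (pbd δ H) (D ×ˢ univ) c := by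
    intro c hc hc' ec
    have g : ∀ μ : Measure (ℂ × M), ∫ p in closedBall t₀ (2 * r) ×ˢ K, χ p.1 ∂μ =
        ∫ p in closedBall t₀ (2 * r) ×ˢ K, χ p.1 ∂μ.restrict (ball t₀ r ×ˢ W) := fun μ => by
      rw [Measure.restrict_restrict hK'.measurableSet]
      refine setIntegral_eq_of_subset_of_forall_sdiff_eq_zero hK'.measurableSet
        inter_subset_left fun p hp => tχ.zero_off fun h => hp.2 ⟨hp.1, h, hKW hp.1.2⟩
    rw [g, g (MAo _ (D ×ˢ univ) c), MAo, MAo, MX_restrict_eq ha.op (fun _ => hc) hU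
      (fun _ => hc') hV (hVU.trans hUD) hVU (fun _ => 0) fun _ p hp => by rw [ec p hp, add_zero]]
  rw [f ha qa ea, f hb qb eb] at h2
  have h3 := integral_mono_measure (Measure.restrict_mono (Subset.refl
    (closedBall t₀ (2 * r) ×ˢ K)) hm) (f := fun p : ℂ × M => χ p.1)
    (Eventually.of_forall fun p => χ0 p.1) ((MX_rad ha.op fun _ => ha).int_on hK'
      (hK'U.trans hUD) (tχ.cont.comp continuous_fst).continuousOn)
  have h4 := (sub_nonneg.2 h3).trans_eq h2.symm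
  rw [mul_nonneg_iff_of_pos_left (by positivity),
    setIntegral_eq_of_subset_of_forall_sdiff_eq_zero isOpen_ball.measurableSet hb1
      fun t ht => by rw [z t ht.2, zero_mul]] at h4
  refine h4.trans_eq (setIntegral_congr_fun isOpen_ball.measurableSet fun t ht => ?_)
  have ht' := hBD (hb1 ht)
  have h5 := fun j => mx_prop (n := n) (P := QP H W)
    ((ha.slice' ht').mono hW (subset_univ _)) ((hb.slice' ht').mono hW (subset_univ _)) j
  rw [Er_eq_loc (ha.slice' ht') (hb.slice' ht') hW fun x hx => e t ht' x fun h => hx (hKW h)]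
  congr 1
  unfold ErA
  congr 1
  refine Finset.sum_congr rfl fun j _ => ?_
  rw [MX_congr hW (h5 j) (ψ := mx n j (fun x => max (a (t, x)) (L t)) fun x => max (b (t, x)) (L t))
    fun l x hx => by
      unfold mx
      split_ifs
      exacts [ea (t, x) ⟨ht, hx⟩, eb (t, x) ⟨ht, hx⟩]]
  refine integral_congr_ae ?_
  filter_upwards [(MX_rad hW (h5 j)).ae_mem] with x hx
  rw [ea (t, x) ⟨ht, hx⟩, eb (t, x) ⟨ht, hx⟩]

end

end Crest.Agent.X261.BT
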