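import Crest.Agent.X261.BT.MxP

/-!
# X261, BT (helper9), part C: the mixed Monge-Ampere measure of continuous psh functions

* `ma O u` : the measure; `ma_rad`, `ma_lim` (smooth approximation), `ma_near`, `ma_tendsto`;
* `ma_smooth`, `ma_cln`, `ma_restrict`, `ma_perm`, `ma_add`, `ma_mul`, `ma_ph`.
-/

set_option autoImplicit false
set_option linter.unusedSectionVars false

open Set Filter Topology Complex MeasureTheory Function Metric
open scoped ContDiff Matrix ComplexConjugate ComplexOrder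

namespace Crest.Agent.X261.BT

open Crest.Agent.R275.Geo Crest.Agent.R275.EDR890
open Crest.Agent.R273.Hess_333 Crest.Agent.R273.HessB_333

noncomputable section

variable {n : ℕ} {O O' U : Set (Cn n)} {u : Fin n → Cn n → ℝ} {φ : Cn n → ℝ}

theorem Sp.add {a b : Cn n → ℝ} (h : Sp U a) (h' : Sp U b) : Sp U fun z => a z + b z :=
  ⟨h.1.add h'.1, fun z hz => by
    rw [hess_add h.1.contDiffAt h'.1.contDiffAt]; exact (h.2 z hz).add (h'.2 z hz)⟩

theorem Sp.mul {a : Cn n → ℝ} (h : Sp U a) {c : ℝ} (hc : 0 ≤ c) : Sp U fun z => c * a z :=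
  ⟨contDiff_const.mul h.1, fun z hz => by
    rw [hess_const_mul c h.1.contDiffAt]
    exact (h.2 z hz).smul (Complex.zero_le_real.2 hc)⟩

theorem upd {P : (Cn n → ℝ) → Prop} (hu : ∀ l, P (u l)) (k : Fin n) {a : Cn n → ℝ} (ha : P a)
    (l : Fin n) : P (update u k a l) := by
  rcases eq_or_ne l k with rfl | hl
  · rwa [update_self]
  · rw [update_of_ne hl]; exact hu l

/-- smooth psh approximation on `U` -/
structure Ap {ι : Type*} (l : Filter ι) (U : Set (Cn n)) (a : Cn n → ℝ) (v : ι → Cn n → ℝ) :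
    Prop where
  sp : ∀ᶠ j in l, Sp U (v j)
  lim : TendstoUniformlyOn v a l U

namespace Ap

variable {ι : Type*} {l : Filter ι} {a b : Cn n → ℝ} {v w : ι → Cn n → ℝ}

theorem mono (h : Ap l U a v) {U' : Set (Cn n)} (h1 : U' ⊆ U) : Ap l U' a v :=
  ⟨h.sp.mono fun _ hj => hj.mono h1, h.lim.mono h1⟩

theorem near (h : Ap l U a v) {δ : ℝ} (hδ : 0 < δ) : ∀ᶠ j in l, ∀ z ∈ U, |v j z - a z| ≤ δ :=
  (Metric.tendstoUniformlyOn_iff.1 h.lim δ hδ).mono fun _ hj z hz => by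
    rw [abs_sub_comm]; exact (hj z hz).le

theorem of_near (h : ∀ᶠ j in l, Sp U (v j))
    (H : ∀ δ, 0 < δ → ∀ᶠ j in l, ∀ z ∈ U, |v j z - a z| ≤ δ) : Ap l U a v :=
  ⟨h, Metric.tendstoUniformlyOn_iff.2 fun δ hδ => (H _ (half_pos hδ)).mono fun _ hj z hz => by
    rw [dist_comm]; exact (hj z hz).trans_lt (half_lt_self hδ)⟩

theorem congr (h : Ap l U a v) (H : EqOn a b U) : Ap l U b v := ⟨h.sp, h.lim.congr_right H⟩

theorem const (h : Sp U a) : Ap l U a fun _ => a :=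
  of_near (Eventually.of_forall fun _ => h) fun δ hδ => Eventually.of_forall fun _ z _ => by
    simpa using hδ.le

theorem add (h : Ap l U a v) (h' : Ap l U b w) :
    Ap l U (fun z => a z + b z) fun j z => v j z + w j z :=
  ⟨(h.sp.and h'.sp).mono fun _ hj => hj.1.add hj.2, h.lim.add h'.lim⟩

theorem mul (h : Ap l U a v) {c : ℝ} (hc : 0 ≤ c) :
    Ap l U (fun z => c * a z) fun j z => c * v j z :=
  of_near (h.sp.mono fun _ hj => hj.mul hc) fun δ hδ =>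
    (h.near (δ := δ / (c + 1)) (by positivity)).mono fun j hj z hz => by
      rw [← mul_sub, abs_mul, abs_of_nonneg hc]
      refine (mul_le_mul_of_nonneg_left (hj z hz) hc).trans ?_
      rw [← mul_div_assoc, div_le_iff₀ (by positivity)]
      nlinarith

theorem upd {v : ι → Fin n → Cn n → ℝ} (hv : ∀ k, Ap l U (u k) fun j => v j k) (k : Fin n)
    (h : Ap l U a w) (m : Fin n) : Ap l U (update u k a m) fun j => update (v j) k (w j) m := by
  rcases eq_or_ne m k with rfl | hl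
  · simpa only [update_self] using h
  · simpa only [update_of_ne hl] using hv m

end Ap

theorem Mo.ap {K : Set (Cn n)} {S : ℕ → (Cn n → ℝ) → Cn n → ℝ} (h : Mo O K S) (hU : U ⊆ K)
    {a : Cn n → ℝ} (ha : CP O a) : Ap atTop U a fun j => S j a :=
  ⟨(h.psd a ha).mono fun j hj => ⟨h.sm j a ha.1, fun z hz => hj z (hU hz)⟩, (h.lim a ha.1).mono hU⟩

theorem exists_ap (hO : IsOpen O) {K : Set (Cn n)} (hK : IsCompact K) (hKO : K ⊆ O) :
    ∃ U S, IsOpen U ∧ K ⊆ U ∧ U ⊆ O ∧ IsCompact (closure U) ∧ closure U ⊆ O ∧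
      Mo O (closure U) S ∧ ∀ a, CP O a → Ap atTop U a fun j => S j a := by
  obtain ⟨U, h1, h2, h3, h4⟩ := exists_rc hK hO hKO
  obtain ⟨S, hS⟩ := exists_mo hO h4 h3
  exact ⟨U, S, h1, h2, subset_closure.trans h3, h4, h3, hS, fun a ha => hS.ap subset_closure ha⟩

theorem exists_bd {K : Set (Cn n)} (hK : IsCompact K) (hu : ∀ k, ContinuousOn (u k) K) :
    ∃ R, 0 ≤ R ∧ ∀ k, ∀ z ∈ K, |u k z| ≤ R := by
  choose C hC using fun k => hK.exists_bound_of_continuousOn (hu k)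
  refine ⟨∑ k, |C k|, Finset.sum_nonneg fun _ _ => abs_nonneg _, fun k z hz => (hC k z hz).trans
    ((le_abs_self _).trans (Finset.single_le_sum (f := fun k => |C k|) (fun _ _ => abs_nonneg _)
      (Finset.mem_univ k)))⟩

theorem cauchy' (hU : IsOpen U) (hu : ∀ k, ContinuousOn (u k) U) (hφ : Tst U φ) {ε : ℝ}
    (hε : 0 < ε) : ∃ δ, 0 < δ ∧ ∀ v v' : Fin n → Cn n → ℝ, (∀ k, Sp U (v k)) → (∀ k, Sp U (v' k)) →
      (∀ k, ∀ z ∈ U, |v k z - u k z| ≤ δ) → (∀ k, ∀ z ∈ U, |v' k z - u k z| ≤ δ) →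
        |(∫ z, φ z * mh v z) - ∫ z, φ z * mh v' z| ≤ ε := by
  obtain ⟨V, h1, h2, h3, h4⟩ := exists_rc hφ.cpt hU hφ.sub
  have hV : V ⊆ U := subset_closure.trans h3
  obtain ⟨R, hR, hb⟩ := exists_bd h4 fun k => (hu k).mono h3
  obtain ⟨δ, hδ, H⟩ := cauchy h1 (R := R + 1) (by positivity) ⟨hφ.cont, hφ.cpt, h2⟩ hε
  have hB : ∀ v : Fin n → Cn n → ℝ, (∀ k, Sp U (v k)) →
      (∀ k, ∀ z ∈ U, |v k z - u k z| ≤ min 1 (δ / 2)) → Bt V (R + 1) v := fun v s hv k =>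
    ⟨(s k).mono hV, fun z hz => by
      have h5 := abs_le.1 ((hv k z (hV hz)).trans (min_le_left _ _))
      have h6 := abs_le.1 (hb k z (subset_closure hz))
      exact abs_le.2 ⟨by linarith, by linarith⟩⟩
  refine ⟨min 1 (δ / 2), by positivity, fun v v' s s' hv hv' =>
    H v v' (hB v s hv) (hB v' s' hv') fun k z hz => ?_⟩
  have h5 := abs_le.1 ((hv k z (hV hz)).trans (min_le_right _ _))
  have h6 := abs_le.1 ((hv' k z (hV hz)).trans (min_le_right _ _))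
  exact abs_le.2 ⟨by linarith, by linarith⟩

/-- `c` is the limit of `∫ φ mh v` when `v` approximates `u` -/
def Nr (O : Set (Cn n)) (u : Fin n → Cn n → ℝ) (φ : Cn n → ℝ) (c : ℝ) : Prop :=
  ∀ U, IsOpen U → U ⊆ O → tsupport φ ⊆ U → ∀ ε, 0 < ε → ∃ δ, 0 < δ ∧ ∀ v : Fin n → Cn n → ℝ,
    (∀ k, Sp U (v k)) → (∀ k, ∀ z ∈ U, |v k z - u k z| ≤ δ) → |(∫ z, φ z * mh v z) - c| ≤ ε

theorem tendsto_of_abs {ι : Type*} {l : Filter ι} {f : ι → ℝ} {c : ℝ}
    (h : ∀ ε, 0 < ε → ∀ᶠ j in l, |f j - c| ≤ ε) : Tendsto f l (𝓝 c) :=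
  Metric.tendsto_nhds.2 fun _ hε => (h _ (half_pos hε)).mono fun _ hj =>
    lt_of_le_of_lt hj (half_lt_self hε)

theorem Nr.tendsto {c : ℝ} (h : Nr O u φ c) (hU : IsOpen U) (hUO : U ⊆ O) (hφ : tsupport φ ⊆ U)
    {ι : Type*} {l : Filter ι} {v : ι → Fin n → Cn n → ℝ} (hv : ∀ k, Ap l U (u k) fun j => v j k) :
    Tendsto (fun j => ∫ z, φ z * mh (v j) z) l (𝓝 c) :=
  tendsto_of_abs fun ε hε => by
    obtain ⟨δ, hδ, H⟩ := h U hU hUO hφ ε hε
    filter_upwards [eventually_all.2 fun k => (hv k).sp, eventually_all.2 fun k => (hv k).near hδ]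
      with j h1 h2 using H _ h1 h2

theorem exists_nr (hO : IsOpen O) (hu : ∀ k, CP O (u k)) (hφ : Tst O φ) : ∃ c, Nr O u φ c := by
  obtain ⟨V, S, h1, h2, h3, -, -, -, hS⟩ := exists_ap hO hφ.cpt hφ.sub
  have h4 : ∀ δ, 0 < δ → ∀ᶠ j in atTop, (∀ k, Sp V (S j (u k))) ∧
      ∀ k, ∀ z ∈ V, |S j (u k) z - u k z| ≤ δ := fun δ hδ =>
    (eventually_all.2 fun k => (hS _ (hu k)).sp).and
      (eventually_all.2 fun k => (hS _ (hu k)).near hδ)
  have hc : CauchySeq fun j => ∫ z, φ z * mh (fun k => S j (u k)) z := by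
    refine Metric.cauchySeq_iff.2 fun ε hε => ?_
    obtain ⟨δ, hδ, H⟩ := cauchy' h1 (fun k => (hu k).1.mono h3) ⟨hφ.cont, hφ.cpt, h2⟩ (half_pos hε)
    obtain ⟨N, hN⟩ := eventually_atTop.1 (h4 δ hδ)
    exact ⟨N, fun i hi j hj => (H _ _ (hN i hi).1 (hN j hj).1 (hN i hi).2 (hN j hj).2).trans_lt
      (half_lt_self hε)⟩
  obtain ⟨c, hc⟩ := cauchySeq_tendsto_of_complete hc
  refine ⟨c, fun U hU hUO hφU ε hε => ?_⟩
  obtain ⟨δ, hδ, H⟩ := cauchy' (hU.inter h1) (fun k => (hu k).1.mono (inter_subset_left.trans hUO))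
    ⟨hφ.cont, hφ.cpt, subset_inter hφU h2⟩ hε
  refine ⟨δ, hδ, fun v s hv => le_of_tendsto (tendsto_const_nhds.sub hc).abs ?_⟩
  filter_upwards [h4 δ hδ] with j hj
  exact H _ _ (fun k => (s k).mono inter_subset_left) (fun k => (hj.1 k).mono inter_subset_right)
    (fun k z hz => hv k z hz.1) fun k z hz => hj.2 k z hz.2

theorem int_mh {v : Fin n → Cn n → ℝ} (hv : ∀ k, ContDiff ℝ ∞ (v k)) (hφ : Tst O φ) :
    Integrable fun z => φ z * mh v z := int_l hφ.cont (cont_mh hv) hφ.cpt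

theorem exists_ma (hO : IsOpen O) (hu : ∀ k, CP O (u k)) :
    ∃ μ, Rad O μ ∧ ∀ φ, Tst O φ → Nr O u φ (∫ z, φ z ∂μ) := by
  choose! Λ hΛ using fun φ (hφ : Tst O φ) => exists_nr hO hu hφ
  refine (exists_rad hO (Λ := Λ) (fun φ ψ hφ hψ => ?_) (fun c φ hφ => ?_)
    fun φ hφ h0 => ?_).imp fun μ h => ⟨h.1, fun φ hφ => by rw [h.2 φ hφ]; exact hΛ φ hφ⟩
  · obtain ⟨V, S, h1, h2, h3, -, -, -, hS⟩ :=
      exists_ap hO (hφ.cpt.union hψ.cpt) (union_subset hφ.sub hψ.sub)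
    have t1 : Tst V φ := ⟨hφ.cont, hφ.cpt, subset_union_left.trans h2⟩
    have t2 : Tst V ψ := ⟨hψ.cont, hψ.cpt, subset_union_right.trans h2⟩
    refine tendsto_nhds_unique ((hΛ _ (hφ.add hψ)).tendsto h1 h3 (t1.add t2).sub
      fun k => hS _ (hu k)) ((((hΛ _ hφ).tendsto h1 h3 t1.sub fun k => hS _ (hu k)).add
        ((hΛ _ hψ).tendsto h1 h3 t2.sub fun k => hS _ (hu k))).congr' ?_)
    filter_upwards [eventually_all.2 fun k => (hS _ (hu k)).sp] with j hj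
    rw [← integral_add (int_mh (fun k => (hj k).1) hφ) (int_mh (fun k => (hj k).1) hψ)]
    simp only [add_mul]
  · obtain ⟨V, S, h1, h2, h3, -, -, -, hS⟩ := exists_ap hO hφ.cpt hφ.sub
    have t1 : Tst V φ := ⟨hφ.cont, hφ.cpt, h2⟩
    refine tendsto_nhds_unique ((hΛ _ (hφ.const_mul c)).tendsto h1 h3 (t1.const_mul c).sub
      fun k => hS _ (hu k)) ((((hΛ _ hφ).tendsto h1 h3 h2 fun k => hS _ (hu k)).const_mul
        c).congr fun j => ?_)
    rw [← integral_const_mul]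
    simp only [mul_assoc]
  · obtain ⟨V, S, h1, h2, h3, -, -, -, hS⟩ := exists_ap hO hφ.cpt hφ.sub
    refine ge_of_tendsto ((hΛ _ hφ).tendsto h1 h3 h2 fun k => hS _ (hu k)) ?_
    filter_upwards [eventually_all.2 fun k => (hS _ (hu k)).sp] with j hj
    refine integral_nonneg fun z => ?_
    by_cases hz : z ∈ tsupport φ
    · exact mul_nonneg (h0 z) (mh_nonneg fun k => (hj k).2 z (h2 hz))
    · simp [image_eq_zero_of_notMem_tsupport hz]

open Classical in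
/-- the mixed Monge-Ampere measure `dd^c u_1 ∧ ... ∧ dd^c u_n` on `O` -/
def ma (O : Set (Cn n)) (u : Fin n → Cn n → ℝ) : Measure (Cn n) :=
  if h : ∃ μ, Rad O μ ∧ ∀ φ, Tst O φ → Nr O u φ (∫ z, φ z ∂μ) then h.choose else 0

theorem ma_rad (O : Set (Cn n)) (u : Fin n → Cn n → ℝ) : Rad O (ma O u) := by
  unfold ma
  split_ifs with h
  exacts [h.choose_spec.1, Rad.zero O]

theorem ma_compl (O : Set (Cn n)) (u : Fin n → Cn n → ℝ) : ma O u Oᶜ = 0 := (ma_rad O u).off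

theorem ma_lt_top (u : Fin n → Cn n → ℝ) {K : Set (Cn n)} (hK : IsCompact K) (hKO : K ⊆ O) :
    ma O u K < ⊤ := (ma_rad O u).fin K hK hKO

theorem Tst.int_ma (hφ : Tst O φ) (u : Fin n → Cn n → ℝ) : Integrable φ (ma O u) :=
  (ma_rad O u).int hφ

theorem ma_nr (hO : IsOpen O) (hu : ∀ k, CP O (u k)) (hφ : Tst O φ) :
    Nr O u φ (∫ z, φ z ∂ma O u) := by
  have h := exists_ma hO hu
  unfold ma
  rw [dif_pos h]
  exact h.choose_spec.2 φ hφ

/-- smooth approximation -/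
theorem ma_lim (hO : IsOpen O) (hu : ∀ k, CP O (u k)) (hU : IsOpen U) (hUO : U ⊆ O) (hφ : Tst U φ)
    {ι : Type*} {l : Filter ι} {v : ι → Fin n → Cn n → ℝ} (hv : ∀ k, Ap l U (u k) fun j => v j k) :
    Tendsto (fun j => ∫ z, φ z * mh (v j) z) l (𝓝 (∫ z, φ z ∂ma O u)) :=
  (ma_nr hO hu (hφ.mono hUO)).tendsto hU hUO hφ.sub hv

/-- continuity, `ε`-`δ` form -/
theorem ma_near (hO : IsOpen O) (hu : ∀ k, CP O (u k)) (hU : IsOpen U) (hUO : U ⊆ O) (hφ : Tst U φ)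
    {ε : ℝ} (hε : 0 < ε) : ∃ δ, 0 < δ ∧ ∀ O' u', IsOpen O' → U ⊆ O' → (∀ k, CP O' (u' k)) →
      (∀ k, ∀ z ∈ U, |u' k z - u k z| ≤ δ) → |(∫ z, φ z ∂ma O' u') - ∫ z, φ z ∂ma O u| ≤ ε := by
  obtain ⟨V, h1, h2, h3, h4⟩ := exists_rc hφ.cpt hU hφ.sub
  have hV : V ⊆ U := subset_closure.trans h3
  obtain ⟨δ, hδ, H⟩ := ma_nr hO hu (hφ.mono hUO) V h1 (hV.trans hUO) h2 ε hε
  refine ⟨δ / 2, half_pos hδ, fun O' u' hO' hUO' hu' h5 => ?_⟩
  obtain ⟨S, hS⟩ := exists_mo hO' h4 (h3.trans hUO')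
  have h6 := fun k => hS.ap subset_closure (hu' k)
  refine le_of_tendsto ((ma_lim hO' hu' h1 (hV.trans hUO') ⟨hφ.cont, hφ.cpt, h2⟩ h6).sub
    tendsto_const_nhds).abs ?_
  filter_upwards [eventually_all.2 fun k => (h6 k).sp,
    eventually_all.2 fun k => (h6 k).near (half_pos hδ)] with j h7 h8
  refine H _ h7 fun k z hz => ?_
  have h9 := abs_le.1 (h8 k z hz)
  have h10 := abs_le.1 (h5 k z (hV hz))
  exact abs_le.2 ⟨by linarith, by linarith⟩

theorem ma_int_congr (hO : IsOpen O) (hu : ∀ k, CP O (u k)) (hO' : IsOpen O')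
    {u' : Fin n → Cn n → ℝ} (hu' : ∀ k, CP O' (u' k)) (hU : IsOpen U) (hUO : U ⊆ O) (hUO' : U ⊆ O')
    (hφ : Tst U φ) (H : ∀ k, EqOn (u' k) (u k) U) : ∫ z, φ z ∂ma O' u' = ∫ z, φ z ∂ma O u := by
  refine sub_eq_zero.1 (abs_nonpos_iff.1 (le_of_forall_pos_le_add fun ε hε => ?_))
  obtain ⟨δ, hδ, h1⟩ := ma_near hO hu hU hUO hφ hε
  rw [zero_add]
  exact h1 O' u' hO' hUO' hu' fun k z hz => by rw [H k hz, sub_self, abs_zero]; exact hδ.le

/-- locality -/
theorem ma_restrict (hO : IsOpen O) (hu : ∀ k, CP O (u k)) (hO' : IsOpen O') (h1 : O' ⊆ O)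
    {u' : Fin n → Cn n → ℝ} (H : ∀ k, EqOn (u' k) (u k) O') :
    (ma O u).restrict O' = ma O' u' := by
  refine Rad.ext hO' ((ma_rad O u).restrict_open hO' h1) (ma_rad _ _) fun φ hφ => ?_
  rw [setIntegral_eq_integral_of_forall_compl_eq_zero fun x hx => hφ.zero_off hx]
  exact (ma_int_congr hO hu hO' (fun k => ((hu k).mono h1).congr hO' (H k)) hO' h1 Subset.rfl hφ
    H).symm

theorem ma_congr (hO : IsOpen O) (hu : ∀ k, CP O (u k)) {u' : Fin n → Cn n → ℝ}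
    (H : ∀ k, EqOn (u' k) (u k) O) : ma O u' = ma O u := by
  rw [← ma_restrict hO hu hO Subset.rfl H, (ma_rad O u).restrict_self]

theorem ma_restrict_eq (hO : IsOpen O) (hu : ∀ k, CP O (u k)) (hO' : IsOpen O')
    {u' : Fin n → Cn n → ℝ} (hu' : ∀ k, CP O' (u' k)) (hU : IsOpen U) (hUO : U ⊆ O) (hUO' : U ⊆ O')
    (H : ∀ k, EqOn (u' k) (u k) U) : (ma O' u').restrict U = (ma O u).restrict U := by
  rw [ma_restrict hO hu hU hUO H, ma_restrict hO' hu' hU hUO' fun _ _ _ => rfl]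

/-- continuity under locally uniform convergence -/
theorem ma_tendsto (hO : IsOpen O) (hu : ∀ k, CP O (u k)) (hφ : Tst O φ) {ι : Type*} {l : Filter ι}
    {v : ι → Fin n → Cn n → ℝ} (hv : ∀ᶠ i in l, ∀ k, CP O (v i k))
    (H : ∀ k, TendstoLocallyUniformlyOn (fun i => v i k) (u k) l O) :
    Tendsto (fun i => ∫ z, φ z ∂ma O (v i)) l (𝓝 (∫ z, φ z ∂ma O u)) :=
  tendsto_of_abs fun ε hε => by
    obtain ⟨V, h1, h2, h3, h4⟩ := exists_rc hφ.cpt hO hφ.sub
    have hV : V ⊆ O := subset_closure.trans h3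
    obtain ⟨δ, hδ, h5⟩ := ma_near hO hu h1 hV ⟨hφ.cont, hφ.cpt, h2⟩ hε
    filter_upwards [hv, eventually_all.2 fun k => Metric.tendstoUniformlyOn_iff.1
      ((tendstoLocallyUniformlyOn_iff_forall_isCompact hO).1 (H k) _ h3 h4) δ hδ] with i h6 h7
    exact h5 O _ hO hV h6 fun k z hz => by
      rw [abs_sub_comm]; exact (h7 k z (subset_closure hz)).le

/-- **Chern-Levine-Nirenberg** -/
theorem ma_cln (hU : IsOpen U) {K : Set (Cn n)} (hK : IsCompact K) (hKU : K ⊆ U) (R : ℝ) :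
    ∃ C, 0 ≤ C ∧ ∀ O u, IsOpen O → U ⊆ O → (∀ k, CP O (u k)) → (∀ k, ∀ z ∈ U, |u k z| ≤ R) →
      (ma O u).real K ≤ C := by
  obtain ⟨χ, -, t, h1, h2, h3⟩ := exists_cut hK hU hKU
  obtain ⟨V, a1, a2, a3, a4⟩ := exists_rc t.cpt hU t.sub
  have hV : V ⊆ U := subset_closure.trans a3
  obtain ⟨C, hC, H⟩ := cln a1 t.cpt a2 (R := |R| + 1) (by positivity)
  refine ⟨C, hC, fun O u hO hUO hu hb => ?_⟩
  obtain ⟨S, hS⟩ := exists_mo hO a4 (a3.trans hUO)
  have h6 := fun k => hS.ap subset_closure (hu k)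
  refine ENNReal.toReal_le_of_le_ofReal hC (((ma_rad O u).le_int (t.mono hUO) h2 hK.measurableSet
    fun x hx => (h1.self_of_nhdsSet x hx).ge).trans (ENNReal.ofReal_le_ofReal ?_))
  refine le_of_tendsto (ma_lim hO hu a1 (hV.trans hUO) ⟨t.cont, t.cpt, a2⟩ h6) ?_
  filter_upwards [eventually_all.2 fun k => (h6 k).sp,
    eventually_all.2 fun k => (h6 k).near one_pos] with j h7 h8
  have h9 := H (fun k => S j (u k)) (fun k => ⟨h7 k, fun z hz => by
    have h9 := abs_le.1 (h8 k z hz)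
    have h10 := abs_le.1 ((hb k z (hV hz)).trans (le_abs_self R))
    exact abs_le.2 ⟨by linarith, by linarith⟩⟩) χ 1 zero_le_one
    (fun z _ => by rw [abs_of_nonneg (h2 z)]; exact h3 z)
    fun z hz => image_eq_zero_of_notMem_tsupport hz
  rw [one_mul] at h9
  exact (le_abs_self _).trans h9

/-- continuity with varying test functions -/
theorem ma_tendsto' (hO : IsOpen O) (hu : ∀ k, CP O (u k)) (hφ : Tst O φ) {ι : Type*}
    {l : Filter ι} {v : ι → Fin n → Cn n → ℝ} (hv : ∀ᶠ i in l, ∀ k, CP O (v i k))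
    (H : ∀ k, TendstoLocallyUniformlyOn (fun i => v i k) (u k) l O) {K : Set (Cn n)}
    (hK : IsCompact K) (hKO : K ⊆ O) {ψ : ι → Cn n → ℝ}
    (hψ : ∀ᶠ i in l, Continuous (ψ i) ∧ ∀ z, z ∉ K → ψ i z = 0) (h0 : ∀ z, z ∉ K → φ z = 0)
    (hl : TendstoUniformlyOn ψ φ l K) :
    Tendsto (fun i => ∫ z, ψ i z ∂ma O (v i)) l (𝓝 (∫ z, φ z ∂ma O u)) := by
  obtain ⟨V, h1, h2, h3, h4⟩ := exists_rc hK hO hKO
  have hV : V ⊆ O := subset_closure.trans h3
  obtain ⟨R, hR, hb⟩ := exists_bd h4 fun k => (hu k).1.mono h3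
  obtain ⟨C, hC, h5⟩ := ma_cln h1 hK h2 (R + 1)
  have h6 : Tendsto (fun i => ∫ z, (ψ i z - φ z) ∂ma O (v i)) l (𝓝 0) := tendsto_of_abs fun ε hε => by
    filter_upwards [hv, hψ, Metric.tendstoUniformlyOn_iff.1 hl (ε / (C + 1)) (by positivity),
      eventually_all.2 fun k => Metric.tendstoUniformlyOn_iff.1
        ((tendstoLocallyUniformlyOn_iff_forall_isCompact hO).1 (H k) _ h3 h4) 1 one_pos]
      with i a1 a2 a3 a4
    rw [sub_zero]
    refine ((ma_rad O (v i)).abs_int_le hK hKO (ε := ε / (C + 1))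
      (fun z hz => by rw [abs_sub_comm]; exact (a3 z hz).le)
      fun z hz => by rw [a2.2 z hz, h0 z hz, sub_self]).trans ?_
    refine (mul_le_mul_of_nonneg_left (h5 O _ hO hV a1 fun k z hz => ?_) (by positivity)).trans ?_
    · have a5 := abs_lt.1 (a4 k z (subset_closure hz))
      have a6 := abs_le.1 (hb k z (subset_closure hz))
      exact abs_le.2 ⟨by linarith, by linarith⟩
    · rw [div_mul_eq_mul_div, div_le_iff₀ (by positivity)]
      nlinarith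
  have h7 := h6.add (ma_tendsto hO hu hφ hv H)
  rw [zero_add] at h7
  refine h7.congr' (hψ.mono fun i hi => ?_)
  rw [integral_sub ((Tst.of_cpt hi.1 hK hKO hi.2).int_ma _) (hφ.int_ma _), sub_add_cancel]

/-- globalisation of functions smooth on `O` -/
theorem exists_glob (hO : IsOpen O) {K : Set (Cn n)} (hK : IsCompact K) (hKO : K ⊆ O) :
    ∃ (U : Set (Cn n)) (χ : Cn n → ℝ), IsOpen U ∧ K ⊆ U ∧ U ⊆ O ∧ (∀ z ∈ U, χ z = 1) ∧
      ∀ a : Cn n → ℝ, (∀ z ∈ O, ContDiffAt ℝ ∞ a z) → ContDiff ℝ ∞ (fun z => χ z * a z) ∧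
        ∀ z ∈ U, (fun z => χ z * a z) =ᶠ[𝓝 z] a := by
  obtain ⟨χ, s, t, h1, -, -⟩ := exists_cut hK hO hKO
  obtain ⟨U, h2, h3, h4⟩ := mem_nhdsSet_iff_exists.1 h1
  refine ⟨U ∩ O, χ, h2.inter hO, subset_inter h3 hKO, inter_subset_right, fun z hz => h4 hz.1,
    fun a ha => ⟨contDiff_iff_contDiffAt.2 fun z => ?_, fun z hz => ?_⟩⟩
  · by_cases hz : z ∈ tsupport χ
    · exact s.contDiffAt.mul (ha z (t.sub hz))
    · refine contDiffAt_const (c := 0).congr_of_eventuallyEq ?_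
      filter_upwards [notMem_tsupport_iff_eventuallyEq.1 hz] with y hy
      rw [hy, Pi.zero_apply, zero_mul]
  · filter_upwards [h2.mem_nhds hz.1] with y hy
    rw [show χ y = 1 from h4 hy, one_mul]

theorem int_congr_supp {f g : Cn n → ℝ} (h : ∀ z ∈ tsupport φ, f z = g z) (μ : Measure (Cn n)) :
    ∫ z, φ z * f z ∂μ = ∫ z, φ z * g z ∂μ :=
  integral_congr_ae (Eventually.of_forall fun z => by
    by_cases hz : z ∈ tsupport φ
    · simp only [h z hz]
    · simp only [image_eq_zero_of_notMem_tsupport hz, zero_mul])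

/-- the smooth formula -/
theorem ma_smooth (hO : IsOpen O) (hu : ∀ k, CP O (u k)) (hs : ∀ k, ∀ z ∈ O, ContDiffAt ℝ ∞ (u k) z)
    (hφ : Tst O φ) : ∫ z, φ z ∂ma O u = ∫ z, φ z * mh u z := by
  obtain ⟨U, χ, h1, h2, h3, h4, h5⟩ := exists_glob hO hφ.cpt hφ.sub
  have h6 : ∀ k, Ap (atTop : Filter ℕ) U (u k) fun _ z => χ z * u k z := fun k =>
    (Ap.const ⟨(h5 _ (hs k)).1, fun z hz => by
      rw [hess_congr ((h5 _ (hs k)).2 z hz)]; exact (hu k).psd (h3 hz) (hs k z (h3 hz))⟩).congr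
      fun z hz => by simp only [h4 z hz, one_mul]
  rw [tendsto_nhds_unique (ma_lim hO hu h1 h3 ⟨hφ.cont, hφ.cpt, h2⟩ h6) tendsto_const_nhds]
  exact int_congr_supp (fun z hz => mh_congr fun k => (h5 _ (hs k)).2 z (h2 hz)) _

theorem ma_smooth_eq (hO : IsOpen O) (hu : ∀ k, CP O (u k))
    (hs : ∀ k, ∀ z ∈ O, ContDiffAt ℝ ∞ (u k) z) :
    ma O u = (volume.restrict O).withDensity fun z => ENNReal.ofReal (mh u z) := by
  have hc : ContinuousOn (mh u) O := fun z hz =>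
    (contDiffAt_mh fun k => hs k z hz).continuousAt.continuousWithinAt
  refine Rad.ext hO (ma_rad _ _) (Rad.dens hO (fun K hK _ => hK.measure_lt_top) hc) fun φ hφ => ?_
  rw [ma_smooth hO hu hs hφ, int_dens hO hc
    (fun z hz => mh_nonneg fun k => (hu k).psd hz (hs k z hz)) fun z hz => hφ.zero_off hz]

theorem ma_perm (hO : IsOpen O) (hu : ∀ k, CP O (u k)) (σ : Equiv.Perm (Fin n)) :
    ma O (fun k => u (σ k)) = ma O u := by
  refine Rad.ext hO (ma_rad _ _) (ma_rad _ _) fun φ hφ => ?_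
  obtain ⟨V, S, h1, h2, h3, -, -, -, hS⟩ := exists_ap hO hφ.cpt hφ.sub
  have t : Tst V φ := ⟨hφ.cont, hφ.cpt, h2⟩
  refine tendsto_nhds_unique (ma_lim hO (fun k => hu (σ k)) h1 h3 t fun k => hS _ (hu (σ k)))
    ((ma_lim hO hu h1 h3 t fun k => hS _ (hu k)).congr fun j => ?_)
  rw [mh_perm (fun k => S j (u k)) σ]

section slot

variable (hO : IsOpen O) (hu : ∀ k, CP O (u k)) (k : Fin n) {a b : Cn n → ℝ}
include hO hu

theorem ma_add (ha : CP O a) (hb : CP O b) :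
    ma O (update u k fun z => a z + b z) = ma O (update u k a) + ma O (update u k b) := by
  refine Rad.ext hO (ma_rad _ _) ((ma_rad _ _).add (ma_rad _ _)) fun φ hφ => ?_
  obtain ⟨V, S, h1, h2, h3, -, -, -, hS⟩ := exists_ap hO hφ.cpt hφ.sub
  have t : Tst V φ := ⟨hφ.cont, hφ.cpt, h2⟩
  have hv := fun k => hS _ (hu k)
  rw [integral_add_measure (hφ.int_ma _) (hφ.int_ma _)]
  refine tendsto_nhds_unique (ma_lim hO (upd hu k (ha.add hb hO)) h1 h3 t
    (Ap.upd hv k ((hS a ha).add (hS b hb)))) (((ma_lim hO (upd hu k ha) h1 h3 t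
      (Ap.upd hv k (hS a ha))).add (ma_lim hO (upd hu k hb) h1 h3 t
        (Ap.upd hv k (hS b hb)))).congr' ?_)
  filter_upwards [eventually_all.2 fun k => (hv k).sp, (hS a ha).sp, (hS b hb).sp] with j s sa sb
  rw [← integral_add (int_mh (sm_update (fun k => (s k).1) k sa.1) hφ)
    (int_mh (sm_update (fun k => (s k).1) k sb.1) hφ)]
  simp only [mh_update_add _ k sa.1.contDiffAt sb.1.contDiffAt, mul_add]

theorem ma_mul (ha : CP O a) {c : ℝ} (hc : 0 ≤ c) :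
    ma O (update u k fun z => c * a z) = ENNReal.ofReal c • ma O (update u k a) := by
  refine Rad.ext hO (ma_rad _ _) ((ma_rad _ _).smul ENNReal.ofReal_ne_top) fun φ hφ => ?_
  obtain ⟨V, S, h1, h2, h3, -, -, -, hS⟩ := exists_ap hO hφ.cpt hφ.sub
  have t : Tst V φ := ⟨hφ.cont, hφ.cpt, h2⟩
  have hv := fun k => hS _ (hu k)
  rw [integral_smul_measure, ENNReal.toReal_ofReal hc, smul_eq_mul]
  refine tendsto_nhds_unique (ma_lim hO (upd hu k (ha.mul hc)) h1 h3 t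
    (Ap.upd hv k ((hS a ha).mul hc))) (((ma_lim hO (upd hu k ha) h1 h3 t
      (Ap.upd hv k (hS a ha))).const_mul c).congr' ?_)
  filter_upwards [(hS a ha).sp] with j sa
  rw [← integral_const_mul]
  simp only [mh_update_mul _ k c sa.1.contDiffAt, mul_left_comm]

theorem ma_ph0 (ha : Ph O a) : ma O (update u k a) = 0 := by
  have h1 := ma_add hO hu k (ha.cp hO) ((ha.mul (-1)).cp hO)
  have h2 := ma_mul hO hu k (ha.cp hO) le_rfl
  rw [ENNReal.ofReal_zero, zero_smul] at h2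
  rw [show (fun z => a z + -1 * a z) = fun z => 0 * a z from funext fun z => by ring, h2] at h1
  exact le_antisymm (h1 ▸ Measure.le_add_right le_rfl) (Measure.zero_le _)

theorem ma_ph (ha : CP O a) (hb : Ph O b) :
    ma O (update u k fun z => a z + b z) = ma O (update u k a) := by
  rw [ma_add hO hu k ha (hb.cp hO), ma_ph0 hO hu k hb, add_zero]

theorem ma_le_add (ha : CP O a) (hb : CP O b) :
    ma O (update u k a) ≤ ma O (update u k fun z => a z + b z) := by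
  rw [ma_add hO hu k ha hb]
  exact Measure.le_add_right le_rfl

end slot

end

end Crest.Agent.X261.BT
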