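import Crest.Agent.X261.BT.DiscA
import Crest.Agent.X261.BT.MxC
import Crest.Agent.X261.BT.MxP
import Crest.Agent.X261.BT.BalB

/-!
# X261, BT (helper19), DISC: Fubini for the mixed Monge-Ampere measure, Weyl's lemma

* `DiscF.fubini` : `ma (g(t), u₁, …, uₙ) = ∂∂̄g dt ⊗ ma (u₁(t,·), …, uₙ(t,·))`;
* `DiscF.weyl`   : continuous weakly subharmonic functions have sub-mean values.
-/

set_option autoImplicit false
set_option linter.unusedSectionVars false

open Set Filter Topology Complex MeasureTheory Metric Function Equiv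
open scoped ContDiff Matrix ComplexConjugate ComplexOrder Convolution

namespace Crest.Agent.X261.BT.DiscF

open Crest.Agent.R275.Geo
open Crest.Agent.R273.Hess_333
open Crest.Agent.R281.Rich_710 (PshL dav lvE_smul exists_cont_ext unif_near)
open Crest.Agent.R257.HoB_843 (lvE lvE_comp)
open Crest.Agent.R273.YauCh_635 (two_le_inf)

noncomputable section

variable {n : ℕ}

/-! ### Weyl's lemma -/

theorem fd2_apply {E : Type*} [NormedAddCommGroup E] [NormedSpace ℝ E] {f : E → ℝ}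
    (hf : ContDiff ℝ ∞ f) (x v w : E) :
    fderiv ℝ (fun y => fderiv ℝ f y w) x v = fderiv ℝ (fderiv ℝ f) x v w := by
  have h1 : DifferentiableAt ℝ (fderiv ℝ f) x :=
    ((hf.fderiv_right (m := ∞) (by simp)).differentiable (by simp)) x
  rw [fderiv_clm_apply h1 (differentiableAt_const w)]
  simp

theorem lvE_one (f : ℂ → ℝ) (x v : ℂ) : lvE f x v = ‖v‖ ^ 2 * lvE f x 1 := by
  have e1 : v = v.re • (1 : ℂ) + v.im • I := by simp [re_add_im]
  have e2 : I • v = (-v.im) • (1 : ℂ) + v.re • I := by apply Complex.ext <;> simp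
  unfold lvE
  rw [e2, Complex.sq_norm, normSq_apply, smul_eq_mul, mul_one]
  generalize v.re = a at *
  generalize v.im = b at *
  rw [e1]
  simp only [map_add, map_smul, _root_.add_apply, _root_.smul_apply, smul_eq_mul]
  ring

theorem fd_conv {g ρ : ℂ → ℝ} (hg : Continuous g) (hρ : ContDiff ℝ ∞ ρ) (hc : HasCompactSupport ρ)
    (w : ℂ) : (fun x => fderiv ℝ (g ⋆[ContinuousLinearMap.lsmul ℝ ℝ, volume] ρ) x w) =
      g ⋆[ContinuousLinearMap.lsmul ℝ ℝ, volume] fun a => fderiv ℝ ρ a w := by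
  funext x
  rw [(hc.hasFDerivAt_convolution_right _ hg.locallyIntegrable (hρ.of_le (by simp)) x).fderiv,
    convolution_precompR_apply _ hg.locallyIntegrable (hc.fderiv ℝ) (hρ.continuous_fderiv (by simp))]

theorem lvE_conv {g ρ : ℂ → ℝ} (hg : Continuous g) (hρ : ContDiff ℝ ∞ ρ) (hc : HasCompactSupport ρ)
    (x : ℂ) : lvE (g ⋆[ContinuousLinearMap.lsmul ℝ ℝ, volume] ρ) x 1 =
      ∫ y, lvE (fun y => ρ (x - y)) y 1 * g y := by
  have hs : ContDiff ℝ ∞ (g ⋆[ContinuousLinearMap.lsmul ℝ ℝ, volume] ρ) :=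
    hc.contDiff_convolution_right _ hg.locallyIntegrable hρ
  have s1 : ∀ w, ContDiff ℝ ∞ fun a => fderiv ℝ ρ a w := fun w =>
    (hρ.fderiv_right (m := ∞) (by simp)).clm_apply contDiff_const
  have c1 : ∀ w, HasCompactSupport fun a => fderiv ℝ ρ a w := fun w => hc.fderiv_apply ℝ w
  have h1 : ∀ w, fderiv ℝ (fderiv ℝ (g ⋆[ContinuousLinearMap.lsmul ℝ ℝ, volume] ρ)) x w w =
      ∫ y, g y * fderiv ℝ (fderiv ℝ ρ) (x - y) w w := fun w => by
    rw [← fd2_apply hs, fd_conv hg hρ hc, congrFun (fd_conv hg (s1 w) (c1 w) w) x]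
    simp only [fd2_apply hρ]
    rfl
  have i1 : ∀ w, Integrable fun y => g y * fderiv ℝ (fderiv ℝ ρ) (x - y) w w := fun w => by
    simp only [← fd2_apply hρ]
    exact ((c1 w).fderiv_apply ℝ w).convolutionExists_right (ContinuousLinearMap.lsmul ℝ ℝ)
      hg.locallyIntegrable (((s1 w).continuous_fderiv (by simp)).clm_apply continuous_const) x
  have h2 : ∀ y, lvE (fun y => ρ (x - y)) y 1 = lvE ρ (x - y) 1 := fun y => by
    have h3 := lvE_comp (T := fun y => x - y) (u := ρ) (z := y) (by fun_prop)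
      (hρ.contDiffAt.of_le two_le_inf) 1
    have h4 : fderiv ℂ (fun y => x - y) y = -ContinuousLinearMap.id ℂ ℂ :=
      ((hasFDerivAt_id y).const_sub x).fderiv
    rw [h4, lvE_one ρ] at h3
    simpa [Function.comp_def] using h3
  simp only [h2]
  unfold lvE
  rw [h1, h1, ← integral_add (i1 _) (i1 _), ← integral_const_mul]
  exact integral_congr_ae (Eventually.of_forall fun y => by ring)

theorem weyl {D : Set ℂ} (hD : IsOpen D) {e : ℂ → ℝ} (he : ContinuousOn e D)
    (h : ∀ χ : ℂ → ℝ, ContDiff ℝ ∞ χ → Tst D χ → (∀ t, 0 ≤ χ t) → 0 ≤ ∫ t in D, lvE χ t 1 * e t) :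
    PshL D e := by
  refine PL.of_local fun z hz => ?_
  obtain ⟨r, hr, hb, g, hg, hge⟩ := exists_cont_ext hD he hz
  have hs : ball z (r / 2) ⊆ ball z r := ball_subset_ball (by linarith)
  refine ⟨ball z (r / 2), mem_ball_self (half_pos hr),
    PL.of_unif isOpen_ball (he.mono (hs.trans hb)) fun ε hε => ?_⟩
  obtain ⟨s, hs0, h1⟩ := unif_near (isCompact_closedBall z (r / 2)) (fun a _ => hg.continuousAt) hε
  have hm : 0 < min s (r / 2) := lt_min hs0 (half_pos hr)
  let φ : ContDiffBump (0 : ℂ) := ⟨min s (r / 2) / 2, min s (r / 2), half_pos hm, half_lt_self hm⟩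
  have hρ : ContDiff ℝ ∞ (φ.normed volume) := φ.contDiff_normed
  have hc := φ.hasCompactSupport_normed (μ := volume)
  have hF : ContDiff ℝ ∞ (g ⋆[ContinuousLinearMap.lsmul ℝ ℝ, volume] φ.normed volume) :=
    hc.contDiff_convolution_right _ hg.locallyIntegrable hρ
  refine ⟨_, hF.continuous.continuousOn, PL.of_lvE isOpen_ball fun x hx =>
    ⟨hF.contDiffAt.of_le two_le_inf, fun v => ?_⟩, fun x hx => ?_⟩
  · rw [lvE_one, lvE_conv hg hρ hc]
    refine mul_nonneg (sq_nonneg _) ?_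
    have hK : closedBall x (r / 2) ⊆ ball z r :=
      closedBall_subset_ball' (by linarith [mem_ball.1 hx])
    have h0 : ∀ y, y ∉ closedBall x (r / 2) → φ.normed volume (x - y) = 0 := fun y hy => by
      refine notMem_support.1 ?_
      rw [φ.support_normed_eq, mem_ball_zero_iff, norm_sub_rev, not_lt]
      rw [mem_closedBall, dist_eq_norm, not_le] at hy
      exact (min_le_right _ _).trans hy.le
    have hχ : ContDiff ℝ ∞ fun y => φ.normed volume (x - y) :=
      hρ.comp (contDiff_const.sub contDiff_id)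
    have h2 : ∀ y, y ∉ closedBall x (r / 2) → lvE (fun y => φ.normed volume (x - y)) y 1 = 0 :=
      fun y hy => by
        have h3 : (fun y => φ.normed volume (x - y)) =ᶠ[𝓝 y] fun _ => 0 :=
          eventually_of_mem (isClosed_closedBall.isOpen_compl.mem_nhds hy) h0
        unfold lvE
        rw [h3.fderiv.fderiv_eq]
        simp
    have h3 := h _ hχ (Tst.of_cpt hχ.continuous (isCompact_closedBall x (r / 2)) (hK.trans hb) h0)
      fun y => φ.nonneg_normed _
    rw [setIntegral_eq_integral_of_forall_compl_eq_zero fun y hy => by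
      rw [h2 y fun h4 => hy (hb (hK h4)), zero_mul]] at h3
    refine h3.trans_eq (integral_congr_ae (Eventually.of_forall fun y => ?_))
    by_cases hy : y ∈ closedBall x (r / 2)
    · simp only [hge y (hK hy)]
    · simp only [h2 y hy, zero_mul]
  · have e : (g ⋆[ContinuousLinearMap.lsmul ℝ ℝ, volume] φ.normed volume) x =
        (φ.normed volume ⋆[ContinuousLinearMap.lsmul ℝ ℝ, volume] g) x := by
      rw [convolution_lsmul, convolution_lsmul_swap]
      simp only [smul_eq_mul, mul_comm]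
    rw [e, ← hge x (hs hx), ← Real.dist_eq]
    exact φ.dist_normed_convolution_le hg.aestronglyMeasurable fun y hy =>
      h1 x (ball_subset_closedBall hx) y (ball_subset_ball (min_le_left _ _) hy)

/-! ### the smooth case -/

theorem md_cons (γ : ℂ) (X : MC (n + 1)) (hX : ∀ a b, X a b = if a = 0 ∧ b = 0 then γ else 0)
    (G : Fin n → MC (n + 1)) :
    md (Fin.cons X G) = γ * md fun k => (G k).submatrix Fin.succ Fin.succ := by
  have hs : ∀ e : Perm (Fin n), sgn (Perm.decomposeFin.symm (0, e)) = sgn e := fun e => by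
    simp [sgn]
  unfold md
  rw [← Perm.decomposeFin.symm.sum_comp, Fintype.sum_prod_type, Finset.sum_eq_single 0
    (fun p _ hp => by simp [Fin.prod_univ_succ, hX, hp]) (by simp), Finset.mul_sum]
  refine Finset.sum_congr rfl fun s _ => ?_
  rw [← Perm.decomposeFin.symm.sum_comp, Fintype.sum_prod_type, Finset.sum_eq_single 0
    (fun p _ hp => by simp [Fin.prod_univ_succ, hX, hp]) (by simp), Finset.mul_sum]
  refine Finset.sum_congr rfl fun t _ => ?_
  rw [hs, hs, Fin.prod_univ_succ]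
  simp [hX]
  ring

theorem fd2_aff {E F : Type*} [NormedAddCommGroup E] [NormedSpace ℝ E] [NormedAddCommGroup F]
    [NormedSpace ℝ F] {u : F → ℝ} (hu : ContDiff ℝ ∞ u) (c : F) (J : E →L[ℝ] F) (z v w : E) :
    fderiv ℝ (fderiv ℝ fun y => u (c + J y)) z v w = fderiv ℝ (fderiv ℝ u) (c + J z) (J v) (J w) := by
  have h1 : ∀ {f : F → ℝ}, ContDiff ℝ ∞ f → ∀ y a, fderiv ℝ (fun y => f (c + J y)) y a =
      fderiv ℝ f (c + J y) (J a) := fun hf y a => by
    exact DFunLike.congr_fun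
      ((hf.differentiable (by simp) _).hasFDerivAt.comp y (J.hasFDerivAt.const_add c)).fderiv a
  have hs : ContDiff ℝ ∞ fun y => u (c + J y) := hu.comp (contDiff_const.add J.contDiff)
  have h2 : ContDiff ℝ ∞ fun y => fderiv ℝ u y (J w) :=
    (hu.fderiv_right (m := ∞) (by simp)).clm_apply contDiff_const
  rw [← fd2_apply hs, ← fd2_apply hu, ← h1 h2]
  simp only [h1 hu]

/-- the inclusion of the fibre -/
def inr (n : ℕ) : Cn n →L[ℝ] Cn (n + 1) :=
  (jLL.comp (ContinuousLinearMap.inr ℂ ℂ (Cn n))).restrictScalars ℝ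

theorem jL_eq (t : ℂ) (z : Cn n) : jL t z = jL t 0 + inr n z := by
  ext a
  refine Fin.cases ?_ (fun a => ?_) a <;> simp [inr]

theorem inr_single (a : Fin n) (c : ℂ) :
    inr n (EuclideanSpace.single a c) = EuclideanSpace.single a.succ c := by
  ext b
  refine Fin.cases ?_ (fun b => ?_) b <;> simp [inr, (Fin.succ_ne_zero a).symm]

theorem sm_jL (t : ℂ) : ContDiff ℂ ∞ (jL (n := n) t) :=
  jLL.contDiff.comp (contDiff_const.prodMk contDiff_id)

theorem sm_sl {u : Cn (n + 1) → ℝ} (hu : ContDiff ℝ ∞ u) (t : ℂ) :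
    ContDiff ℝ ∞ fun z => u (jL t z) := hu.comp ((sm_jL t).restrict_scalars ℝ)

theorem hess_sl {u : Cn (n + 1) → ℝ} (hu : ContDiff ℝ ∞ u) (t : ℂ) (z : Cn n) :
    hess (fun z => u (jL t z)) z = (hess u (jL t z)).submatrix Fin.succ Fin.succ := by
  rw [Bal.hess_eq_hs (sm_sl hu t).contDiffAt, Bal.hess_eq_hs hu.contDiffAt]
  ext a b
  simp only [Bal.hs, Matrix.of_apply, Matrix.submatrix_apply, jL_eq t z,
    show (fun z => u (jL t z)) = fun z => u (jL t 0 + inr n z) from funext fun z => by rw [← jL_eq],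
    fd2_aff hu, inr_single]

/-- the first coordinate -/
def p0 (n : ℕ) : Cn (n + 1) →L[ℝ] ℂ := (EuclideanSpace.proj 0 : Cn (n + 1) →L[ℂ] ℂ).restrictScalars ℝ

theorem sm_p0 {g : ℂ → ℝ} (hg : ContDiff ℝ ∞ g) : ContDiff ℝ ∞ fun p : Cn (n + 1) => g (p 0) :=
  hg.comp (p0 n).contDiff

theorem hess_p0 {g : ℂ → ℝ} (hg : ContDiff ℝ ∞ g) (p : Cn (n + 1)) (a b : Fin (n + 1)) :
    hess (fun p : Cn (n + 1) => g (p 0)) p a b =
      if a = 0 ∧ b = 0 then (lvE g (p 0) 1 : ℂ) else 0 := by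
  have h1 : ∀ (a : Fin (n + 1)) (c : ℂ), p0 n (EuclideanSpace.single a c) = if a = 0 then c else 0 :=
    fun a c => by simp [p0, eq_comm]
  have h2 := (hg.contDiffAt (x := p 0)).isSymmSndFDerivAt (by simp; exact two_le_inf)
  have e : ∀ v w, fderiv ℝ (fderiv ℝ fun p : Cn (n + 1) => g (p 0)) p v w =
      fderiv ℝ (fderiv ℝ g) (p 0) (p0 n v) (p0 n w) := fun v w => by
    have h3 := fd2_aff hg 0 (p0 n) p v w
    simp only [zero_add] at h3
    exact h3
  rw [Bal.hess_eq_hs (sm_p0 hg).contDiffAt]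
  simp only [Bal.hs, Matrix.of_apply, e, h1]
  by_cases ha : a = 0 <;> by_cases hb : b = 0 <;> simp [ha, hb, lvE, h2.eq 1 I]

theorem mh_cons {g : ℂ → ℝ} (hg : ContDiff ℝ ∞ g) {v : Fin n → Cn (n + 1) → ℝ}
    (hv : ∀ k, ContDiff ℝ ∞ (v k)) (t : ℂ) (z : Cn n) :
    mh (Fin.cons (fun p => g (p 0)) v) (jL t z) = lvE g t 1 * mh (fun k z => v k (jL t z)) z := by
  have e : (fun k => hess ((Fin.cons (fun p => g (p 0)) v : Fin (n + 1) → Cn (n + 1) → ℝ) k)
      (jL t z)) = Fin.cons (hess (fun p : Cn (n + 1) => g (p 0)) (jL t z))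
        fun k => hess (v k) (jL t z) := funext fun k => Fin.cases rfl (fun _ => rfl) k
  unfold mh
  rw [e, md_cons _ _ (hess_p0 hg _), jL_zero, re_ofReal_mul]
  simp only [hess_sl (hv _)]

/-- the identification as an isometry -/
def jI (n : ℕ) : WithLp 2 (ℂ × Cn n) ≃ₗᵢ[ℝ] Cn (n + 1) where
  toFun p := jL p.ofLp.1 p.ofLp.2
  invFun w := WithLp.toLp 2 (w 0, zc w)
  map_add' _ _ := by ext a; refine Fin.cases rfl (fun _ => rfl) a
  map_smul' _ _ := by ext a; refine Fin.cases rfl (fun _ => rfl) a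
  left_inv _ := rfl
  right_inv w := jL_zc w
  norm_map' p := by
    rw [← sq_eq_sq₀ (norm_nonneg _) (norm_nonneg _), WithLp.prod_norm_sq_eq_of_L2,
      EuclideanSpace.norm_sq_eq, EuclideanSpace.norm_sq_eq, Fin.sum_univ_succ]
    rfl

theorem mp_jL : MeasurePreserving (fun p : ℂ × Cn n => jL p.1 p.2) (volume.prod volume) volume :=
  (jI n).measurePreserving.comp (WithLp.volume_preserving_toLp ℂ (Cn n))

theorem me_jL : MeasurableEmbedding fun p : ℂ × Cn n => jL p.1 p.2 :=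
  (jI n).toHomeomorph.measurableEmbedding.comp (MeasurableEquiv.toLp 2 (ℂ × Cn n)).measurableEmbedding

theorem fub_smooth {g : ℂ → ℝ} (hg : ContDiff ℝ ∞ g) {v : Fin n → Cn (n + 1) → ℝ}
    (hv : ∀ k, ContDiff ℝ ∞ (v k)) {O : Set (Cn (n + 1))} {φ : Cn (n + 1) → ℝ} (hφ : Tst O φ) :
    Integrable (fun t => lvE g t 1 * ∫ z, φ (jL t z) * mh (fun k z => v k (jL t z)) z) ∧
      ∫ p, φ p * mh (Fin.cons (fun p => g (p 0)) v) p =
        ∫ t, lvE g t 1 * ∫ z, φ (jL t z) * mh (fun k z => v k (jL t z)) z := by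
  have h1 := (mp_jL.integrable_comp_emb me_jL).2 (int_mh (v := Fin.cons (fun p => g (p 0)) v)
    (fun k => Fin.cases (sm_p0 hg) hv k) hφ)
  have e : ∀ t, ∫ z, φ (jL t z) * mh (Fin.cons (fun p => g (p 0)) v) (jL t z) =
      lvE g t 1 * ∫ z, φ (jL t z) * mh (fun k z => v k (jL t z)) z := fun t => by
    rw [← integral_const_mul]
    exact integral_congr_ae (Eventually.of_forall fun z => by simp only [mh_cons hg hv]; ring)
  refine ⟨h1.integral_prod_left.congr (Eventually.of_forall e), ?_⟩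
  rw [← mp_jL.integral_comp me_jL]
  exact (integral_prod _ h1).trans (integral_congr_ae (Eventually.of_forall e))

/-! ### the general case -/

theorem cont_jL : Continuous fun p : ℂ × Cn n => jL p.1 p.2 := jLL.continuous

theorem cont_zc : Continuous (zc (n := n)) := zcL.continuous

theorem isOpen_pr {D : Set ℂ} (hD : IsOpen D) {Om : Set (Cn n)} (hOm : IsOpen Om) :
    IsOpen {p : Cn (n + 1) | p 0 ∈ D ∧ zc p ∈ Om} :=
  (hD.preimage (p0 n).continuous).inter (hOm.preimage cont_zc)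

theorem tuo_slice {D : Set ℂ} (hD : IsOpen D) {K : Set (Cn n)} (hK : IsCompact K)
    {f : Cn (n + 1) → ℝ} (hf : ContinuousOn f {p | p 0 ∈ D ∧ zc p ∈ K}) {t : ℂ} (ht : t ∈ D) :
    TendstoUniformlyOn (fun s z => f (jL s z)) (fun z => f (jL t z)) (𝓝 t) K := fun w hw => by
  obtain ⟨V, hV, h⟩ := hK.mem_uniformity_of_prod (f := fun s z => f (jL s z)) (s := D)
    (hf.comp cont_jL.continuousOn fun p hp => hp) ht (symm_le_uniformity hw)
  rw [hD.nhdsWithin_eq ht] at hV
  exact eventually_of_mem hV h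

section

variable {D : Set ℂ} (hD : IsOpen D) {Om : Set (Cn n)} (hOm : IsOpen Om)
  {u : Fin n → Cn (n + 1) → ℝ} (hu : ∀ k, CP {p | p 0 ∈ D ∧ zc p ∈ Om} (u k))
  {φ : Cn (n + 1) → ℝ} (hφ : Tst {p | p 0 ∈ D ∧ zc p ∈ Om} φ)
include hD hOm hu hφ

omit hφ in
theorem cp_sl {t : ℂ} (ht : t ∈ D) (k : Fin n) : CP Om fun z => u k (jL t z) :=
  (hu k).comp (isOpen_pr hD hOm) hOm ((sm_jL t).differentiable (by simp)).differentiableOn
    fun _ hz => ⟨ht, hz⟩

omit hD hOm hu hφ in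
theorem zero_sl {t : ℂ} {z : Cn n} (h : t ∉ p0 n '' tsupport φ ∨ z ∉ zc '' tsupport φ) :
    φ (jL t z) = 0 :=
  image_eq_zero_of_notMem_tsupport fun h1 => h.elim (fun h2 => h2 ⟨_, h1, rfl⟩)
    fun h2 => h2 ⟨_, h1, rfl⟩

/-- the fibre integral is a test function -/
theorem tst_fib : Tst D fun t => ∫ z, φ (jL t z) ∂ma Om fun k z => u k (jL t z) := by
  have hK1 : IsCompact (p0 n '' tsupport φ) := hφ.cpt.image (p0 n).continuous
  have hK2 : IsCompact (zc '' tsupport φ) := hφ.cpt.image cont_zc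
  have s1 : p0 n '' tsupport φ ⊆ D := by rintro _ ⟨p, hp, rfl⟩; exact (hφ.sub hp).1
  have s2 : zc '' tsupport φ ⊆ Om := by rintro _ ⟨p, hp, rfl⟩; exact (hφ.sub hp).2
  have h0 : ∀ t, t ∉ p0 n '' tsupport φ →
      ∫ z, φ (jL t z) ∂(ma Om fun k z => u k (jL t z)) = 0 := fun t ht => by
    simp [zero_sl (Or.inl ht)]
  have hc : ∀ t, Continuous fun z => φ (jL t z) := fun t => hφ.cont.comp (sm_jL t).continuous
  refine Tst.of_cpt (continuous_iff_continuousAt.2 fun t => ?_) hK1 s1 h0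
  by_cases ht : t ∈ D
  · refine ma_tendsto' hOm (cp_sl hD hOm hu ht)
      (Tst.of_cpt (hc t) hK2 s2 fun z hz => zero_sl (Or.inr hz))
      (eventually_of_mem (hD.mem_nhds ht) fun s hs => cp_sl hD hOm hu hs)
      (fun k => (tendstoLocallyUniformlyOn_iff_forall_isCompact hOm).2 fun K hKO hK =>
        tuo_slice hD hK ((hu k).1.mono fun p hp => ⟨hp.1, hKO hp.2⟩) ht) hK2 s2
      (Eventually.of_forall fun s => ⟨hc s, fun z hz => zero_sl (Or.inr hz)⟩)
      (fun z hz => zero_sl (Or.inr hz)) (tuo_slice hD hK2 hφ.cont.continuousOn ht)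
  · exact continuousAt_const.congr (f := fun _ => (0 : ℝ)) (eventually_of_mem
      (hK1.isClosed.isOpen_compl.mem_nhds fun h => ht (s1 h)) fun s hs => (h0 s hs).symm)

theorem fubini0 {g : ℂ → ℝ} (hg : ContDiff ℝ ∞ g) (h0 : ∀ t ∈ D, 0 ≤ lvE g t 1) :
    ∫ p, φ p ∂ma {p | p 0 ∈ D ∧ zc p ∈ Om} (Fin.cons (fun p => g (p 0)) u) =
      ∫ t, lvE g t 1 * ∫ z, φ (jL t z) ∂ma Om fun k z => u k (jL t z) := by
  have hO := isOpen_pr hD hOm
  have hK1 : IsCompact (p0 n '' tsupport φ) := hφ.cpt.image (p0 n).continuous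
  have hK2 : IsCompact (zc '' tsupport φ) := hφ.cpt.image cont_zc
  have s1 : p0 n '' tsupport φ ⊆ D := by rintro _ ⟨p, hp, rfl⟩; exact (hφ.sub hp).1
  have s2 : zc '' tsupport φ ⊆ Om := by rintro _ ⟨p, hp, rfl⟩; exact (hφ.sub hp).2
  obtain ⟨V, hV, a1, a2, a3⟩ := exists_rc hK2 hOm s2
  have hL : IsCompact ((fun p : ℂ × Cn n => jL p.1 p.2) '' ((p0 n '' tsupport φ) ×ˢ closure V)) :=
    (hK1.prod a3).image cont_jL
  have hLO : (fun p : ℂ × Cn n => jL p.1 p.2) '' ((p0 n '' tsupport φ) ×ˢ closure V) ⊆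
      {p | p 0 ∈ D ∧ zc p ∈ Om} := by rintro _ ⟨p, hp, rfl⟩; exact ⟨s1 hp.1, a2 hp.2⟩
  obtain ⟨U, S, hU, b1, b2, -, -, hM, hS⟩ := exists_ap hO hL hLO
  have hm : ∀ t ∈ p0 n '' tsupport φ, ∀ z ∈ V, jL t z ∈ U := fun t ht z hz =>
    b1 ⟨(t, z), ⟨ht, subset_closure hz⟩, rfl⟩
  have hg0 : Sp {p : Cn (n + 1) | p 0 ∈ D ∧ zc p ∈ Om} fun p => g (p 0) :=
    ⟨sm_p0 hg, fun p hp => (psd_iff (sm_p0 hg).contDiffAt).2 fun v => by
      have h1 := lvE_comp (T := (EuclideanSpace.proj 0 : Cn (n + 1) →L[ℂ] ℂ)) (u := g) (z := p)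
        (ContinuousLinearMap.contDiff _).contDiffAt (hg.contDiffAt.of_le two_le_inf) v
      rw [lvE_one g] at h1
      exact h1.symm ▸ mul_nonneg (sq_nonneg _) (h0 _ hp.1)⟩
  have hsm : ∀ j k, ContDiff ℝ ∞ (S j (u k)) := fun j k => hM.sm j _ (hu k).1
  have h1 := ma_lim hO (u := Fin.cons (fun p => g (p 0)) u) (fun k => Fin.cases (hg0.cp hO) hu k) hU b2
    ⟨hφ.cont, hφ.cpt, fun p hp => jL_zc p ▸ hm _ ⟨p, hp, rfl⟩ _ (a1 ⟨p, hp, rfl⟩)⟩
    (v := fun j => Fin.cons (fun p => g (p 0)) fun k => S j (u k))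
    fun k => Fin.cases (Ap.const (hg0.mono b2)) (fun k => hS _ (hu k)) k
  simp only [fun j => (fub_smooth hg (hsm j) hφ).2] at h1
  refine tendsto_nhds_unique h1 ?_
  have hsp : ∀ j k, Sp U (S j (u k)) → ∀ t ∈ p0 n '' tsupport φ, Sp V fun z => S j (u k) (jL t z) :=
    fun j k h t ht => ⟨sm_sl h.1 t, fun z hz =>
      psd_comp (sm_jL t).contDiffAt h.1.contDiffAt (h.2 _ (hm t ht z hz))⟩
  obtain ⟨R, hR, hb⟩ := exists_bd hL (u := Fin.cons (fun _ => 0) u) fun k =>
    Fin.cases continuousOn_const (fun k => (hu k).1.mono hLO) k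
  obtain ⟨C, hC, hcl⟩ := cln hV hK2 a1 (R := R + 1) (by linarith)
  obtain ⟨B, hB, hφB⟩ := hφ.bdd
  have hc : ∀ t, Continuous fun z => φ (jL t z) := fun t => hφ.cont.comp (sm_jL t).continuous
  have hgc : Continuous fun t => lvE g t 1 := continuous_iff_continuousAt.2 fun t =>
    R281.Rich_710.continuousAt_lvE (hg.contDiffAt.of_le two_le_inf) 1
  refine tendsto_integral_filter_of_dominated_convergence
    ((p0 n '' tsupport φ).indicator fun t => ‖lvE g t 1‖ * (B * C))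
    (Eventually.of_forall fun j => (fub_smooth hg (hsm j) hφ).1.aestronglyMeasurable) ?_
    ((integrable_indicator_iff hK1.measurableSet).2
      ((hgc.norm.mul continuous_const).continuousOn.integrableOn_compact hK1))
    (Eventually.of_forall fun t => ?_)
  · filter_upwards [eventually_all.2 fun k => (hS _ (hu k)).sp,
      eventually_all.2 fun k => (hS _ (hu k)).near one_pos] with j h2 h3
    refine Eventually.of_forall fun t => ?_
    by_cases ht : t ∈ p0 n '' tsupport φ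
    · rw [indicator_of_mem ht, norm_mul]
      refine mul_le_mul_of_nonneg_left (hcl _ (fun k => ⟨hsp j k (h2 k) t ht, fun z hz => ?_⟩) _ B hB
        (fun z _ => hφB _) fun z hz => zero_sl (Or.inr hz)) (norm_nonneg _)
      have h4 := abs_le.1 (h3 k _ (hm t ht z hz))
      have h5 : _ ∧ u k (jL t z) ≤ R := abs_le.1 (hb k.succ _ ⟨(t, z), ⟨ht, subset_closure hz⟩, rfl⟩)
      rw [abs_le]
      constructor <;> linarith [h4.1, h4.2, h5.1, h5.2]
    · simp [indicator_of_notMem ht, zero_sl (Or.inl ht)]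
  · by_cases ht : t ∈ p0 n '' tsupport φ
    · exact (ma_lim hOm (cp_sl hD hOm hu (s1 ht)) hV (subset_closure.trans a2)
        (Tst.of_cpt (hc t) hK2 a1 fun z hz => zero_sl (Or.inr hz))
        (v := fun j k z => S j (u k) (jL t z)) fun k => Ap.of_near
          ((hS _ (hu k)).sp.mono fun j hj => hsp j k hj t ht) fun δ hδ =>
            ((hS _ (hu k)).near hδ).mono fun j hj z hz => hj _ (hm t ht z hz)).const_mul _
    · simp [zero_sl (Or.inl ht)]

end

/-- **Fubini** -/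
theorem fubini {D : Set ℂ} (hD : IsOpen D) {Om : Set (Cn n)} (hOm : IsOpen Om)
    {u : Fin n → Cn (n + 1) → ℝ} (hu : ∀ k, CP {p | p 0 ∈ D ∧ zc p ∈ Om} (u k))
    {g : ℂ → ℝ} (hg : ContDiff ℝ ∞ g) (h0 : ∀ t ∈ D, 0 ≤ lvE g t 1)
    {φ : Cn (n + 1) → ℝ} (hφ : Tst {p | p 0 ∈ D ∧ zc p ∈ Om} φ) :
    ContinuousOn (fun t => ∫ z, φ (jL t z) ∂ma Om fun k z => u k (jL t z)) D ∧
    ∫ p, φ p ∂ma {p | p 0 ∈ D ∧ zc p ∈ Om} (Fin.cons (fun p => g (p 0)) u) =
      ∫ t in D, lvE g t 1 * ∫ z, φ (jL t z) ∂(ma Om fun k z => u k (jL t z)) ∧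
    IntegrableOn (fun t => lvE g t 1 * ∫ z, φ (jL t z) ∂ma Om fun k z => u k (jL t z)) D := by
  have h1 := tst_fib hD hOm hu hφ
  have hgc : Continuous fun t => lvE g t 1 := continuous_iff_continuousAt.2 fun t =>
    R281.Rich_710.continuousAt_lvE (hg.contDiffAt.of_le two_le_inf) 1
  refine ⟨h1.cont.continuousOn, ?_, ((hgc.mul h1.cont).integrable_of_hasCompactSupport
    h1.cpt.mul_left).integrableOn⟩
  rw [fubini0 hD hOm hu hφ hg h0, setIntegral_eq_integral_of_forall_compl_eq_zero fun t ht => by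
    rw [h1.zero_off ht, mul_zero]]

end

end Crest.Agent.X261.BT.DiscF
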