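import Crest.Agent.X261.BT.Part

/-!
# X261, BT (helper19), DISC (ii), part 1: the `ε`-Perron family from an envelope on `ℂ × M`

* `JQ H e O Φ` : jointly continuous, `ω + e i∂∂̄|t|²`-psh on `O × M`;
* `Core H D`   : what the envelope on the product gives;
* `exists_perron` : the `ε`-Perron family.
-/

set_option autoImplicit false
set_option linter.unusedSectionVars false

open Set Filter Topology Metric Complex
open scoped ComplexConjugate

namespace Crest.Agent.X261.BT.DiscX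

open Crest.Agent.R275.Geo
open Crest.Agent.R281.Kp_487 (KP pot)
open Crest.Agent.R281.Rich_710 (PshL)
open Crest.Agent.R257.HoB_843 (lvE)

noncomputable section

variable {n : ℕ} {M : Type} [TopologicalSpace M] {A : Atl n M} {H : KP A} {e : ℝ} {O : Set ℂ}
  {Φ Ψ : ℂ → M → ℝ}

/-- jointly continuous and `ω + e i∂∂̄|t|²`-psh on `O × M` -/
structure JQ (H : KP A) (e : ℝ) (O : Set ℂ) (Φ : ℂ → M → ℝ) : Prop where
  op : IsOpen O
  cont : ContinuousOn (fun p : ℂ × M => Φ p.1 p.2) (O ×ˢ univ)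
  psh : ∀ i, PshL (O ×ˢ (A.e i).target) fun p : ℂ × Cn n => pot H (Φ p.1) i p.2 + e * ‖p.1‖ ^ 2

theorem cont_pot (h : ContinuousOn (fun p : ℂ × M => Φ p.1 p.2) (O ×ˢ univ)) (H : KP A) (e : ℝ)
    (i : A.ι) : ContinuousOn (fun p : ℂ × Cn n => pot H (Φ p.1) i p.2 + e * ‖p.1‖ ^ 2)
      (O ×ˢ (A.e i).target) := by
  have h1 : ContinuousOn (fun p : ℂ × Cn n => H.wt i p.2) (O ×ˢ (A.e i).target) :=
    (R281.Kp_487.wt_smooth H i).continuousOn.comp continuousOn_snd fun p hp => hp.2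
  have h2 : ContinuousOn (fun p : ℂ × Cn n => (p.1, (A.e i).symm p.2)) (O ×ˢ (A.e i).target) :=
    continuousOn_fst.prodMk ((A.e i).continuousOn_symm.comp continuousOn_snd fun p hp => hp.2)
  exact (h1.add (h.comp h2 fun p hp => ⟨hp.1, mem_univ _⟩)).add (by fun_prop)

namespace JQ

theorem opn (h : JQ H e O Φ) (i : A.ι) : IsOpen (O ×ˢ (A.e i).target) :=
  h.op.prod (A.e i).open_target

theorem mono (h : JQ H e O Φ) {O' : Set ℂ} (hO : IsOpen O') (hs : O' ⊆ O) : JQ H e O' Φ :=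
  ⟨hO, h.cont.mono (prod_mono hs Subset.rfl), fun i => (h.psh i).mono (prod_mono hs Subset.rfl)⟩

theorem slice (h : JQ H e O Φ) {t : ℂ} (ht : t ∈ O) : QP H univ (Φ t) := by
  have hc : Continuous (Φ t) := continuousOn_univ.1
    (h.cont.comp (f := fun x => (t, x)) (by fun_prop) fun x _ => ⟨ht, mem_univ _⟩)
  refine ⟨isOpen_univ, hc.continuousOn, fun i => ?_⟩
  have ho := isOpen_chU (A := A) isOpen_univ i
  have h1 := PL.comp (T := fun z : Cn n => (t, z)) ho (h.opn i) (cont_pot h.cont H e i) (h.psh i)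
    fun z hz => ⟨by fun_prop, ht, hz.1⟩
  have h2 : ContinuousOn (fun z => pot H (Φ t) i z + e * ‖t‖ ^ 2) (chU A univ i) :=
    (contOn_pot (H := H) (U := univ) hc.continuousOn i).add continuousOn_const
  exact PL.congr ho (PL.add ho h2 continuousOn_const h1
    (PL.const (-(e * ‖t‖ ^ 2)))) fun z _ => by ring

theorem max (h : JQ H e O Φ) (h' : JQ H e O Ψ) : JQ H e O fun t x => max (Φ t x) (Ψ t x) :=
  ⟨h.op, h.cont.sup h'.cont, fun i => PL.congr (h.opn i)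
    (PL.max (h.opn i) (cont_pot h.cont H e i) (cont_pot h'.cont H e i) (h.psh i) (h'.psh i))
      fun p _ => by simp only [pot_apply, max_add_add_left, max_add_add_right]⟩

theorem shift (h : JQ H e O Φ) : JQ H 0 O fun t x => Φ t x + e * (‖t‖ ^ 2 - 1) :=
  ⟨h.op, h.cont.add (by fun_prop), fun i => PL.congr (h.opn i)
    (PL.add (h.opn i) (cont_pot h.cont H e i) continuousOn_const (h.psh i) (PL.const (-e)))
      fun p _ => by simp only [pot_apply]; ring⟩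

theorem jp (h : JQ H 0 O Φ) {K : Set M} (hK : IsCompact K) (h0 : ∀ t ∈ O, ∀ x ∉ K, Φ t x = 0) :
    JP H O Φ :=
  ⟨h.op, h.cont, fun i => PL.congr (h.opn i) (h.psh i) fun p _ => by ring, K, hK, h0⟩

theorem of_jp (h : JP H O Φ) : JQ H 0 O Φ :=
  ⟨h.op, h.cont, fun i => PL.congr (h.op.prod (A.e i).open_target) (h.psh i) fun p _ => by ring⟩

theorem of_qp {f : M → ℝ} (h : QP H univ f) (c : ℝ) (β : ℂ) :
    JQ H 0 univ fun t x => f x + (c + (t * β).re) := by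
  have hc := h.continuous
  refine ⟨isOpen_univ, Continuous.continuousOn (by fun_prop), fun i => ?_⟩
  have ho : IsOpen ((univ : Set ℂ) ×ˢ (A.e i).target) := isOpen_univ.prod (A.e i).open_target
  have h1 := PL.comp (T := fun p : ℂ × Cn n => p.2) ho (isOpen_chU isOpen_univ i) (h.cp i).1
    (h.psh i) fun p hp => ⟨by fun_prop, hp.2, mem_univ _⟩
  let L : ℂ × Cn n →L[ℝ] ℝ :=
    reCLM.comp (((ContinuousLinearMap.mul ℝ ℂ).flip β).comp (ContinuousLinearMap.fst ℝ ℂ (Cn n)))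
  have h2 : PshL ((univ : Set ℂ) ×ˢ (A.e i).target) fun p => c + L p :=
    PL.of_lvE ho fun p _ => ⟨by fun_prop, fun v => by
      have e1 : fderiv ℝ (fun p => c + L p) = fun _ => L :=
        funext fun p => (L.hasFDerivAt.const_add c).fderiv
      simp [lvE, e1]⟩
  refine PL.congr ho (PL.add ho ((h.cp i).1.comp continuousOn_snd fun p hp => ⟨hp.2, mem_univ _⟩)
    (by fun_prop) h1 h2) fun p _ => ?_
  simp only [pot_apply, zero_mul, add_zero]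
  exact (add_assoc _ _ _).symm

theorem of_qp' {f : M → ℝ} (h : QP H univ f) : JQ H 0 univ fun _ x => f x := by
  simpa using of_qp h 0 0

theorem exists_max {κ : Type*} (s : Finset κ) {F : κ → ℂ → M → ℝ} (hF : ∀ k ∈ s, JQ H e O (F k))
    (h : JQ H e O Φ) : ∃ Ψ, JQ H e O Ψ ∧ (∀ t x, Φ t x ≤ Ψ t x) ∧ (∀ k ∈ s, ∀ t x, F k t x ≤ Ψ t x) ∧
      ∀ t x c, Φ t x ≤ c → (∀ k ∈ s, F k t x ≤ c) → Ψ t x ≤ c := by
  classical
  induction s using Finset.induction_on with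
  | empty => exact ⟨Φ, h, fun _ _ => le_rfl, by simp, fun _ _ _ h _ => h⟩
  | insert a s _ ih =>
    obtain ⟨Ψ, h1, h2, h3, h4⟩ := ih fun k hk => hF k (Finset.mem_insert_of_mem hk)
    refine ⟨_, h1.max (hF a (Finset.mem_insert_self _ _)), fun t x => (h2 t x).trans (le_max_left _ _),
      fun k hk t x => ?_, fun t x c h5 h6 => max_le (h4 t x c h5 fun k hk =>
        h6 k (Finset.mem_insert_of_mem hk)) (h6 a (Finset.mem_insert_self _ _))⟩
    rcases Finset.mem_insert.1 hk with rfl | hk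
    · exact le_max_right _ _
    · exact (h3 k hk t x).trans (le_max_left _ _)

end JQ

/-- the envelope on the product: `D` is subharmonic along it where the obstacle vanishes -/
def Core (H : KP A) (D : (M → ℝ) → ℝ) : Prop :=
  ∀ e > (0 : ℝ), ∀ θ : ℝ, 0 ≤ θ → θ < 1 → ∀ φ v : ℂ → M → ℝ, JQ (sc θ H) 0 univ φ →
    Continuous (fun p : ℂ × M => v p.1 p.2) → (∀ t x, φ t x ≤ v t x) → ∀ K : Set M, IsCompact K →
    (∀ t x, 1 < ‖t‖ ∨ x ∉ K → v t x = φ t x) → ∀ r : ℝ, r < 1 → (∀ t x, ‖t‖ < r → v t x = 0) →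
    ∃ U, JQ H e (ball 0 2) U ∧ (∀ t ∈ ball (0 : ℂ) 2, ∀ x, φ t x ≤ U t x ∧ U t x ≤ v t x) ∧
      ∀ s : ℝ, 0 < s → s < r → ∀ g : ℂ → ℝ, Continuous g →
        (∀ w : ℂ, ‖w‖ = 1 → D (U (s * w)) ≤ g w) → D (U 0) ≤ Real.circleAverage g 0 1

theorem convex_Q [T2Space M] (H : KP A) : Convex ℝ {f : M → ℝ | PP H f ∧ f ≤ 0} := by
  intro f hf g hg s t hs ht h
  obtain rfl : s = 1 - t := by linarith
  refine ⟨⟨hf.1.qp.convex hg.1.qp ht (by linarith), (hf.1.cpt.smul_left).add hg.1.cpt.smul_left⟩,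
    fun x => ?_⟩
  exact add_nonpos (mul_nonpos_of_nonneg_of_nonpos hs (hf.2 x))
    (mul_nonpos_of_nonneg_of_nonpos ht (hg.2 x))

theorem re_mul_conj {w a : ℂ} (hw : ‖w‖ = 1) (ha : ‖a‖ = 1) :
    (w * conj a).re = 1 - ‖w - a‖ ^ 2 / 2 := by
  have h1 := normSq_sub w a
  rw [normSq_eq_norm_sq, normSq_eq_norm_sq, normSq_eq_norm_sq, hw, ha] at h1
  linarith

theorem re_mul_conj_le {w a : ℂ} (hw : ‖w‖ ≤ 1) (ha : ‖a‖ = 1) : (w * conj a).re ≤ 1 :=
  (re_le_norm _).trans (by rwa [norm_mul, norm_conj, ha, mul_one])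

theorem exists_lb {f : M → ℝ} (h : PP H f) : ∃ T, 0 ≤ T ∧ ∀ x, -T ≤ f x := by
  obtain ⟨C, hC⟩ := h.qp.continuous.bounded_above_of_compact_support h.cpt
  exact ⟨|C|, abs_nonneg _, fun x => by linarith [(abs_le.1 (hC x)).1, le_abs_self C]⟩

theorem exists_near_one {c η : ℝ} (hc : 0 ≤ c) (hη : 0 < η) :
    ∃ θ : ℝ, 1 / 2 ≤ θ ∧ θ < 1 ∧ (1 - θ) * c ≤ η := by
  refine ⟨1 - min (1 / 2) (η / (c + 1)), by linarith [min_le_left (1 / 2) (η / (c + 1))],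
    sub_lt_self _ (by positivity), ?_⟩
  have h1 := mul_le_mul_of_nonneg_right (min_le_right (1 / 2) (η / (c + 1))) hc
  have h2 : η / (c + 1) * c ≤ η := by
    rw [div_mul_eq_mul_div, div_le_iff₀ (by positivity)]
    nlinarith
  linarith

/-- the lower barrier -/
theorem exists_barrier [T2Space M] {b : ℂ → M → ℝ} (hb : ∀ w, PP H (b w) ∧ b w ≤ 0) {T : ℝ}
    (hT0 : 0 ≤ T) (hT : ∀ w x, -T ≤ b w x)
    (hu : ∀ η > 0, ∃ δ > 0, ∀ w w' : ℂ, ‖w‖ = 1 → ‖w'‖ = 1 → ‖w - w'‖ < δ → ∀ x, b w x ≤ b w' x + η)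
    {γ : M → ℝ} {θ η : ℝ} (hθ : 0 ≤ θ) (hθ1 : θ ≤ 1) (hη : 0 < η) (hθη : (1 - θ) * T ≤ η)
    (hγ : QP (sc θ H) univ γ) (hγb : ∀ w x, γ x ≤ b w x) :
    ∃ (φ : ℂ → M → ℝ) (s : ℝ), JQ (sc θ H) 0 univ φ ∧ 0 < s ∧ s < 1 ∧ (∀ t x, γ x ≤ φ t x) ∧
      (∀ t x, ‖t‖ ≤ 1 → φ t x ≤ 0) ∧ (∀ w x, ‖w‖ = 1 → φ w x ≤ b w x) ∧
      ∀ w x, ‖w‖ = 1 → b w x ≤ φ (s * w) x + 5 * η := by
  obtain ⟨δ, hδ, h1⟩ := hu η hη
  obtain ⟨a, ha, haT⟩ : ∃ a : ℝ, 0 ≤ a ∧ a * δ ^ 2 = 2 * T := ⟨2 * T / δ ^ 2, by positivity, by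
    field_simp⟩
  obtain ⟨s, hs, hs1, hsa⟩ := exists_near_one ha hη
  have hδ' : 0 < min δ (1 - s) := lt_min hδ (by linarith)
  obtain ⟨N, hN, hNf, hc⟩ := (isCompact_sphere (0 : ℂ) 1).finite_cover_balls hδ'
  have hN1 : ∀ k ∈ hNf.toFinset, ‖k‖ = 1 := fun k hk => by simpa using hN (hNf.mem_toFinset.1 hk)
  have e : ∀ t k : ℂ, (t * (a * conj k)).re = a * (t * conj k).re := fun t k => by
    rw [mul_left_comm, re_ofReal_mul]
  obtain ⟨φ, h2, h3, h4, h5⟩ := JQ.exists_max hNf.toFinset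
    (fun k _ => JQ.of_qp ((hb k).1.qp.smul hθ) (-(2 * η) - a) (a * conj k)) (JQ.of_qp' hγ)
  refine ⟨φ, s, h2, by linarith, hs1, h3, fun t x ht => h5 t x _ ((hγb 0 x).trans ((hb 0).2 x))
    fun k hk => ?_, fun w x hw => h5 w x _ (hγb w x) fun k hk => ?_, fun w x hw => ?_⟩
  · have h6 := mul_le_mul_of_nonneg_left (re_mul_conj_le ht (hN1 k hk)) ha
    have h7 := mul_nonpos_of_nonneg_of_nonpos hθ ((hb k).2 x)
    rw [e]
    linarith
  · rw [e, re_mul_conj hw (hN1 k hk)]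
    have h6 : 0 ≤ a * ‖w - k‖ ^ 2 := by positivity
    by_cases h7 : ‖k - w‖ < δ
    · have h8 := h1 k w (hN1 k hk) hw h7 x
      have h9 := mul_le_mul_of_nonneg_left (hT k x) (sub_nonneg.2 hθ1)
      linarith
    · rw [not_lt, norm_sub_rev] at h7
      have h8 : a * δ ^ 2 ≤ a * ‖w - k‖ ^ 2 := by gcongr
      have h9 := mul_nonpos_of_nonneg_of_nonpos hθ ((hb k).2 x)
      linarith [hT w x]
  · obtain ⟨k, hk, hwk⟩ := mem_iUnion₂.1 (hc (mem_sphere_zero_iff_norm.2 hw))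
    have hk' := hNf.mem_toFinset.2 hk
    have h6 := h4 k hk' (s * w) x
    rw [e, mul_assoc (s : ℂ), re_ofReal_mul, re_mul_conj hw (hN1 k hk')] at h6
    rw [mem_ball, dist_eq_norm, lt_min_iff] at hwk
    have h7 := h1 w k hw (hN1 k hk') hwk.1 x
    have h8 := mul_nonpos_of_nonneg_of_nonpos (sub_nonneg.2 hθ1) ((hb k).2 x)
    have h9 : s * ‖w - k‖ ^ 2 ≤ 1 - s := by nlinarith [norm_nonneg (w - k), hwk.2]
    have h10 := mul_le_mul_of_nonneg_left h9 ha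
    nlinarith

/-- **DISC (ii)** from the envelope on the product -/
theorem exists_perron [T2Space M] (hH : H.Semipos) {D : (M → ℝ) → ℝ} (core : Core H D)
    (lip : ∀ K : Set M, IsCompact K → ∀ T : ℝ, ∃ C : ℝ, 0 ≤ C ∧ ∀ f, PP H f ∧ f ≤ 0 →
      ∀ g, PP H g ∧ g ≤ 0 → (∀ x ∉ K, f x = 0) → (∀ x ∉ K, g x = 0) → (∀ x, -T ≤ f x) →
      (∀ x, -T ≤ g x) → ∀ ε : ℝ, 0 ≤ ε → (∀ x, g x ≤ f x + ε) → D f ≤ D g + C * ε)
    (bfun : ∀ K : Set M, IsCompact K → ∀ T : ℝ, ∃ b, (PP H b ∧ b ≤ 0) ∧ ∀ x ∈ K, b x ≤ -T)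
    (ι : Type) [Fintype ι] (β : ι → M → ℝ) (ρ : ι → ℂ → ℝ) (hβ : ∀ i, PP H (β i) ∧ β i ≤ 0)
    (hρ : ∀ i, Continuous (ρ i)) (hρ0 : ∀ i w, 0 ≤ ρ i w) (hρ1 : ∀ w, ∑ i, ρ i w = 1)
    (ε : ℝ) (hε : 0 < ε) :
    ∃ V : ℂ → M → ℝ, JQ H 0 (ball 0 2) V ∧ (∃ K, IsCompact K ∧ ∀ w, ‖w‖ ≤ 1 → ∀ x ∉ K, V w x = 0) ∧
      (∀ w, ‖w‖ ≤ 1 → PP H (V w) ∧ V w ≤ 0) ∧ (∀ w : ℂ, ‖w‖ = 1 → V w ≤ ∑ i, ρ i w • β i) ∧
      D (V 0) ≤ Real.circleAverage (fun w => D (∑ i, ρ i w • β i)) 0 1 + ε := by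
  set b : ℂ → M → ℝ := fun w => ∑ i, ρ i w • β i with hbd
  have hb : ∀ w, PP H (b w) ∧ b w ≤ 0 := fun w =>
    (convex_Q H).sum_mem (fun i _ => hρ0 i w) (hρ1 w) fun i _ => hβ i
  have hba : ∀ w x, b w x = ∑ i, ρ i w * β i x := fun w x => by simp [hbd, Finset.sum_apply]
  choose Ti hTi0 hTi using fun i => exists_lb (hβ i).1
  set T := ∑ i, Ti i with hTd
  have hT0 : 0 ≤ T := Finset.sum_nonneg fun i _ => hTi0 i
  have hT1 : ∀ i x, -T ≤ β i x := fun i x => (neg_le_neg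
    (Finset.single_le_sum (fun i _ => hTi0 i) (Finset.mem_univ i))).trans (hTi i x)
  have hT : ∀ w x, -T ≤ b w x := fun w x => by
    rw [hba, ← one_mul (-T), ← hρ1 w, Finset.sum_mul]
    exact Finset.sum_le_sum fun i _ => mul_le_mul_of_nonneg_left (hT1 i x) (hρ0 i w)
  have hK : IsCompact (⋃ i, tsupport (β i)) := isCompact_iUnion fun i => (hβ i).1.cpt
  have hb0 : ∀ w, ∀ x ∉ ⋃ i, tsupport (β i), b w x = 0 := fun w x hx => by
    rw [hba]
    exact Finset.sum_eq_zero fun i _ => by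
      rw [image_eq_zero_of_notMem_tsupport fun h => hx (mem_iUnion.2 ⟨i, h⟩), mul_zero]
  set F : ℂ → ι → ℝ := fun w i => ρ i w with hF
  have hFc : Continuous F := continuous_pi hρ
  have hbF : ∀ w w' x, b w x ≤ b w' x + T * dist (F w) (F w') := fun w w' x => by
    rw [hba, hba, hTd, Finset.sum_mul, ← Finset.sum_add_distrib]
    refine Finset.sum_le_sum fun i _ => ?_
    have h1 := abs_le.1 (Real.dist_eq _ _ ▸ dist_le_pi_dist (F w) (F w') i)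
    have h2 := hTi i x
    have h3 : β i x ≤ 0 := (hβ i).2 x
    have h4 := dist_nonneg (x := F w) (y := F w')
    simp only [hF] at h1 h4 ⊢
    nlinarith [h1.1]
  obtain ⟨γ₁, hγ₁, hγK⟩ := bfun _ hK (2 * T)
  obtain ⟨T₁, hT₁0, hT₁⟩ := exists_lb hγ₁.1
  have hK' := hK.union hγ₁.1.cpt
  obtain ⟨C, hC, hl⟩ := lip _ hK' (T + T₁)
  have hbK : ∀ w, ∀ x ∉ (⋃ i, tsupport (β i)) ∪ tsupport γ₁, b w x = 0 := fun w x hx =>
    hb0 w x fun h => hx (Or.inl h)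
  have hbT : ∀ w x, -(T + T₁) ≤ b w x := fun w x => by linarith [hT w x]
  have hDc : Continuous fun w => D (b w) := by
    refine continuous_iff_continuousAt.2 fun w => tendsto_iff_dist_tendsto_zero.2 ?_
    have h1 : Tendsto (fun w' => C * (T * dist (F w') (F w))) (𝓝 w) (𝓝 0) :=
      (by fun_prop : Continuous fun w' => C * (T * dist (F w') (F w))).tendsto' w 0 (by simp)
    refine squeeze_zero (fun _ => dist_nonneg) (fun w' => ?_) h1
    have h2 := hl _ (hb w) _ (hb w') (hbK w) (hbK w') (hbT w) (hbT w') _ (by positivity) (hbF w' w)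
    have h3 := hl _ (hb w') _ (hb w) (hbK w') (hbK w) (hbT w') (hbT w) _ (by positivity) (hbF w w')
    rw [dist_comm (F w)] at h3
    rw [Real.dist_eq, abs_le]
    constructor <;> linarith
  obtain ⟨η, hη, hηε⟩ : ∃ η : ℝ, 0 < η ∧ C * (6 * η) ≤ ε := ⟨ε / (6 * (C + 1)), by positivity, by
    rw [show C * (6 * (ε / (6 * (C + 1)))) = C * ε / (C + 1) by field_simp,
      div_le_iff₀ (by positivity)]
    nlinarith⟩
  obtain ⟨θ, hθ, hθ1, hθη⟩ := exists_near_one hT0 hη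
  have hθ0 : 0 ≤ θ := by linarith
  have hγ := hγ₁.1.qp.smul hθ0
  have hγ0 : ∀ x, θ * γ₁ x ≤ 0 := fun x => mul_nonpos_of_nonneg_of_nonpos hθ0 (hγ₁.2 x)
  have hγT : ∀ x, -T₁ ≤ θ * γ₁ x := fun x => by
    have h1 : γ₁ x ≤ 0 := hγ₁.2 x
    nlinarith [hT₁ x]
  have hγb : ∀ w x, θ * γ₁ x ≤ b w x := fun w x => by
    by_cases hx : x ∈ ⋃ i, tsupport (β i)
    · nlinarith [hγK x hx, hT w x]
    · rw [hb0 w x hx]; exact hγ0 x
  have hγK' : ∀ x ∉ (⋃ i, tsupport (β i)) ∪ tsupport γ₁, θ * γ₁ x = 0 := fun x hx => by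
    rw [image_eq_zero_of_notMem_tsupport fun h => hx (Or.inr h), mul_zero]
  obtain ⟨φ, s, h1, hs, hs1, h2, h3, h4, h5⟩ := exists_barrier hb hT0 hT (fun η hη => by
    obtain ⟨δ, hδ, h⟩ := Metric.uniformContinuousOn_iff.1
      ((isCompact_sphere (0 : ℂ) 1).uniformContinuousOn_of_continuous hFc.continuousOn)
      (η / (T + 1)) (by positivity)
    refine ⟨δ, hδ, fun w w' hw hw' hd x => (hbF w w' x).trans ?_⟩
    have h6 := (h w (by simpa using hw) w' (by simpa using hw') (by rwa [dist_eq_norm])).le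
    rw [le_div_iff₀ (by positivity)] at h6
    linarith [dist_nonneg (x := F w) (y := F w')]) hθ0 hθ1.le hη hθη hγ hγb
  obtain ⟨L, hL, hLT⟩ : ∃ L : ℝ, 0 ≤ L ∧ L * (1 - (1 + s) / 2) = T₁ :=
    ⟨T₁ / (1 - (1 + s) / 2), div_nonneg hT₁0 (by linarith), div_mul_cancel₀ _ (by linarith)⟩
  have hφc : Continuous fun p : ℂ × M => φ p.1 p.2 := by
    have := h1.cont
    rwa [univ_prod_univ, continuousOn_univ] at this
  have hv0 : ∀ t x, ‖t‖ ≤ 1 → max (φ t x) (min 0 (φ t x + L * (1 - ‖t‖))) ≤ 0 := fun t x ht =>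
    max_le (h3 t x ht) (min_le_left _ _)
  obtain ⟨U, h6, h7, h8⟩ := core η hη θ hθ0 hθ1 φ
    (fun t x => max (φ t x) (min 0 (φ t x + L * (1 - ‖t‖)))) h1 (by fun_prop)
    (fun t x => le_max_left _ _) _ hK' (fun t x h => max_eq_left (by
      rcases le_or_gt ‖t‖ 1 with ht | ht
      · have h9 := h2 t x
        rw [hγK' x (h.resolve_left ht.not_gt)] at h9
        exact (min_le_left _ _).trans h9
      · exact (min_le_right _ _).trans (by nlinarith))) ((1 + s) / 2) (by linarith)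
    fun t x ht => le_antisymm (hv0 t x (by linarith)) (le_max_of_le_right (le_min le_rfl (by
      have h9 : L * (1 - (1 + s) / 2) ≤ L * (1 - ‖t‖) := by gcongr
      linarith [h2 t x, hγT x])))
  have hm : ∀ {t : ℂ}, ‖t‖ ≤ 1 → t ∈ ball (0 : ℂ) 2 := fun ht => mem_ball_zero_iff.2 (by linarith)
  have hU0 : ∀ t x, ‖t‖ ≤ 1 → U t x ≤ 0 := fun t x ht => (h7 t (hm ht) x).2.trans (hv0 t x ht)
  have hUγ : ∀ t x, ‖t‖ ≤ 1 → θ * γ₁ x ≤ U t x := fun t x ht => (h2 t x).trans (h7 t (hm ht) x).1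
  have key : ∀ f : M → ℝ, QP H univ f → (∀ x, f x ≤ 0) → (∀ x, θ * γ₁ x ≤ f x) →
      (PP H f ∧ f ≤ 0) ∧ (∀ x ∉ (⋃ i, tsupport (β i)) ∪ tsupport γ₁, f x = 0) ∧
        ∀ x, -(T + T₁) ≤ f x := fun f a1 a2 a3 => by
    have a4 : ∀ x ∉ (⋃ i, tsupport (β i)) ∪ tsupport γ₁, f x = 0 := fun x hx =>
      le_antisymm (a2 x) (hγK' x hx ▸ a3 x)
    exact ⟨⟨⟨a1, HasCompactSupport.intro hK' a4⟩, a2⟩, a4, fun x => by linarith [a3 x, hγT x]⟩
  have hV := h6.shift.max ((JQ.of_qp' (hγ.of_sc hH hθ1.le)).mono isOpen_ball (subset_univ _))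
  have kV := fun t (ht : ‖t‖ ≤ 1) => key _ (hV.slice (hm ht)) (fun x => max_le (by
    have h9 : ‖t‖ ^ 2 ≤ 1 := pow_le_one₀ (norm_nonneg _) ht
    nlinarith [hU0 t x ht]) (hγ0 x)) fun x => le_max_right _ _
  have kU := fun t (ht : ‖t‖ ≤ 1) => key _ (h6.slice (hm ht)) (fun x => hU0 t x ht)
    fun x => hUγ t x ht
  refine ⟨_, hV, ⟨_, hK', fun w hw => (kV w hw).2.1⟩, fun w hw => (kV w hw).1,
    fun w hw x => max_le ?_ (hγb w x), ?_⟩
  · have h9 := (h7 w (hm hw.le) x).2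
    rw [hw] at h9 ⊢
    simp only [sub_self, mul_zero, add_zero, one_pow] at h9 ⊢
    exact h9.trans (max_le (h4 w x hw) ((min_le_right _ _).trans (h4 w x hw)))
  · have a0 := kV 0 (by simp)
    have a1 := kU 0 (by simp)
    have h9 := hl _ a0.1 _ a1.1 a0.2.1 a1.2.1 a0.2.2 a1.2.2 η hη.le fun x => by
      have := le_max_left (U 0 x + η * (‖(0 : ℂ)‖ ^ 2 - 1)) (θ * γ₁ x)
      simp only [norm_zero] at this ⊢
      linarith
    have h10 := h8 s hs (by linarith) (fun w => D (b w) + C * (5 * η)) (hDc.add continuous_const)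
      fun w hw => by
        have a2 : ‖(s : ℂ) * w‖ ≤ 1 := by
          rw [norm_mul, hw, mul_one, norm_real, Real.norm_of_nonneg hs.le]; exact hs1.le
        have a3 := kU _ a2
        exact hl _ a3.1 _ (hb w) a3.2.1 (hbK w) a3.2.2 (hbT w) _ (by positivity) fun x => by
          linarith [h5 w x hw, (h7 _ (hm a2) x).1]
    rw [Real.circleAverage_fun_add (hDc.continuousOn.circleIntegrable')
      (circleIntegrable_const _ _ _), Real.circleAverage_const] at h10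
    linarith

end

end Crest.Agent.X261.BT.DiscX
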