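import Crest.Agent.X261.BT.DiscD

/-!
# X261 / BT (helper21): degenerate forms; the unconditional `DS`
-/

set_option autoImplicit false
set_option linter.unusedSectionVars false

open Set Filter Topology MeasureTheory Metric Function
open scoped ContDiff ComplexOrder

namespace Crest.Agent.X261.BT

open Crest.Agent.R275.Geo
open Crest.Agent.R273.Hess_333 Crest.Agent.R273.HessB_333
open Crest.Agent.R281.Kp_487 (KP pot wt_contDiffAt)
open Crest.Agent.R281.Rich_710 (PshL dav qf_hess cj_jc)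
open Crest.Agent.R257.HoB_843 (lvE)

noncomputable section

variable {n : ℕ}

theorem mh_zero_of {u : Cn n → ℝ} {z v : Cn n} (hu : ContDiffAt ℝ ∞ u z)
    (h : ∀ w, 0 ≤ lvE u z w) (hv : v ≠ 0) (h0 : lvE u z v = 0) : mh (fun _ => u) z = 0 := by
  have h1 := (psd_iff hu).2 h
  have h2 : (hess u z).det = 0 := by
    refine Matrix.exists_mulVec_eq_zero_iff.1 ⟨R281.Rich_710.jc v, fun h3 => hv ?_,
      (h1.dotProduct_mulVec_zero_iff _).1 ?_⟩
    · rw [← cj_jc v, h3]; ext a; simp [R281.Rich_710.cj]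
    · rw [R273.SerD_945.qf_eq h1.1, qf_hess hu, cj_jc, h0, Complex.ofReal_zero]
  rw [mh_same, h2, Complex.zero_re, mul_zero]

variable {M : Type} [TopologicalSpace M] {A : Atl n M} [MeasurableSpace M] [BorelSpace M]
  [Countable A.ι] [T2Space M] {H : KP A} {V W : ℂ → M → ℝ}

/-- a degenerate form has no volume -/
theorem MAo_zero_of (hH : H.Semipos) {U : Set M} (hU : IsOpen U)
    (h : ∀ i, ∀ z ∈ (A.e i).target, ∃ v ≠ 0, lvE (H.wt i) z v = 0) : MAo H U (fun _ => 0) = 0 := by
  have q := QP.const hH hU 0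
  refine ext_of_charts (A := A) fun i E hE hs => ?_
  have e : pot H (fun _ => 0) i = H.wt i := funext fun z => by rw [pot_apply, add_zero]
  rw [MAo, MX_apply hU (fun _ => q) i hE hs, Rad.ext (isOpen_chU hU i) (ma_rad _ _) (Rad.zero _)
    fun φ hφ => ?_]
  · rfl
  rw [ma_smooth (isOpen_chU hU i) (fun _ => q.cp i)
    (fun _ z hz => by rw [e]; exact wt_contDiffAt H i hz.1) hφ, integral_zero_measure,
    int_congr_supp (g := fun _ => 0) fun z hz => ?_]
  · simp
  obtain ⟨v, h1, h2⟩ := h i z (hφ.sub hz).1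
  rw [e]
  exact mh_zero_of (wt_contDiffAt H i (hφ.sub hz).1) (semi_lvE hH i (hφ.sub hz).1) h1 h2

/-- the energy calculus with discs -/
def dsM (hH : H.Pos) (hS : Slow H) : Two.DS M := dsOf hH hS (dsc hH)

end

end Crest.Agent.X261.BT
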