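import Crest.Agent.X261.BT.Part
import Crest.Agent.X261.BT.MxP
import Crest.Agent.X261.Psh.Loc

/-!
# X261 / BT (helper31): suprema over small balls

* `Env.sb`  : the supremum over a closed ball; `Env.cp_sb`, `Env.three` (three circles);
* `Env.sI`  : the same operation in a chart; `Env.qp_sI`, `Env.ev_cmp`, `Env.ev_up`, `Env.ev_low`;
* `Env.glue_fin` : gluing finitely many local quasi-psh functions by a maximum.
-/

set_option autoImplicit false
set_option linter.unusedSectionVars false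

open Set Filter Topology Metric
open scoped ContDiff NNReal

namespace Crest.Agent.X261.BT.Env

open Crest.Agent.R275.Geo
open Crest.Agent.R281.Rich_710 (PshL dav unif_near)
open Crest.Agent.R281.Kp_487 (KP pot wt_contDiffAt uj_contDiffAt)
open Crest.Agent.R273.YauCh_635 (Tm anal_Tm)

noncomputable section

variable {n : ℕ}

/-- the supremum of `u` over the closed ball of radius `δ` -/
def sb (δ : ℝ) (u : Cn n → ℝ) (z : Cn n) : ℝ := sSup (u '' closedBall z δ)

section loc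

variable {O : Set (Cn n)} {u : Cn n → ℝ} {δ : ℝ} {z : Cn n}

theorem le_sb (hu : ContinuousOn u O) (hz : closedBall z δ ⊆ O) {y : Cn n}
    (hy : y ∈ closedBall z δ) : u y ≤ sb δ u z :=
  le_csSup ((isCompact_closedBall z δ).bddAbove_image (hu.mono hz)) ⟨y, hy, rfl⟩

theorem sb_le (hδ : 0 ≤ δ) {c : ℝ} (h : ∀ y ∈ closedBall z δ, u y ≤ c) : sb δ u z ≤ c :=
  csSup_le ⟨_, z, mem_closedBall_self hδ, rfl⟩ (by rintro _ ⟨y, hy, rfl⟩; exact h y hy)

theorem mem_add {h : Cn n} (hh : h ∈ closedBall (0 : Cn n) δ) : z + h ∈ closedBall z δ := by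
  simpa [mem_closedBall, dist_eq_norm] using hh

theorem cp_sb (hO : IsOpen O) (hu : CP O u) (hδ : 0 ≤ δ) {V : Set (Cn n)} (hV : IsOpen V)
    (h : ∀ z ∈ V, closedBall z δ ⊆ O) : CP V (sb δ u) := by
  have hc : ContinuousOn (sb δ u) V := by
    rw [continuousOn_iff_continuous_domRestrict]
    have h1 : Continuous fun p : V × closedBall (0 : Cn n) δ => u (p.1 + p.2) :=
      hu.1.comp_continuous (by fun_prop) fun p => h _ p.1.2 (mem_add p.2.2)
    have h2 := IsCompact.continuous_sSup (f := fun (x : V) (y : closedBall (0 : Cn n) δ) =>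
      u (x + y)) isCompact_univ h1
    refine h2.congr fun x => ?_
    simp only [domRestrict_apply, sb]
    congr 1
    ext s
    constructor
    · rintro ⟨y, -, rfl⟩
      exact ⟨_, mem_add y.2, rfl⟩
    · rintro ⟨y, hy, rfl⟩
      exact ⟨⟨y - x, by simpa [mem_closedBall, dist_eq_norm] using hy⟩, trivial, by simp⟩
  refine cp_of_touch hV hc fun x hx ε hε => ?_
  obtain ⟨y, hy, h1⟩ := (isCompact_closedBall x δ).exists_isMaxOn
    ⟨x, mem_closedBall_self hδ⟩ (hu.1.mono (h x hx))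
  have h2 : y - x ∈ closedBall (0 : Cn n) δ := by simpa [mem_closedBall, dist_eq_norm] using hy
  refine ⟨fun w => u (w + (y - x)), hu.comp hO hV (by fun_prop) fun w hw => h w hw (mem_add h2),
    fun w hw => le_sb hu.1 (h w hw) (mem_add h2), ?_⟩
  have h3 : sb δ u x ≤ u y := sb_le hδ fun w hw => h1 hw
  simp only [add_sub_cancel]
  linarith

theorem isPsh (hO : IsOpen O) (hu : CP O u) : Psh.IsPsh O fun x => (u x : EReal) :=
  (Psh.isPsh_coe_iff hu.1).2 fun _ _ hd => hu.le_dav hO hd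

/-- three circles -/
theorem three (hO : IsOpen O) (hu : CP O u) {ρ L B : ℝ} (hz : closedBall z ρ ⊆ O)
    (hB : ∀ y ∈ closedBall z ρ, |u y| ≤ B) (hδ : 0 < δ) (hδρ : δ < ρ) (hL : 1 ≤ L)
    (hLρ : L * δ ≤ ρ) {y : Cn n} (hy : y ∈ closedBall z (L * δ)) :
    u y ≤ sb δ u z + 2 * B * Real.log L / (Real.log ρ - Real.log δ) := by
  have hl : 0 < Real.log ρ - Real.log δ := sub_pos.2 (Real.log_lt_log hδ hδρ)
  have hz0 := hB z (mem_closedBall_self (hδ.trans hδρ).le)
  have hB0 : 0 ≤ B := (abs_nonneg _).trans hz0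
  have hlL : 0 ≤ Real.log L := Real.log_nonneg hL
  have hs := (closedBall_subset_closedBall hδρ.le).trans hz
  rcases le_or_gt ‖y - z‖ δ with h1 | h1
  · have h2 := le_sb hu.1 hs (y := y) (by rwa [mem_closedBall, dist_eq_norm])
    have h3 : 0 ≤ 2 * B * Real.log L / (Real.log ρ - Real.log δ) := by positivity
    linarith
  rw [mem_closedBall, dist_eq_norm] at hy
  have h2 := (isPsh hO hu).three_circles z hδ hδρ
    (fun x _ h => hz (by rwa [mem_closedBall, dist_eq_norm])) (a := sb δ u z) (b := B)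
    (fun x hx => EReal.coe_le_coe_iff.2
      (le_sb hu.1 hs (by rw [mem_closedBall, dist_eq_norm, hx])))
    (fun x hx => EReal.coe_le_coe_iff.2
      (le_of_abs_le (hB x (by rw [mem_closedBall, dist_eq_norm, hx])))) h1.le (hy.trans hLρ)
  rw [EReal.coe_le_coe_iff] at h2
  have h3 : -B ≤ sb δ u z := (abs_le.1 hz0).1.trans (le_sb hu.1 hs (mem_closedBall_self hδ.le))
  have h4 : sb δ u z ≤ B := sb_le hδ.le fun w hw =>
    le_of_abs_le (hB w (closedBall_subset_closedBall hδρ.le hw))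
  have h5 : Real.log ‖y - z‖ ≤ Real.log L + Real.log δ := by
    rw [← Real.log_mul (by positivity) hδ.ne']
    exact Real.log_le_log (hδ.trans h1) hy
  generalize sb δ u z = a at *
  have h6 : B - (B - a) / (Real.log ρ - Real.log δ) * (Real.log ρ - Real.log ‖y - z‖) =
      a + (B - a) * (Real.log ‖y - z‖ - Real.log δ) / (Real.log ρ - Real.log δ) := by
    field_simp
    ring
  rw [h6] at h2
  refine h2.trans (add_le_add le_rfl (div_le_div_of_nonneg_right ?_ hl.le))
  exact mul_le_mul (by linarith) (by linarith)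
    (sub_nonneg.2 (Real.log_le_log hδ h1.le)) (by positivity)

end loc

variable {M : Type} [TopologicalSpace M] {A : Atl n M} {H : KP A}

/-- the supremum over small balls of the chart `i` -/
def sI (H : KP A) (δ : ℝ) (φ : M → ℝ) (i : A.ι) (y : M) : ℝ :=
  sb δ (pot H φ i) (A.e i y) - H.u i y

theorem cont_u (H : KP A) {i : A.ι} {x : M} (hx : x ∈ (A.e i).source) :
    ContinuousAt (H.u i) x := by
  have h1 := (wt_contDiffAt H i ((A.e i).map_source hx)).continuousAt.comp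
    ((A.e i).continuousAt hx)
  refine h1.congr ?_
  filter_upwards [(A.e i).open_source.mem_nhds hx] with y hy
  simp only [Function.comp, KP.wt, (A.e i).left_inv hy]

theorem pot_e (H : KP A) (φ : M → ℝ) {i : A.ι} {x : M} (hx : x ∈ (A.e i).source) :
    pot H φ i (A.e i x) = H.u i x + φ x := by
  simp only [pot_apply, KP.wt, (A.e i).left_inv hx]

theorem cont_pot (H : KP A) {φ : M → ℝ} (h : Continuous φ) (i : A.ι) :
    ContinuousOn (pot H φ i) (A.e i).target := by
  simpa only [chU_univ] using contOn_pot (H := H) (U := univ) h.continuousOn i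

theorem qp_sI {φ : M → ℝ} (h : QP H univ φ) {δ : ℝ} (hδ : 0 ≤ δ) {W : Set M} (hW : IsOpen W)
    {i : A.ι} (hi : W ⊆ (A.e i).source)
    (hb : ∀ y ∈ W, closedBall (A.e i y) δ ⊆ (A.e i).target) : QP H W (sI H δ φ i) := by
  have h1 : CP (chU A W i) (sb δ (pot H φ i)) :=
    cp_sb (A.e i).open_target (by simpa only [chU_univ] using h.cp i) hδ (isOpen_chU hW i)
      fun z hz => by simpa only [(A.e i).right_inv hz.1] using hb _ hz.2
  refine QP.of_chart1 hW ?_ hi (h1.congr (isOpen_chU hW i) fun z hz => ?_).2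
  · exact (h1.1.comp ((A.e i).continuousOn.mono hi) fun y hy => mem_chU (hi hy) hy).sub
      fun y hy => (cont_u H (hi hy)).continuousWithinAt
  · simp only [pot_apply, sI, KP.wt, (A.e i).right_inv hz.1]
    ring

theorem cpt_im {T : Set M} (hT : IsCompact T) {i : A.ι} (hi : T ⊆ (A.e i).source) :
    IsCompact (A.e i '' T) := hT.image_of_continuousOn ((A.e i).continuousOn.mono hi)

theorem ev_lt {r : ℝ} (hr : 0 < r) : ∀ᶠ δ in 𝓝[>] (0 : ℝ), δ < r :=
  nhdsWithin_le_nhds (gt_mem_nhds hr)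

theorem ev_ball {T : Set M} (hT : IsCompact T) {i : A.ι} (hi : T ⊆ (A.e i).source) :
    ∀ᶠ δ in 𝓝[>] (0 : ℝ), ∀ y ∈ T, closedBall (A.e i y) δ ⊆ (A.e i).target := by
  obtain ⟨ρ, hρ, h1⟩ := (cpt_im hT hi).exists_cthickening_subset_open (A.e i).open_target
    (by rintro _ ⟨y, hy, rfl⟩; exact (A.e i).map_source (hi hy))
  filter_upwards [ev_lt hρ] with δ hδ y hy
  exact ((closedBall_subset_closedBall hδ.le).trans
    (closedBall_subset_cthickening (mem_image_of_mem _ hy) ρ)).trans h1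

theorem ev_up (H : KP A) {T : Set M} (hT : IsCompact T) {i : A.ι} (hi : T ⊆ (A.e i).source)
    {v : M → ℝ} (hv : Continuous v) {η : ℝ} (hη : 0 < η) :
    ∀ᶠ δ in 𝓝[>] (0 : ℝ), ∀ φ : M → ℝ, (∀ y, φ y ≤ v y) → ∀ y ∈ T, sI H δ φ i y ≤ v y + η := by
  obtain ⟨r, hr, h1⟩ := unif_near (cpt_im hT hi) (f := pot H v i) (by
    rintro _ ⟨y, hy, rfl⟩
    exact (cont_pot H hv i).continuousAt
      ((A.e i).open_target.mem_nhds ((A.e i).map_source (hi hy)))) hη
  filter_upwards [ev_lt hr, self_mem_nhdsWithin] with δ h2 h3 φ hφ y hy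
  rw [sI, sub_le_iff_le_add]
  refine sb_le (le_of_lt h3) fun w hw => ?_
  have h4 := (abs_le.1 (h1 _ (mem_image_of_mem _ hy) w (closedBall_subset_ball h2 hw))).2
  rw [pot_e H v (hi hy)] at h4
  have h5 := hφ ((A.e i).symm w)
  rw [pot_apply] at h4 ⊢
  linarith

theorem ev_low (H : KP A) {i : A.ι} {x : M} (hx : x ∈ (A.e i).source) {δ : ℝ} (hδ : 0 < δ)
    (hb : closedBall (A.e i x) δ ⊆ (A.e i).target) {η : ℝ} (hη : 0 < η) :
    ∀ᶠ y in 𝓝 x, ∀ φ : M → ℝ, Continuous φ → φ y ≤ sI H δ φ i x + η := by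
  filter_upwards [(A.e i).open_source.mem_nhds hx,
    ((A.e i).continuousAt hx).eventually (closedBall_mem_nhds _ hδ),
    (cont_u H hx).eventually (lt_mem_nhds (show H.u i x - η < H.u i x by linarith))]
    with y h1 h2 h3 φ hφ
  have h4 := le_sb (cont_pot H hφ i) hb h2
  rw [pot_e H φ h1] at h4
  rw [sI]
  linarith

theorem ev_cmp (H : KP A) {T : Set M} (hT : IsCompact T) {i j : A.ι} (hi : T ⊆ (A.e i).source)
    (hj : T ⊆ (A.e j).source) {f v : M → ℝ} (hf : Continuous f) (hv : Continuous v) {η : ℝ}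
    (hη : 0 < η) : ∀ᶠ δ in 𝓝[>] (0 : ℝ), ∀ φ : M → ℝ, QP H univ φ → (∀ y, f y ≤ φ y) →
      (∀ y, φ y ≤ v y) → ∀ y ∈ T, sI H δ φ i y ≤ sI H δ φ j y + η := by
  obtain ⟨ρ, hρ, h1⟩ := (cpt_im hT hj).exists_cthickening_subset_open (A.e j).open_target
    (by rintro _ ⟨y, hy, rfl⟩; exact (A.e j).map_source (hj hy))
  have hc1 := (cpt_im hT hj).cthickening (r := ρ)
  obtain ⟨B1, hB1⟩ := hc1.exists_bound_of_continuousOn ((cont_pot H hf j).mono h1)
  obtain ⟨B2, hB2⟩ := hc1.exists_bound_of_continuousOn ((cont_pot H hv j).mono h1)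
  have hov : A.e i '' T ⊆ A.ov i j := by
    rintro _ ⟨y, hy, rfl⟩
    exact ⟨(A.e i).map_source (hi hy), by rw [(A.e i).left_inv (hi hy)]; exact hj hy⟩
  obtain ⟨ρ', hρ', h2⟩ := (cpt_im hT hi).exists_cthickening_subset_open (isOpen_ov' i j) hov
  obtain ⟨L, hL⟩ : ∃ L : ℝ≥0, LipschitzOnWith L (Tm A i j) (cthickening ρ' (A.e i '' T)) := by
    refine LocallyLipschitzOn.exists_lipschitzOnWith_of_compact
      ((cpt_im hT hi).cthickening (r := ρ')) fun z hz => ?_
    have h3 := anal_Tm (A := A) (i := i) (j := j) ⟨(A.e i).map_target (h2 hz).1, (h2 hz).2⟩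
    rw [(A.e i).right_inv (h2 hz).1] at h3
    obtain ⟨K, t, ht, h4⟩ := (h3.contDiffAt (n := 1)).exists_lipschitzOnWith
    exact ⟨K, t, mem_nhdsWithin_of_mem_nhds ht, h4⟩
  obtain ⟨r, hr, h3⟩ := unif_near (cpt_im hT hi)
    (f := fun w => H.u i ((A.e i).symm w) - H.u j ((A.e i).symm w))
    (fun z hz => (kp_diff_smooth H (hov hz)).continuousAt) (half_pos hη)
  set L' : ℝ := L + 1 with hL'
  have hL1 : 1 ≤ L' := by rw [hL']; linarith [L.coe_nonneg]
  have t1 : Tendsto (fun δ : ℝ => 2 * max B1 B2 * Real.log L' / (Real.log ρ - Real.log δ))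
      (𝓝[>] 0) (𝓝 0) :=
    tendsto_const_nhds.div_atTop (tendsto_atTop_add_const_left _ (Real.log ρ)
      (tendsto_neg_atBot_atTop.comp Real.tendsto_log_nhdsGT_zero))
  filter_upwards [ev_lt hρ, ev_lt hρ', ev_lt hr, ev_lt (show 0 < ρ / L' by positivity),
    t1.eventually (ge_mem_nhds (half_pos hη)), self_mem_nhdsWithin] with δ a1 a2 a3 a4 a5 a6 φ hφ
    b1 b2 y hy
  have hδ : 0 < δ := a6
  rw [sI, sI, sub_le_iff_le_add]
  refine sb_le hδ.le fun w hw => ?_
  have hw' : w ∈ cthickening ρ' (A.e i '' T) := closedBall_subset_cthickening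
    (mem_image_of_mem _ hy) ρ' (closedBall_subset_closedBall a2.le hw)
  have c1 := (abs_le.1 (h3 _ (mem_image_of_mem _ hy) w (closedBall_subset_ball a3 hw))).2
  simp only [(A.e i).left_inv (hi hy)] at c1
  have c2 : Tm A i j w ∈ closedBall (A.e j y) (L' * δ) := by
    have h4 := hL.dist_le_mul w hw' _ (self_subset_cthickening _ (mem_image_of_mem _ hy))
    have h5 : Tm A i j (A.e i y) = A.e j y := by rw [Tm, (A.e i).left_inv (hi hy)]
    rw [h5] at h4
    have h6 : dist w (A.e i y) ≤ δ := hw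
    rw [mem_closedBall]
    refine h4.trans (mul_le_mul (by rw [hL']; linarith) h6 dist_nonneg (by linarith))
  have hs := (closedBall_subset_cthickening (mem_image_of_mem (A.e j) hy) ρ)
  have c3 := three (A.e j).open_target (by simpa only [chU_univ] using hφ.cp j) (hs.trans h1)
    (B := max B1 B2) (fun z hz => by
      have d1 := (abs_le.1 (hB1 z (hs hz))).1
      have d2 := (abs_le.1 (hB2 z (hs hz))).2
      have d3 := b1 ((A.e j).symm z)
      have d4 := b2 ((A.e j).symm z)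
      rw [pot_apply] at d1 d2 ⊢
      exact abs_le.2 ⟨by linarith [le_max_left B1 B2], by linarith [le_max_right B1 B2]⟩)
    hδ a1 hL1 (by rw [lt_div_iff₀ (by linarith)] at a4; linarith) c2
  rw [Tm, pot_e H φ (h2 hw').2] at c3
  rw [pot_apply, KP.wt]
  linarith

theorem qp_fold {ι : Type} (s : Finset ι) {U : Set M} {g : ι → M → ℝ} {g0 : M → ℝ}
    (h0 : QP H U g0) (h : ∀ a ∈ s, QP H U (g a)) :
    QP H U fun y => s.fold max (g0 y) fun a => g a y := by
  classical
  induction s using Finset.induction_on with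
  | empty => simpa using h0
  | insert a s ha ih =>
    simp only [Finset.fold_insert ha]
    exact (h a (Finset.mem_insert_self _ _)).max (ih fun b hb => h b (Finset.mem_insert_of_mem hb))

/-- gluing of finitely many local functions -/
theorem glue_fin {ι : Type} (t : Finset ι) {W C : ι → Set M} {g : ι → M → ℝ} {g0 : M → ℝ}
    (h0 : QP H univ g0) (hg : ∀ a ∈ t, QP H (W a) (g a)) (hC : ∀ a ∈ t, IsClosed (C a))
    (hCW : ∀ a ∈ t, C a ⊆ W a) (hle : ∀ a ∈ t, ∀ y ∈ W a, y ∉ C a →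
      g a y ≤ g0 y ∨ ∃ b ∈ t, y ∈ C b ∧ g a y ≤ g b y) :
    ∃ G, QP H univ G ∧ (∀ a ∈ t, ∀ y ∈ C a, g a y ≤ G y) ∧
      ∀ y c, g0 y ≤ c → (∀ a ∈ t, y ∈ C a → g a y ≤ c) → G y ≤ c := by
  classical
  refine ⟨fun y => (t.filter fun a => y ∈ C a).fold max (g0 y) fun a => g a y, ?_,
    fun a ha y hy => (Finset.le_fold_max _).2 (Or.inr ⟨a, Finset.mem_filter.2 ⟨ha, hy⟩, le_rfl⟩),
    fun y c h1 h2 => (Finset.fold_max_le _).2 ⟨h1, fun a ha =>
      h2 a (Finset.mem_filter.1 ha).1 (Finset.mem_filter.1 ha).2⟩⟩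
  refine QP.of_germ isOpen_univ fun x _ => ?_
  set s := t.filter fun a => x ∈ W a with hs
  have hN : IsOpen (⋂ a ∈ s, W a) :=
    isOpen_biInter_finset fun a ha => (hg a (Finset.mem_filter.1 ha).1).op
  have hxN : x ∈ ⋂ a ∈ s, W a := mem_iInter₂.2 fun a ha => (Finset.mem_filter.1 ha).2
  refine ⟨_, _, hxN, qp_fold s (h0.mono hN (subset_univ _)) fun a ha =>
    (hg a (Finset.mem_filter.1 ha).1).mono hN (biInter_subset_of_mem ha), ?_⟩
  have h1 : ∀ᶠ y in 𝓝 x, ∀ a ∈ t, x ∉ W a → y ∉ C a := by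
    refine (eventually_all_finset t).2 fun a ha => ?_
    by_cases h : x ∈ W a
    · exact Eventually.of_forall fun _ h' => (h' h).elim
    · filter_upwards [(hC a ha).isOpen_compl.mem_nhds fun h' => h (hCW a ha h')] with y hy _
      exact hy
  filter_upwards [h1, hN.mem_nhds hxN] with y h2 h3
  refine le_antisymm ((Finset.fold_max_le _).2 ⟨(Finset.le_fold_max _).2 (Or.inl le_rfl),
    fun a ha => (Finset.le_fold_max _).2 (Or.inr ⟨a, ?_, le_rfl⟩)⟩)
    ((Finset.fold_max_le _).2 ⟨(Finset.le_fold_max _).2 (Or.inl le_rfl), fun a ha => ?_⟩)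
  · obtain ⟨h4, h5⟩ := Finset.mem_filter.1 ha
    exact Finset.mem_filter.2 ⟨h4, not_not.1 fun h6 => h2 a h4 h6 h5⟩
  · have h4 := (Finset.mem_filter.1 ha).1
    refine (Finset.le_fold_max _).2 ?_
    by_cases h5 : y ∈ C a
    · exact Or.inr ⟨a, Finset.mem_filter.2 ⟨h4, h5⟩, le_rfl⟩
    · rcases hle a h4 y (mem_iInter₂.1 h3 a ha) h5 with h6 | ⟨b, h6, h7, h8⟩
      · exact Or.inl h6
      · exact Or.inr ⟨b, Finset.mem_filter.2 ⟨h6, h7⟩, h8⟩

end

end Crest.Agent.X261.BT.Env
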