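import Crest.Agent.X261.BT.MxD

/-!
# X261, BT (helper9), part E: integration by parts for continuous slots

`ma_lim'`, `ma_stokes`, `ma_stokes2` (symmetric form), `ma_mass`, `ma_neg`, `ma_neg_loc`.
-/

set_option autoImplicit false
set_option linter.unusedSectionVars false

open Set Filter Topology Complex MeasureTheory Function Metric
open scoped ContDiff Matrix ComplexConjugate ComplexOrder

namespace Crest.Agent.X261.BT

open Crest.Agent.R275.Geo Crest.Agent.R275.EDR890
open Crest.Agent.R273.Hess_333 Crest.Agent.R273.HessB_333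

noncomputable section

variable {n : ℕ} {O O' U K : Set (Cn n)} {u : Fin n → Cn n → ℝ} {φ : Cn n → ℝ}

/-- smooth approximation with varying test functions -/
theorem ma_lim' (hO : IsOpen O) (hu : ∀ k, CP O (u k)) (hU : IsOpen U) (hUO : U ⊆ O) {ι : Type*}
    {l : Filter ι} {v : ι → Fin n → Cn n → ℝ} (hv : ∀ k, Ap l U (u k) fun j => v j k)
    (hK : IsCompact K) (hKU : K ⊆ U) {ψ : ι → Cn n → ℝ}
    (hψ : ∀ᶠ i in l, Continuous (ψ i) ∧ ∀ z, z ∉ K → ψ i z = 0) (hφ : Continuous φ)
    (h0 : ∀ z, z ∉ K → φ z = 0) (hl : TendstoUniformlyOn ψ φ l K) :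
    Tendsto (fun i => ∫ z, ψ i z * mh (v i) z) l (𝓝 (∫ z, φ z ∂ma O u)) := by
  have t : Tst U φ := Tst.of_cpt hφ hK hKU h0
  have hu' : ∀ k, CP U (u k) := fun k => (hu k).mono hUO
  have s := eventually_all.2 fun k => (hv k).sp
  rw [← ma_int_congr hO hu hU hu' hU hUO Subset.rfl t fun _ _ _ => rfl]
  refine (ma_tendsto' hU hu' t (s.mono fun j hj k => (hj k).cp hU)
    (fun k => (hv k).lim.tendstoLocallyUniformlyOn) hK hKU hψ h0 hl).congr' ?_
  filter_upwards [s, hψ] with j hj hj'
  exact ma_smooth hU (fun k => (hj k).cp hU) (fun k z _ => (hj k).1.contDiffAt)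
    (Tst.of_cpt hj'.1 hK hKU hj'.2)

theorem Rad.int_diff {X : Type*} [TopologicalSpace X] [T2Space X] [MeasurableSpace X] [BorelSpace X]
    {O K : Set X} {μ ν : Measure X} (h : Rad O μ) (h' : Rad O ν)
    (hK : MeasurableSet K) (H : μ.restrict (O \ K) = ν.restrict (O \ K)) {ψ g : X → ℝ}
    (hψ : Tst O ψ) (hg : ∀ x ∈ K, ψ x = g x) :
    ∫ x, ψ x ∂μ - ∫ x, ψ x ∂ν = ∫ x in K, g x ∂μ - ∫ x in K, g x ∂ν := by
  have e : ∀ {μ : Measure X}, Rad O μ → μ.restrict Kᶜ = μ.restrict (O \ K) := fun h => by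
    conv_lhs => rw [← h.restrict_self]
    rw [Measure.restrict_restrict hK.compl, inter_comm, sdiff_eq]
  rw [← integral_add_compl hK (h.int hψ), ← integral_add_compl hK (h'.int hψ), e h, e h', H,
    setIntegral_congr_fun hK hg, setIntegral_congr_fun hK hg]
  ring

theorem tuo_mul {ι X : Type*} [TopologicalSpace X] {l : Filter ι} {K : Set X} (hK : IsCompact K)
    {f g : ι → X → ℝ} {a b : X → ℝ} (hf : TendstoUniformlyOn f a l K)
    (hg : TendstoUniformlyOn g b l K) (ha : ContinuousOn a K) (hb : ContinuousOn b K) :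
    TendstoUniformlyOn (fun i x => f i x * g i x) (fun x => a x * b x) l K := by
  obtain ⟨A, hA⟩ := hK.exists_bound_of_continuousOn ha
  obtain ⟨B, hB⟩ := hK.exists_bound_of_continuousOn hb
  refine Metric.tendstoUniformlyOn_iff.2 fun ε hε => ?_
  have hδ : 0 < min 1 (ε / (|A| + |B| + 2)) := by positivity
  filter_upwards [Metric.tendstoUniformlyOn_iff.1 hf _ hδ, Metric.tendstoUniformlyOn_iff.1 hg _ hδ]
    with i h1 h2 x hx
  have h3 := h1 x hx
  have h4 := h2 x hx
  have h5 : |a x| ≤ |A| := (hA x hx).trans (le_abs_self A)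
  have h6 : |b x| ≤ |B| := (hB x hx).trans (le_abs_self B)
  rw [Real.dist_eq] at h3 h4 ⊢
  set δ := min 1 (ε / (|A| + |B| + 2))
  have h7 : δ * (|A| + |B| + 2) ≤ ε := (le_div_iff₀ (by positivity)).1 (min_le_right _ _)
  have h8 : δ ≤ 1 := min_le_left _ _
  rw [show a x * b x - f i x * g i x = a x * (b x - g i x) + (a x - f i x) * b x -
    (a x - f i x) * (b x - g i x) by ring]
  refine (abs_sub _ _).trans_lt (lt_of_le_of_lt (add_le_add_left (abs_add_le _ _) _) ?_)
  simp only [abs_mul]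
  have h9 := mul_le_mul h5 h4.le (abs_nonneg _) (abs_nonneg _)
  have h10 := mul_le_mul h3.le h6 (abs_nonneg _) hδ.le
  have h11 := mul_le_mul h3.le (h4.le.trans h8) (abs_nonneg _) hδ.le
  nlinarith

theorem tuo_const {ι X : Type*} {l : Filter ι} {K : Set X} (a : X → ℝ) :
    TendstoUniformlyOn (fun _ : ι => a) a l K :=
  Metric.tendstoUniformlyOn_iff.2 fun _ hε => Eventually.of_forall fun _ _ _ => by simpa using hε

theorem exists_st (hO : IsOpen O) (hK : IsCompact K) (hKO : K ⊆ O) :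
    ∃ (χ : Cn n → ℝ) (V L : Set (Cn n)) (S : ℕ → (Cn n → ℝ) → Cn n → ℝ), Tst V χ ∧ IsOpen V ∧
      V ⊆ O ∧ IsCompact L ∧ K ⊆ L ∧ L ⊆ V ∧ (∀ z ∈ L, χ z = 1) ∧
      (∀ a, CP O a → Ap atTop V a fun j => S j a) ∧
      (∀ a b, CP O a → CP O b → (∀ z ∈ O, z ∉ K → a z = b z) →
        ∀ᶠ j in atTop, ∀ z, z ∉ L → S j a z - S j b z = 0) ∧ Mo O (closure V) S := by
  obtain ⟨r, hr, h1⟩ := hK.exists_cthickening_subset_open hO hKO
  obtain ⟨χ, -, t, h2, -, -⟩ := exists_cut (hK.cthickening (r := r)) hO h1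
  obtain ⟨V, S, a1, a2, a3, -, -, hM, hS⟩ := exists_ap hO t.cpt t.sub
  refine ⟨χ, V, _, S, ⟨t.cont, t.cpt, a2⟩, a1, a3, hK.cthickening (r := r),
    self_subset_cthickening _, fun z hz => a2 (subset_tsupport _ ?_), h2.self_of_nhdsSet, hS,
    fun a b ha hb H => ?_, hM⟩
  · rw [mem_support, h2.self_of_nhdsSet z hz]
    exact one_ne_zero
  · filter_upwards [tendsto_one_div_add_atTop_nhds_zero_nat.eventually (gt_mem_nhds hr)]
      with j hj z hz
    rw [← hM.sub j a b ha.1 hb.1]
    refine hM.zero j _ z fun y hy hyO => sub_eq_zero.2 (H y hyO fun hyK => hz ?_)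
    exact mem_cthickening_of_dist_le z y r K hyK (by
      rw [dist_comm]; exact (mem_ball.1 hy).le.trans hj.le)

theorem tsupp_of {X : Type*} [TopologicalSpace X] [T2Space X] {L : Set X} (hL : IsCompact L)
    {f : X → ℝ} (h : ∀ z, z ∉ L → f z = 0) : tsupport f ⊆ L :=
  closure_minimal (s := support f) (fun x hx => not_not.1 fun h1 => hx (h x h1)) hL.isClosed

section slot

variable (hO : IsOpen O) (hu : ∀ k, CP O (u k)) (k : Fin n) {a b c d : Cn n → ℝ}
  (ha : CP O a) (hb : CP O b) (hK : IsCompact K) (hKO : K ⊆ O) (H : ∀ z ∈ O, z ∉ K → a z = b z)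
include hO hu ha hb hK hKO H

theorem ma_off : (ma O (update u k a)).restrict (O \ K) = (ma O (update u k b)).restrict (O \ K) :=
  ma_restrict_eq hO (upd hu k hb) hO (upd hu k ha) (hO.sdiff hK.isClosed) sdiff_subset sdiff_subset
    fun l z hz => by
      rcases eq_or_ne l k with rfl | hl
      · rw [update_self, update_self, H z hz.1 hz.2]
      · rw [update_of_ne hl, update_of_ne hl]

/-- **Stokes** -/
theorem ma_stokes (hc : CP O c) : ∫ z, (a z - b z) ∂ma O (update u k c) =
    ∫ z in K, c z ∂ma O (update u k a) - ∫ z in K, c z ∂ma O (update u k b) := by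
  obtain ⟨χ, V, L, S, t, a1, a2, hL, a3, a4, a5, hS, h1, hM⟩ := exists_st hO hK hKO
  have hv := fun k => hS _ (hu k)
  have t1 := (t.mono a2).mul_on hO (ha.1.sub hb.1)
  have t2 := (t.mono a2).mul_on hO hc.1
  have z1 : ∀ z, z ∉ L → χ z * (a z - b z) = 0 := fun z hz => by
    by_cases hzO : z ∈ O
    · rw [H z hzO fun h => hz (a3 h), sub_self, mul_zero]
    · rw [(t.mono a2).zero_off hzO, zero_mul]
  have z2 : ∀ g : Cn n → ℝ, ∀ z, z ∉ tsupport χ → χ z * g z = 0 := fun g z hz => by
    rw [image_eq_zero_of_notMem_tsupport hz, zero_mul]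
  rw [← (ma_rad O _).int_diff (ma_rad O _) hK.measurableSet (ma_off hO hu k ha hb hK hKO H) t2
    fun z hz => by rw [a5 z (a3 hz), one_mul], integral_congr_ae (g := fun z => χ z * (a z - b z))
      ((ma_rad O _).ae_mem.mono fun z hz => by
        by_cases hzK : z ∈ K
        · simp only [a5 z (a3 hzK), one_mul]
        · simp only [H z hz hzK, sub_self, mul_zero])]
  have l1 := ma_lim' hO (upd hu k hc) a1 a2 (Ap.upd hv k (hS c hc)) hL a4
    (ψ := fun j z => S j a z - S j b z) (by
      filter_upwards [(hS a ha).sp, (hS b hb).sp, h1 a b ha hb H] with j sa sb hj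
      exact ⟨sa.1.continuous.sub sb.1.continuous, hj⟩) t1.cont z1
    ((((hS a ha).lim.sub (hS b hb).lim).mono a4).congr_right fun z hz => by
      simp only [a5 z hz, one_mul, Pi.sub_apply])
  have l2 := fun e (he : CP O e) => ma_lim' hO (upd hu k he) a1 a2 (Ap.upd hv k (hS e he)) t.cpt
    t.sub (ψ := fun j z => χ z * S j c z) ((hS c hc).sp.mono fun j sc =>
      ⟨t.cont.mul sc.1.continuous, z2 _⟩) t2.cont (z2 _)
    (tuo_mul t.cpt (tuo_const χ) ((hS c hc).lim.mono t.sub) t.cont.continuousOn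
      (hc.1.mono (t.sub.trans a2)))
  refine tendsto_nhds_unique l1 (((l2 a ha).sub (l2 b hb)).congr' ?_)
  filter_upwards [eventually_all.2 fun k => (hv k).sp, (hS a ha).sp, (hS b hb).sp, (hS c hc).sp,
    h1 a b ha hb H] with j s sa sb sc hj
  have s' := fun k => (s k).1
  have t3 : Tst univ fun z => χ z * S j c z :=
    Tst.of_cpt (t.cont.mul sc.1.continuous) t.cpt (subset_univ _) (z2 _)
  rw [stokes s' k (sa.1.sub sb.1) sc.1 (HasCompactSupport.intro hL hj),
    ← integral_sub (int_mh (sm_update s' k sa.1) t3) (int_mh (sm_update s' k sb.1) t3)]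
  refine integral_congr_ae (Eventually.of_forall fun z => ?_)
  simp only [← mul_sub, ← mh_update_sub _ k sa.1.contDiffAt sb.1.contDiffAt]
  by_cases hz : z ∈ L
  · rw [a5 z hz, one_mul]
  · rw [supp_mh _ k fun h => hz (tsupp_of hL hj h), mul_zero, mul_zero]

/-- symmetric form -/
theorem ma_stokes2 (hc : CP O c) (hd : CP O d) :
    ∫ z, (a z - b z) ∂ma O (update u k c) - ∫ z, (a z - b z) ∂ma O (update u k d) =
      ∫ z in K, (c z - d z) ∂ma O (update u k a) - ∫ z in K, (c z - d z) ∂ma O (update u k b) := by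
  have i : ∀ {e : Cn n → ℝ} (_ : CP O e) w, IntegrableOn e K (ma O w) := fun he w =>
    (ma_rad O w).int_on hK hKO (he.1.mono hKO)
  rw [ma_stokes hO hu k ha hb hK hKO H hc, ma_stokes hO hu k ha hb hK hKO H hd,
    integral_sub (i hc _) (i hd _), integral_sub (i hc _) (i hd _)]
  ring

theorem ma_mass : (ma O (update u k a)).real K = (ma O (update u k b)).real K := by
  have h := ma_stokes hO hu k ha hb hK hKO H (CP.const O 1)
  rw [ma_ph0 hO hu k (Ph.const O 1)] at h
  simp only [integral_zero_measure, integral_const, smul_eq_mul, mul_one,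
    measureReal_restrict_apply_univ] at h
  linarith

/-- negativity -/
theorem ma_neg :
    ∫ z, (a z - b z) ∂ma O (update u k a) ≤ ∫ z, (a z - b z) ∂ma O (update u k b) := by
  obtain ⟨χ, V, L, S, t, a1, a2, hL, a3, a4, a5, hS, h1, hM⟩ := exists_st hO hK hKO
  have hv := fun k => hS _ (hu k)
  have t1 := (t.mono a2).mul_on hO (ha.1.sub hb.1)
  have z1 : ∀ z, z ∉ L → χ z * (a z - b z) = 0 := fun z hz => by
    by_cases hzO : z ∈ O
    · rw [H z hzO fun h => hz (a3 h), sub_self, mul_zero]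
    · rw [(t.mono a2).zero_off hzO, zero_mul]
  have e : ∀ w, ∫ z, (a z - b z) ∂ma O w = ∫ z, χ z * (a z - b z) ∂ma O w := fun w =>
    integral_congr_ae ((ma_rad O _).ae_mem.mono fun z hz => by
      by_cases hzK : z ∈ K
      · simp only [a5 z (a3 hzK), one_mul]
      · simp only [H z hz hzK, sub_self, mul_zero])
  have l1 := fun e (he : CP O e) => ma_lim' hO (upd hu k he) a1 a2 (Ap.upd hv k (hS e he)) hL a4
    (ψ := fun j z => S j a z - S j b z) (by
      filter_upwards [(hS a ha).sp, (hS b hb).sp, h1 a b ha hb H] with j sa sb hj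
      exact ⟨sa.1.continuous.sub sb.1.continuous, hj⟩) t1.cont z1
    ((((hS a ha).lim.sub (hS b hb).lim).mono a4).congr_right fun z hz => by
      simp only [a5 z hz, one_mul, Pi.sub_apply])
  rw [e, e]
  refine le_of_tendsto_of_tendsto (l1 a ha) (l1 b hb) ?_
  filter_upwards [eventually_all.2 fun k => (hv k).sp, (hS a ha).sp, (hS b hb).sp,
    h1 a b ha hb H] with j s sa sb hj
  have s' := fun k => (s k).1
  have t3 : Tst univ fun z => S j a z - S j b z :=
    Tst.of_cpt (sa.1.continuous.sub sb.1.continuous) hL (subset_univ _) hj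
  have h2 := stokes_neg s' k (sa.1.sub sb.1) t3.cpt fun z hz l _ =>
    (s l).2 z (a4 (tsupp_of hL hj hz))
  simp only [mh_update_sub _ k sa.1.contDiffAt sb.1.contDiffAt, mul_sub (S j a _ - S j b _)] at h2
  rwa [integral_sub (int_mh (sm_update s' k sa.1) t3) (int_mh (sm_update s' k sb.1) t3),
    sub_nonpos] at h2

omit hO hu ha hb hK hKO H in
theorem psd_of_min {g : Cn n → ℝ} (hg : ContDiff ℝ ∞ g) {z : Cn n} (h : ∀ y, g z ≤ g y) :
    (hess g z).PosSemidef :=
  (psd_iff hg.contDiffAt).2 fun w => R281.Rich_710.lvE_nonneg_of_le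
    (hg.contDiffAt.of_le (WithTop.coe_le_coe.2 le_top)) ⟨1, one_pos, fun s _ _ => by
      have h1 : Di univ z (s • w) := fun _ _ => trivial
      have h2 := h1.mono (continuousOn_const (c := g z)) hg.continuous.continuousOn fun _ _ => h _
      rwa [dav_const] at h2⟩

omit hO hu ha hb hK hKO H in
theorem mh_sq {f : Cn n → ℝ} (hf : ContDiff ℝ ∞ f) {z : Cn n}
    (h : ∀ l, (hess (u l) z).PosSemidef) :
    2 * (f z * mh (update u k f) z) ≤ mh (update u k fun y => f y ^ 2) z := by
  have s1 : ContDiff ℝ ∞ fun y => 2 * f z * f y := contDiff_const.mul hf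
  rw [← mul_assoc, ← mh_update_mul u k _ hf.contDiffAt]
  refine mh_mono u k (fun l _ => h l) ?_
  rw [← hess_sub (hf.pow 2).contDiffAt s1.contDiffAt]
  exact psd_of_min ((hf.pow 2).sub s1) fun y => by nlinarith [sq_nonneg (f y - f z)]

/-- localised negativity: here `a - b ≥ 0` is the cut-off -/
theorem ma_neg_loc (hab : ∀ z ∈ O, b z ≤ a z) (hc : CP O c) (hd : CP O d) :
    2 * (∫ z, (a z - b z) * (c z - d z) ∂ma O (update u k c) -
      ∫ z, (a z - b z) * (c z - d z) ∂ma O (update u k d)) ≤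
      ∫ z in K, (c z - d z) ^ 2 ∂ma O (update u k a) -
        ∫ z in K, (c z - d z) ^ 2 ∂ma O (update u k b) := by
  obtain ⟨χ, V, L, S, t, a1, a2, hL, a3, a4, a5, hS, h1, hM⟩ := exists_st hO hK hKO
  have hv := fun k => hS _ (hu k)
  have c1 : ContinuousOn (fun z => c z - d z) O := hc.1.sub hd.1
  have c2 : ContinuousOn (fun z => a z - b z) O := ha.1.sub hb.1
  have t1 := (t.mono a2).mul_on hO (c2.mul c1)
  have t2 := (t.mono a2).mul_on hO (c1.mul c1)
  have z1 : ∀ z, z ∉ L → χ z * ((a z - b z) * (c z - d z)) = 0 := fun z hz => by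
    by_cases hzO : z ∈ O
    · rw [H z hzO fun h => hz (a3 h), sub_self, zero_mul, mul_zero]
    · rw [(t.mono a2).zero_off hzO, zero_mul]
  have z2 : ∀ g : Cn n → ℝ, ∀ z, z ∉ tsupport χ → χ z * g z = 0 := fun g z hz => by
    rw [image_eq_zero_of_notMem_tsupport hz, zero_mul]
  have e : ∀ w, ∫ z, (a z - b z) * (c z - d z) ∂ma O w =
      ∫ z, χ z * ((a z - b z) * (c z - d z)) ∂ma O w := fun w =>
    integral_congr_ae ((ma_rad O _).ae_mem.mono fun z hz => by
      by_cases hzK : z ∈ K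
      · simp only [a5 z (a3 hzK), one_mul]
      · simp only [H z hz hzK, sub_self, zero_mul, mul_zero])
  rw [← (ma_rad O _).int_diff (ma_rad O _) hK.measurableSet (ma_off hO hu k ha hb hK hKO H) t2
    fun z hz => by simp only [a5 z (a3 hz), one_mul, sq, Pi.mul_apply], e, e]
  have u1 := (hS c hc).lim.sub (hS d hd).lim
  have l1 := fun e (he : CP O e) => ma_lim' hO (upd hu k he) a1 a2 (Ap.upd hv k (hS e he)) hL a4
    (ψ := fun j z => (S j a z - S j b z) * (S j c z - S j d z)) (by
      filter_upwards [(hS a ha).sp, (hS b hb).sp, (hS c hc).sp, (hS d hd).sp, h1 a b ha hb H]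
        with j sa sb sc sd hj
      exact ⟨(sa.1.continuous.sub sb.1.continuous).mul (sc.1.continuous.sub sd.1.continuous),
        fun z hz => by rw [hj z hz, zero_mul]⟩) t1.cont z1
    ((tuo_mul hL (((hS a ha).lim.sub (hS b hb).lim).mono a4) (u1.mono a4) (c2.mono (a4.trans a2))
      (c1.mono (a4.trans a2))).congr_right fun z hz => by
        simp only [a5 z hz, one_mul, Pi.sub_apply, Pi.mul_apply])
  have c3 := c1.mono (t.sub.trans a2)
  have l2 := fun e (he : CP O e) => ma_lim' hO (upd hu k he) a1 a2 (Ap.upd hv k (hS e he)) t.cpt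
    t.sub (ψ := fun j z => χ z * ((S j c z - S j d z) * (S j c z - S j d z)))
    (((hS c hc).sp.and (hS d hd).sp).mono fun j s => ⟨t.cont.mul
      ((s.1.1.continuous.sub s.2.1.continuous).mul (s.1.1.continuous.sub s.2.1.continuous)),
        z2 _⟩) t2.cont (z2 _)
    (tuo_mul t.cpt (tuo_const χ) (tuo_mul t.cpt (u1.mono t.sub) (u1.mono t.sub) c3 c3)
      t.cont.continuousOn (c3.mul c3))
  refine le_of_tendsto_of_tendsto (((l1 c hc).sub (l1 d hd)).const_mul 2)
    ((l2 a ha).sub (l2 b hb)) ?_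
  filter_upwards [eventually_all.2 fun k => (hv k).sp, (hS a ha).sp, (hS b hb).sp, (hS c hc).sp,
    (hS d hd).sp, h1 a b ha hb H] with j s sa sb sc sd hj
  have s' := fun k => (s k).1
  have s1 := sa.1.sub sb.1
  have s2 := sc.1.sub sd.1
  have t3 : Tst univ fun z => χ z * ((S j c z - S j d z) * (S j c z - S j d z)) :=
    Tst.of_cpt (t.cont.mul (s2.continuous.mul s2.continuous)) t.cpt (subset_univ _) (z2 _)
  have t4 : Tst univ fun z => S j a z - S j b z :=
    Tst.of_cpt s1.continuous hL (subset_univ _) hj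
  have t5 := t4.mul_on isOpen_univ s2.continuous.continuousOn
  have h2 := stokes s' k s1 (s2.pow 2) t4.cpt
  have h3 : ∫ z, (S j c z - S j d z) ^ 2 * mh (update (fun k => S j (u k)) k
      fun z => S j a z - S j b z) z = (∫ z, χ z * ((S j c z - S j d z) * (S j c z - S j d z)) *
        mh (update (fun k => S j (u k)) k (S j a)) z) - ∫ z, χ z * ((S j c z - S j d z) *
          (S j c z - S j d z)) * mh (update (fun k => S j (u k)) k (S j b)) z := by
    rw [← integral_sub (int_mh (sm_update s' k sa.1) t3) (int_mh (sm_update s' k sb.1) t3)]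
    refine integral_congr_ae (Eventually.of_forall fun z => ?_)
    simp only [← mul_sub, ← mh_update_sub _ k sa.1.contDiffAt sb.1.contDiffAt]
    by_cases hz : z ∈ L
    · rw [a5 z hz, one_mul, sq]
    · rw [supp_mh _ k fun h => hz (tsupp_of hL hj h), mul_zero, mul_zero]
  have i1 := int_mh (sm_update s' k sc.1) t5
  have i2 := int_mh (sm_update s' k sd.1) t5
  change 2 * (_ - _) ≤ _ - _
  rw [← h3, ← h2, ← integral_sub i1 i2, ← integral_const_mul]
  refine integral_mono ((i1.sub i2).const_mul 2) (int_mh (sm_update s' k (s2.pow 2)) t4) fun z => ?_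
  simp only [← mul_sub, ← mh_update_sub _ k sc.1.contDiffAt sd.1.contDiffAt]
  by_cases hz : z ∈ L
  · rw [mul_assoc, mul_left_comm]
    exact mul_le_mul_of_nonneg_left (mh_sq k s2 fun l => (s l).2 z (a4 hz))
      (sub_nonneg.2 (hM.mono j b a hb.1 ha.1 hab z))
  · simp only [hj z hz, zero_mul, mul_zero, le_refl]

end slot

end

end Crest.Agent.X261.BT
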