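import Crest.Agent.X261.BT.Part
import Crest.Agent.X261.BT.MxR

/-!
# X261 / BT (helper21): gluing measures given in the charts of an atlas

* `rd A i χ` : a function read in a chart (zero off the target);
* `pm A i m` : push-forward of a measure of the chart `i`;  `gm A m` : the glued measure;
* `Cmp U m`  : compatible Radon measures over `U`; `Cmp.chart`, `Cmp.rad`, `Cmp.int_chart`,
  `Cmp.int_part`.
-/

set_option autoImplicit false
set_option linter.unusedSectionVars false

open Set Filter Topology MeasureTheory Metric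
open scoped ContDiff

namespace Crest.Agent.X261.BT

open Crest.Agent.R275.Geo
open Crest.Agent.R273.Vm_333 (Dj exists_Dj Dj_disjoint iUnion_Dj meas_Dj)
open Crest.Agent.R273.YauDefs_635 (inC)

noncomputable section

variable {n : ℕ} {M : Type} [TopologicalSpace M] {A : Atl n M} {U : Set M}

theorem lcs (A : Atl n M) : LocallyCompactSpace M := R275.QN2b734.locallyCompact A

theorem sct (A : Atl n M) [Countable A.ι] : SecondCountableTopology M := by
  have : ∀ i, SecondCountableTopology (A.e i).source := fun i =>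
    (A.e i).toHomeomorphSourceTarget.secondCountableTopology
  exact TopologicalSpace.secondCountableTopology_of_countable_cover
    (fun i => (A.e i).open_source) (eq_univ_of_forall fun x => mem_iUnion.2 (A.cover x))

/-- a function read in the chart `i`, extended by zero -/
def rd (A : Atl n M) (i : A.ι) (χ : M → ℝ) : Cn n → ℝ := (A.e i).target.indicator (inC A i χ)

theorem rd_of_mem {i : A.ι} {χ : M → ℝ} {z : Cn n} (hz : z ∈ (A.e i).target) :
    rd A i χ z = χ ((A.e i).symm z) := indicator_of_mem hz _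

theorem rd_of_not {i : A.ι} {χ : M → ℝ} {z : Cn n} (hz : z ∉ (A.e i).target) :
    rd A i χ z = 0 := indicator_of_notMem hz _

theorem rd_ev {i : A.ι} (χ : M → ℝ) {z : Cn n} (hz : z ∈ (A.e i).target) :
    rd A i χ =ᶠ[𝓝 z] inC A i χ :=
  eventually_of_mem ((A.e i).open_target.mem_nhds hz) fun _ hw => rd_of_mem hw

theorem cpt_img {i : A.ι} {K : Set M} (hK : IsCompact K) (h : K ⊆ (A.e i).source) :
    IsCompact (A.e i '' K) := hK.image_of_continuousOn ((A.e i).continuousOn.mono h)

theorem img_sub {i : A.ι} {K : Set M} (h : K ⊆ U ∩ (A.e i).source) : A.e i '' K ⊆ chU A U i := by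
  rintro _ ⟨x, hx, rfl⟩
  exact mem_chU (h hx).2 (h hx).1

theorem rd_zero {i : A.ι} {χ : M → ℝ} {K : Set M} (h0 : ∀ x ∉ K, χ x = 0) {z : Cn n}
    (hz : z ∉ A.e i '' K) : rd A i χ z = 0 := by
  by_cases h1 : z ∈ (A.e i).target
  · rw [rd_of_mem h1]
    exact h0 _ fun h2 => hz ⟨_, h2, (A.e i).right_inv h1⟩
  · exact rd_of_not h1

theorem rd_ev_zero {i : A.ι} {χ : M → ℝ} (h : Tst (U ∩ (A.e i).source) χ) {z : Cn n}
    (hz : z ∉ A.e i '' tsupport χ) : rd A i χ =ᶠ[𝓝 z] fun _ => 0 := by
  have hK := cpt_img h.cpt fun x hx => (h.sub hx).2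
  filter_upwards [hK.isClosed.isOpen_compl.mem_nhds hz] with w hw
  exact rd_zero (fun x hx => image_eq_zero_of_notMem_tsupport hx) hw

theorem Tst.rd {i : A.ι} {χ : M → ℝ} (h : Tst (U ∩ (A.e i).source) χ) :
    Tst (chU A U i) (rd A i χ) := by
  refine Tst.of_cpt (continuous_iff_continuousAt.2 fun z => ?_)
    (cpt_img h.cpt fun x hx => (h.sub hx).2) (img_sub h.sub)
    fun z hz => rd_zero (fun x hx => image_eq_zero_of_notMem_tsupport hx) hz
  by_cases hz : z ∈ (A.e i).target
  · exact (h.cont.continuousAt.comp ((A.e i).continuousAt_symm hz)).congr (rd_ev χ hz).symm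
  · exact continuousAt_const.congr (rd_ev_zero h fun h1 => hz (img_sub h.sub h1).1).symm

theorem tsupp_rd {i : A.ι} {χ : M → ℝ} (h : Tst (U ∩ (A.e i).source) χ) :
    tsupport (rd A i χ) ⊆ A.e i '' tsupport χ := fun _ hz => by
  by_contra h1
  exact (notMem_tsupport_iff_eventuallyEq.2 (rd_ev_zero h h1)) hz

theorem rd_smooth {i : A.ι} {χ : M → ℝ} (h : Tst (U ∩ (A.e i).source) χ) (hs : A.Sm χ) :
    ContDiff ℝ ∞ (rd A i χ) := by
  refine contDiff_iff_contDiffAt.2 fun z => ?_
  by_cases hz : z ∈ (A.e i).target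
  · exact (sm_at hs i hz).congr_of_eventuallyEq (rd_ev χ hz)
  · exact contDiffAt_const.congr_of_eventuallyEq
      (rd_ev_zero h fun h1 => hz (img_sub h.sub h1).1)

variable [MeasurableSpace M] [BorelSpace M]

/-- push-forward of a measure of the chart `i` -/
def pm (A : Atl n M) (i : A.ι) (m : Measure (Cn n)) : Measure M := m.map (A.e i).symm

theorem aem_symm {i : A.ι} {m : Measure (Cn n)} (h : m ((A.e i).target)ᶜ = 0) :
    AEMeasurable (A.e i).symm m := by
  rw [← Measure.restrict_eq_self_of_ae_mem (μ := m) (s := (A.e i).target) h]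
  exact (A.e i).continuousOn_symm.aemeasurable (A.e i).open_target.measurableSet

theorem off_target {i : A.ι} {m : Measure (Cn n)} (h : Rad (chU A U i) m) :
    m ((A.e i).target)ᶜ = 0 :=
  measure_mono_null (compl_subset_compl.2 inter_subset_left) h.off

theorem pm_apply {i : A.ι} {m : Measure (Cn n)} (h : m ((A.e i).target)ᶜ = 0) {E : Set M}
    (hE : MeasurableSet E) : pm A i m E = m (chU A E i) := by
  rw [pm, Measure.map_apply_of_aemeasurable (aem_symm h) hE, chU, inter_comm,
    measure_inter_conull h]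

theorem meas_chU (i : A.ι) {E : Set M} (hE : MeasurableSet E) : MeasurableSet (chU A E i) := by
  have h1 : Measurable ((A.e i).target.domRestrict (A.e i).symm) :=
    (continuousOn_iff_continuous_domRestrict.1 (A.e i).continuousOn_symm).measurable
  have h2 := (A.e i).open_target.measurableSet.subtype_image (h1 hE)
  convert h2 using 1
  ext y
  constructor
  · rintro ⟨hy, hyE⟩
    exact ⟨⟨y, hy⟩, hyE, rfl⟩
  · rintro ⟨⟨y, hy⟩, hyE, rfl⟩
    exact ⟨hy, hyE⟩

theorem chU_inter (i : A.ι) (E F : Set M) : chU A (E ∩ F) i = chU A E i ∩ chU A F i := by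
  ext z; simp only [chU, mem_inter_iff, mem_preimage]; tauto

theorem chU_source (i : A.ι) (E : Set M) : chU A (E ∩ (A.e i).source) i = chU A E i := by
  ext z
  exact ⟨fun h => ⟨h.1, h.2.1⟩, fun h => ⟨h.1, h.2, (A.e i).map_target h.1⟩⟩

theorem int_pm {i : A.ι} {m : Measure (Cn n)} (h : m ((A.e i).target)ᶜ = 0) {f : M → ℝ}
    (hf : AEStronglyMeasurable f (pm A i m)) : ∫ x, f x ∂pm A i m = ∫ z, rd A i f z ∂m := by
  rw [pm, integral_map (aem_symm h) hf]
  refine integral_congr_ae ?_
  filter_upwards [show ∀ᵐ z ∂m, z ∈ (A.e i).target from h] with z hz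
  rw [rd_of_mem hz]

variable [Countable A.ι]

/-- the glued measure -/
def gm (A : Atl n M) [Countable A.ι] (m : A.ι → Measure (Cn n)) : Measure M :=
  Measure.sum fun i => (pm A i (m i)).restrict (Dj A i)

theorem meas_sum_Dj (ν : Measure M) {E : Set M} (hE : MeasurableSet E) :
    ν E = ∑' j, ν (E ∩ Dj A j) := by
  rw [← measure_iUnion]
  · rw [← inter_iUnion, iUnion_Dj, inter_univ]
  · exact fun i j hij => (Dj_disjoint hij).mono inter_subset_right inter_subset_right
  · exact fun j => hE.inter (meas_Dj j)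

theorem le_of_charts {μ ν : Measure M}
    (h : ∀ i, ∀ E, MeasurableSet E → E ⊆ (A.e i).source → μ E ≤ ν E) : μ ≤ ν := by
  refine Measure.le_iff.2 fun E hE => ?_
  rw [meas_sum_Dj (A := A) μ hE, meas_sum_Dj (A := A) ν hE]
  exact ENNReal.tsum_le_tsum fun j => h j _ (hE.inter (meas_Dj j)) fun x hx => hx.2.1

theorem ext_of_charts {μ ν : Measure M}
    (h : ∀ i, ∀ E, MeasurableSet E → E ⊆ (A.e i).source → μ E = ν E) : μ = ν :=
  le_antisymm (le_of_charts (A := A) fun i E h1 h2 => (h i E h1 h2).le)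
    (le_of_charts (A := A) fun i E h1 h2 => (h i E h1 h2).ge)

/-- compatible Radon measures in the charts, over `U` -/
structure Cmp (U : Set M) (m : A.ι → Measure (Cn n)) : Prop where
  op : IsOpen U
  rad : ∀ i, Rad (chU A U i) (m i)
  tr : ∀ i j E, MeasurableSet E → E ⊆ U ∩ ((A.e i).source ∩ (A.e j).source) →
    m i (chU A E i) = m j (chU A E j)

namespace Cmp

variable {m m' : A.ι → Measure (Cn n)}

theorem inter (h : Cmp U m) (i : A.ι) (E : Set M) : m i (chU A (E ∩ U) i) = m i (chU A E i) := by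
  rw [chU_inter, measure_inter_conull (h.rad i).off]

theorem apply (h : Cmp U m) (i : A.ι) {E : Set M} (hE : MeasurableSet E)
    (hs : E ⊆ (A.e i).source) : gm A m E = m i (chU A E i) := by
  have h1 : ∀ j, (pm A j (m j)).restrict (Dj A j) E = pm A i (m i) (E ∩ Dj A j) := by
    intro j
    have h2 := hE.inter (meas_Dj (A := A) j)
    rw [Measure.restrict_apply hE, pm_apply (off_target (h.rad j)) h2,
      pm_apply (off_target (h.rad i)) h2, ← h.inter j, ← h.inter i]
    exact h.tr j i _ (h2.inter h.op.measurableSet) fun x hx => ⟨hx.2, hx.1.2.1, hs hx.1.1⟩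
  rw [gm, Measure.sum_apply _ hE]
  simp only [h1]
  rw [← meas_sum_Dj _ hE, pm_apply (off_target (h.rad i)) hE]

theorem chart (h : Cmp U m) (i : A.ι) : (gm A m).restrict (A.e i).source = pm A i (m i) := by
  ext E hE
  rw [Measure.restrict_apply hE, h.apply i (hE.inter (A.e i).open_source.measurableSet)
    inter_subset_right, chU_source, pm_apply (off_target (h.rad i)) hE]

theorem off (h : Cmp U m) : gm A m Uᶜ = 0 := by
  rw [meas_sum_Dj (A := A) _ h.op.measurableSet.compl, ENNReal.tsum_eq_zero]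
  intro j
  rw [h.apply j (h.op.measurableSet.compl.inter (meas_Dj j)) fun x hx => hx.2.1]
  refine measure_mono_null (fun z hz => ?_) (h.rad j).off
  exact fun h1 => hz.2.1 h1.2

theorem radM [T2Space M] (h : Cmp U m) : Rad U (gm A m) := by
  refine ⟨h.off, fun K hK hKU => ?_⟩
  have := lcs A
  refine hK.induction_on (p := fun K => gm A m K < ⊤) (by simp)
    (fun s t hst ht => (measure_mono hst).trans_lt ht)
    (fun s t hs ht => (measure_union_le _ _).trans_lt (ENNReal.add_lt_top.2 ⟨hs, ht⟩)) ?_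
  intro x hx
  obtain ⟨i, hi⟩ := A.cover x
  obtain ⟨L, h1, h2, h3⟩ := local_compact_nhds
    ((h.op.inter (A.e i).open_source).mem_nhds ⟨hKU hx, hi⟩)
  refine ⟨L, mem_nhdsWithin_of_mem_nhds h1, ?_⟩
  rw [h.apply i h3.measurableSet fun y hy => (h2 hy).2]
  refine (measure_mono ?_).trans_lt ((h.rad i).fin _ (cpt_img h3 fun y hy => (h2 hy).2)
    (img_sub h2))
  exact fun z hz => ⟨_, hz.2, (A.e i).right_inv hz.1⟩

/-- integral of a function supported in one chart -/
theorem int_chart (h : Cmp U m) (i : A.ι) {f : M → ℝ} (hf : AEStronglyMeasurable f (gm A m))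
    (h0 : ∀ x ∉ (A.e i).source, f x = 0) : ∫ x, f x ∂gm A m = ∫ z, rd A i f z ∂m i := by
  rw [← setIntegral_eq_integral_of_forall_compl_eq_zero h0, h.chart i,
    int_pm (off_target (h.rad i))]
  rw [← h.chart i]
  exact hf.restrict

theorem int_tst (h : Cmp U m) {i : A.ι} {W : Set M} {f : M → ℝ}
    (hf : Tst (W ∩ (A.e i).source) f) : ∫ x, f x ∂gm A m = ∫ z, rd A i f z ∂m i :=
  h.int_chart i hf.cont.aestronglyMeasurable fun _ hx => hf.zero_off fun h1 => hx h1.2

/-- integral through a finite partition of unity -/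
theorem int_part [T2Space M] (h : Cmp U m) {t : Finset A.ι} {ψ : A.ι → M → ℝ}
    (hψ : ∀ i, Tst (U ∩ (A.e i).source) (ψ i)) {f : M → ℝ} (hf : ContinuousOn f U)
    (h1 : ∀ x, f x ≠ 0 → ∑ i ∈ t, ψ i x = 1) :
    ∫ x, f x ∂gm A m = ∑ i ∈ t, ∫ z, rd A i (fun x => ψ i x * f x) z ∂m i := by
  have ht : ∀ i, Tst (U ∩ (A.e i).source) fun x => ψ i x * f x := fun i =>
    (hψ i).mul_on (h.op.inter (A.e i).open_source) (hf.mono inter_subset_left)
  have h2 : ∀ x, f x = ∑ i ∈ t, ψ i x * f x := fun x => by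
    rw [← Finset.sum_mul]
    by_cases hx : f x = 0
    · rw [hx, mul_zero]
    · rw [h1 x hx, one_mul]
  rw [integral_congr_ae (Eventually.of_forall h2), integral_finsetSum _ fun i _ =>
    h.radM.int ((ht i).mono inter_subset_left)]
  exact Finset.sum_congr rfl fun i _ => h.int_tst (ht i)

theorem le (h : Cmp U m) {U' : Set M} (h' : Cmp U' m') {c : ENNReal} {S : Set M}
    (hS : MeasurableSet S)
    (H : ∀ i, (m i).restrict (chU A S i) ≤ c • m' i) : (gm A m).restrict S ≤ c • gm A m' := by
  refine le_of_charts (A := A) fun i E hE hs => ?_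
  rw [Measure.restrict_apply hE, h.apply i (hE.inter hS) fun x hx => hs hx.1,
    Measure.smul_apply, h'.apply i hE hs, chU_inter, ← Measure.restrict_apply (meas_chU i hE)]
  exact H i _

theorem mono (h : Cmp U m) {U' : Set M} (h' : Cmp U' m') (H : ∀ i, m i ≤ m' i) :
    gm A m ≤ gm A m' :=
  le_of_charts (A := A) fun i E hE hs => by
    rw [h.apply i hE hs, h'.apply i hE hs]; exact H i _

theorem restrict_eq (h : Cmp U m) {U' : Set M} (h' : Cmp U' m') {S : Set M}
    (hS : MeasurableSet S) (H : ∀ i, (m i).restrict (chU A S i) = m' i) :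
    (gm A m).restrict S = gm A m' :=
  ext_of_charts (A := A) fun i E hE hs => by
    rw [Measure.restrict_apply hE, h.apply i (hE.inter hS) fun x hx => hs hx.1,
      h'.apply i hE hs, chU_inter, ← Measure.restrict_apply (meas_chU i hE), H i]

theorem add_eq {m'' : A.ι → Measure (Cn n)} (h : Cmp U m) (h' : Cmp U m') (h'' : Cmp U m'')
    (H : ∀ i, m i = m' i + m'' i) : gm A m = gm A m' + gm A m'' :=
  ext_of_charts (A := A) fun i E hE hs => by
    rw [Measure.add_apply, h.apply i hE hs, h'.apply i hE hs, h''.apply i hE hs, H i,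
      Measure.add_apply]

theorem smul_eq (h : Cmp U m) (h' : Cmp U m') {c : ENNReal} (H : ∀ i, m i = c • m' i) :
    gm A m = c • gm A m' :=
  ext_of_charts (A := A) fun i E hE hs => by
    rw [Measure.smul_apply, h.apply i hE hs, h'.apply i hE hs, H i, Measure.smul_apply]

end Cmp

end

end Crest.Agent.X261.BT
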