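import Crest.Agent.X261.BT.DscE
import Crest.Agent.X261.Pole.ES

/-!
# X261 / BT (helper21): the energy system `esOf : Pole.ES M` and `geo_es : Pole.Geo _ H`
-/

set_option autoImplicit false
set_option linter.unusedSectionVars false

open Set Filter Topology MeasureTheory Metric Function

namespace Crest.Agent.X261.BT

open Crest.Agent.R275.Geo
open Crest.Agent.R281.Kp_487 (KP pot)

noncomputable section

variable {n : ℕ} {M : Type} [TopologicalSpace M] {A : Atl n M} [MeasurableSpace M] [BorelSpace M]
  [Countable A.ι] [T2Space M] {H : KP A}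

/-- the energy system -/
def esOf (hH : H.Pos) (hS : Slow H) : Pole.ES M where
  toDS := dsM hH hS
  P := PE H
  P_mem := (lsOf hH hS).P_mem
  P_le := (lsOf hH hS).P_le
  P_le' := (lsOf hH hS).P_le'
  le_P := (lsOf hH hS).le_P
  s3 := (lsOf hH hS).s3
  cvx := (lsOf hH hS).cvx

variable (hH : H.Pos) (hS : Slow H)

theorem esOf_ls : (esOf hH hS).ls = lsOf hH hS := rfl

theorem esOf_ds : (esOf hH hS).toDS = dsM hH hS := rfl

theorem esOf_Q : (esOf hH hS).Q = QQ H := rfl

theorem esOf_D (f : M → ℝ) : (esOf hH hS).D f = -En H f := rfl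

theorem esOf_P : (esOf hH hS).P = PE H := rfl

theorem esOf_JP : (esOf hH hS).JP = JC H := rfl

theorem geo_es : Pole.Geo (esOf hH hS).toDS H :=
  ⟨fun _ h => h.1.qp, fun _ h h0 => ⟨h, h0⟩, fun _ h => h.cont, fun _ h => h.jp.psh⟩

/-- the swept measures of the energy system -/
def msE : Two.MS (esOf hH hS).ls := msOf hH hS

theorem msE_xi : (msE hH hS).xi = Xi H := rfl

end

end Crest.Agent.X261.BT
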