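import Crest.Agent.X261.BT.Defs
import Crest.Agent.R275.QN2b_734
import Crest.Agent.R257.Glue1_101

/-!
# X261 / BT (helper5): one smoothing operator for all continuous quasi-psh functions

`exists_smo` : near a compact set `K ⊆ U` there is a Richberg operator `Smo H₀ U V S`
(mollify in finitely many charts, glue by a regularised maximum, cut off).
-/

set_option autoImplicit false
set_option linter.unusedSectionVars false

open Set Filter Topology Complex MeasureTheory Metric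
open scoped ContDiff Matrix ComplexConjugate ComplexOrder

namespace Crest.Agent.X261.BT

open Crest.Agent.R275.Geo
open Crest.Agent.R273.Hess_333 Crest.Agent.R273.HessB_333
open Crest.Agent.R281.Rich_710 (PshL lev_eq_lvE)
open Crest.Agent.R281.Kp_487 (KP pot wt_contDiffAt wt_smooth lev_wt_change)
open Crest.Agent.R257.HoB_843 (lvE lvE_congr)
open Crest.Agent.R257.Glue1_101 (gl FR RM ls low thr thr_pos low_le mem_ls RM_drop Adm gl_smooth
  gl_lev le_gl gl_le FR_cons FR_nil)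
open Crest.Agent.R257.Glue2_101 (lvE_add lvE_const_mul lvE_add_const two_le_top)
open Crest.Agent.R273.YauDefs_635 (inC)
open Crest.Agent.R273.YauCh_635 (Tm lev_change lev_upper lev_lower)
open Crest.Agent.R275.QN2b734 (SmP smP_of sm_iff exists_bump exists_bump_point tendsto_symm)

noncomputable section

variable {n : ℕ} {M : Type} [TopologicalSpace M] {A : Atl n M}

namespace Sg

theorem FR_congr {ι : Type*} {c : ℝ} {a b : ι → ℝ} {l : List ι} (h : ∀ i ∈ l, a i = b i) :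
    FR c a l = FR c b l := by
  induction l with
  | nil => rw [FR_nil, FR_nil]
  | cons j l ih =>
    rw [FR_cons, FR_cons, h j List.mem_cons_self, ih fun i hi => h i (List.mem_cons_of_mem _ hi)]

theorem gl_congr {ι X : Type*} [Fintype ι] {O : ι → Set X} {u u' : ι → X → ℝ} {x : X}
    (h0 : ∃ i, x ∈ O i) (h : ∀ i, x ∈ O i → u i x = u' i x) : gl O u x = gl O u' x := by
  have h1 : gl O u' x = FR (low fun i => u i x) (fun i => u' i x) (ls fun i => x ∈ O i) :=
    RM_drop (p := fun i => x ∈ O i) (fun _ hi => hi) h0 (fun _ hi hn => (hn hi).elim)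
      fun i hi => by rw [← h i hi]; exact low_le (fun i => u i x) i
  rw [h1]
  unfold gl RM
  exact FR_congr fun i hi => h i ((mem_ls (p := fun i => x ∈ O i)).1 hi)

theorem lvE_pot (H : KP A) {F : M → ℝ} {i : A.ι} {x : M} (hx : x ∈ (A.e i).source)
    (hF : SmP A F x) (w : Cn n) :
    lvE (pot H F i) (A.e i x) w = lvE (H.wt i) (A.e i x) w + lvE (inC A i F) (A.e i x) w :=
  lvE_add (wt_contDiffAt H i ((A.e i).map_source hx)) (hF i hx) w

/-- chart independence of the Levi form of `ω + i∂∂̄ F` -/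
theorem lvE_pot_tr (H : KP A) {F : M → ℝ} {i j : A.ι} {x : M}
    (hx : x ∈ (A.e i).source ∩ (A.e j).source) (hF : SmP A F x) (w : Cn n) :
    lvE (pot H F i) (A.e i x) w =
      lvE (pot H F j) (A.e j x) (fderiv ℂ (Tm A i j) (A.e i x) w) := by
  have h1 := lev_wt_change H hx w
  have h2 := lev_change (u := inC A i F) (v := inC A j F) (f := fun _ => (1 : ℂ)) hx
    ((hF j hx.2).of_le two_le_top) analyticAt_const one_ne_zero (by
      filter_upwards [((A.e i).isOpen_inter_preimage_symm (A.e j).open_source).mem_nhds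
        (show A.e i x ∈ (A.e i).target ∩ (A.e i).symm ⁻¹' (A.e j).source from
          ⟨(A.e i).map_source hx.1, by rw [mem_preimage, (A.e i).left_inv hx.1]; exact hx.2⟩)]
        with z hz
      simp only [inC, Tm, (A.e j).left_inv hz.2, norm_one, one_pow, Real.log_one, add_zero]) w
  rw [lev_eq_lvE, lev_eq_lvE] at h1 h2
  rw [lvE_pot H hx.1 hF, lvE_pot H hx.2 hF]
  linarith

/-- finitely many bumps in charts -/
structure Cov (A : Atl n M) (ι : Type) (U : Set M) where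
  c : ι → A.ι
  χ : ι → M → ℝ
  sm : ∀ a x, SmP A (χ a) x
  rg : ∀ a x, 0 ≤ χ a x ∧ χ a x ≤ 1
  cpt : ∀ a, IsCompact (tsupport (χ a))
  sub : ∀ a, tsupport (χ a) ⊆ (A.e (c a)).source ∩ U

variable {ι : Type} {U : Set M} (D : Cov A ι U)

/-- the good open set -/
def Cov.V : Set M := {x | ∃ a, ∀ᶠ y in 𝓝 x, D.χ a y = 1}

/-- the compact pieces, in the charts -/
def Cov.K (a : ι) : Set (Cn n) := A.e (D.c a) '' tsupport (D.χ a)

/-- the domains of the gluing -/
def Cov.O (a : ι) : Set M := {x | 1 / 4 < D.χ a x}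

/-- the local candidates -/
def Cov.pc (H : KP A) (k : ℝ) (G : ι → Cn n → ℝ) (a : ι) (x : M) : ℝ :=
  G a (A.e (D.c a) x) - H.u (D.c a) x - k * (1 - D.χ a x)

theorem Cov.isOpen_V : IsOpen D.V :=
  isOpen_iff_mem_nhds.2 fun _ ⟨a, ha⟩ => ha.eventually_nhds.mono fun _ hy => ⟨a, hy⟩

theorem Cov.cpt_K (a : ι) : IsCompact (D.K a) :=
  (D.cpt a).image_of_continuousOn ((A.e _).continuousOn.mono fun _ hx => (D.sub a hx).1)

theorem Cov.K_sub (a : ι) : D.K a ⊆ chU A U (D.c a) := by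
  rintro _ ⟨x, hx, rfl⟩
  exact mem_chU (D.sub a hx).1 (D.sub a hx).2

theorem Cov.tsup {a : ι} {x : M} (hx : x ∈ D.O a) : x ∈ tsupport (D.χ a) :=
  subset_tsupport _ (lt_trans (by norm_num) (show 1 / 4 < D.χ a x from hx)).ne'

theorem Cov.mem_O {a : ι} {x : M} (hx : D.χ a x = 1) : x ∈ D.O a := by
  show 1 / 4 < D.χ a x
  rw [hx]; norm_num

theorem Cov.V_sub : D.V ⊆ U := fun _ ⟨a, ha⟩ => (D.sub a (D.tsup (D.mem_O ha.self_of_nhds))).2

variable {H : KP A} {k : ℝ} {G : ι → Cn n → ℝ} {φ : M → ℝ}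

theorem Cov.pc_sm (hG : ∀ a, ContDiff ℝ ∞ (G a)) {a : ι} {x : M} (hx : x ∈ (A.e (D.c a)).source) :
    SmP A (D.pc H k G a) x := by
  have hz := (A.e _).map_source hx
  refine smP_of hx ?_
  refine ((((hG a).contDiffAt).sub (wt_contDiffAt H _ hz)).sub ((contDiffAt_const (c := k)).mul
    ((contDiffAt_const (c := (1 : ℝ))).sub (D.sm a x _ hx)))).congr_of_eventuallyEq ?_
  filter_upwards [(A.e _).open_target.mem_nhds hz] with w hw
  simp only [Cov.pc, (A.e _).right_inv hw, KP.wt]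

/-- the Levi form of a candidate in its own chart -/
theorem Cov.pc_lev (hG : ∀ a, ContDiff ℝ ∞ (G a)) (H' : KP A) {a : ι} {x : M}
    (hx : x ∈ (A.e (D.c a)).source) (w : Cn n) :
    lvE (pot (ad H H') (D.pc H k G a) (D.c a)) (A.e (D.c a) x) w = lvE (G a) (A.e (D.c a) x) w +
      lvE (H'.wt (D.c a)) (A.e (D.c a) x) w +
        k * lvE (inC A (D.c a) (D.χ a)) (A.e (D.c a) x) w := by
  have hz := (A.e _).map_source hx
  have e : pot (ad H H') (D.pc H k G a) (D.c a) =ᶠ[𝓝 (A.e (D.c a) x)]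
      fun z => (G a z + H'.wt (D.c a) z + k * inC A (D.c a) (D.χ a) z) + -k := by
    filter_upwards [(A.e _).open_target.mem_nhds hz] with z hz'
    simp only [pot_apply, Cov.pc, (A.e _).right_inv hz', KP.wt, inC, ad]
    ring
  have h1 : ContDiffAt ℝ ∞ (inC A (D.c a) (D.χ a)) (A.e (D.c a) x) := D.sm a x _ hx
  have h2 := (hG a).contDiffAt.add (wt_contDiffAt H' _ hz)
  rw [lvE_congr e, lvE_add_const (h2.add (contDiffAt_const.mul h1)),
    lvE_add h2 (contDiffAt_const.mul h1), lvE_add (hG a).contDiffAt (wt_contDiffAt H' _ hz),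
    lvE_const_mul h1]

variable [Fintype ι]

/-- the glued function -/
def Cov.vg (H : KP A) (k : ℝ) (G : ι → Cn n → ℝ) (x : M) : ℝ :=
  k / (4 * thr ι) * gl D.O (fun a x => D.pc H k G a x / (k / (4 * thr ι))) x

/-- the candidates are close to `φ` -/
def Cov.Ap (H : KP A) (k : ℝ) (G : ι → Cn n → ℝ) (φ : M → ℝ) : Prop :=
  ∀ a, ∀ x ∈ tsupport (D.χ a), |D.pc H k G a x - (φ x - k * (1 - D.χ a x))| ≤ k / 8

theorem Cov.adm (hk : 0 < k) (hG : ∀ a, ContDiff ℝ ∞ (G a)) (hap : D.Ap H k G φ) {x : M}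
    (hV : x ∈ D.V) {i : A.ι} (hx : x ∈ (A.e i).source) :
    Adm D.O (fun a x => D.pc H k G a x / (k / (4 * thr ι))) (A.e i).symm (A.e i x)
      (fun a => x ∈ D.O a) := by
  have ht : 0 < thr ι := thr_pos ι
  have hc := tendsto_symm hx
  obtain ⟨a₀, h0⟩ := hV
  have h0' : x ∈ D.O a₀ := D.mem_O h0.self_of_nhds
  refine ⟨⟨a₀, h0'⟩, fun a ha => ?_, fun a ha => ?_, fun a ha => ?_⟩
  · exact hc.eventually ((D.sm a x).continuousAt.eventually (lt_mem_nhds ha))
  · exact (D.pc_sm hG (D.sub a (D.tsup ha)).1 i hx).div_const _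
  · have ha' : D.χ a x < 1 / 2 := by
      have : D.χ a x ≤ 1 / 4 := not_lt.1 ha
      linarith
    filter_upwards [hc.eventually ((D.sm a x).continuousAt.eventually (gt_mem_nhds ha')),
      hc.eventually h0] with w hw1 hw2
    by_cases hO : (A.e i).symm w ∈ D.O a
    · refine Or.inr ⟨a₀, h0', ?_⟩
      set y := (A.e i).symm w with hy
      have a1 := (abs_le.1 (hap a y (D.tsup hO))).2
      have a2 := (abs_le.1 (hap a₀ y (D.tsup (D.mem_O hw2)))).1
      rw [hw2] at a2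
      have a3 : D.pc H k G a y + k / 4 ≤ D.pc H k G a₀ y := by
        have : k * D.χ a y ≤ k * (1 / 2) := mul_le_mul_of_nonneg_left hw1.le hk.le
        linarith
      have a5 : 0 < k / (4 * thr ι) := by positivity
      have a4 : thr ι * (k / (4 * thr ι)) = k / 4 := by field_simp
      show D.pc H k G a y / (k / (4 * thr ι)) + thr ι ≤ D.pc H k G a₀ y / (k / (4 * thr ι))
      rw [le_div_iff₀ a5, add_mul, a4, div_mul_cancel₀ _ a5.ne']
      exact a3
    · exact Or.inl hO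

theorem Cov.vg_sm (hk : 0 < k) (hG : ∀ a, ContDiff ℝ ∞ (G a)) (hap : D.Ap H k G φ) {x : M}
    (hV : x ∈ D.V) : SmP A (D.vg H k G) x := fun _ hx =>
  contDiffAt_const.mul (gl_smooth (D.adm hk hG hap hV hx))

theorem Cov.vg_lev (hk : 0 < k) (hG : ∀ a, ContDiff ℝ ∞ (G a)) (hap : D.Ap H k G φ) {x : M}
    (hV : x ∈ D.V) {i : A.ι} (hx : x ∈ (A.e i).source) {s : ℝ} {v : Cn n}
    (hs : ∀ a, x ∈ D.O a → s ≤ lvE (inC A i (D.pc H k G a)) (A.e i x) v) :
    s ≤ lvE (inC A i (D.vg H k G)) (A.e i x) v := by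
  have ht : 0 < thr ι := thr_pos ι
  have hadm := D.adm hk hG hap hV hx
  set c : ℝ := k / (4 * thr ι) with hc
  have hc0 : 0 < c := by positivity
  have h1 := gl_lev hadm (w := v) (K := s / c) (fun a ha => by
    have h2 : ContDiffAt ℝ ∞ (inC A i (D.pc H k G a)) (A.e i x) :=
      D.pc_sm hG (D.sub a (D.tsup ha)).1 i hx
    have e : ((fun x => D.pc H k G a x / c) ∘ (A.e i).symm) =
        fun z => c⁻¹ * inC A i (D.pc H k G a) z := by
      funext w
      simp only [Function.comp_apply, inC]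
      rw [div_eq_inv_mul]
    rw [e, lvE_const_mul h2, div_eq_inv_mul]
    exact mul_le_mul_of_nonneg_left (hs a ha) (by positivity))
  have e : inC A i (D.vg H k G) = fun z => c *
      (gl D.O (fun a x => D.pc H k G a x / c) ∘ (A.e i).symm) z := rfl
  rw [e, lvE_const_mul (gl_smooth hadm)]
  rw [div_le_iff₀ hc0] at h1
  linarith

theorem Cov.vg_near (hk : 0 < k) (hap : D.Ap H k G φ) {x : M} (hV : x ∈ D.V) :
    |D.vg H k G x - φ x| ≤ k := by
  have ht : 0 < thr ι := thr_pos ι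
  set c : ℝ := k / (4 * thr ι) with hc
  have hc0 : 0 < c := by positivity
  obtain ⟨a₀, h0⟩ := hV
  have h0' := h0.self_of_nhds
  have e : D.vg H k G x = c * gl D.O (fun a x => D.pc H k G a x / c) x := rfl
  have h1 := le_gl D.O (fun a x => D.pc H k G a x / c) (D.mem_O h0')
  have h2 := (abs_le.1 (hap a₀ x (D.tsup (D.mem_O h0')))).1
  rw [h0'] at h2
  rw [div_le_iff₀ hc0] at h1
  obtain ⟨a, ha, h3⟩ := gl_le D.O (fun a x => D.pc H k G a x / c) ⟨a₀, D.mem_O h0'⟩
  have h4 := (abs_le.1 (hap a x (D.tsup ha))).2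
  have h5 : c * gl D.O (fun a x => D.pc H k G a x / c) x ≤
      D.pc H k G a x + c * Fintype.card ι := by
    calc c * gl D.O (fun a x => D.pc H k G a x / c) x
        ≤ c * (D.pc H k G a x / c + Fintype.card ι) := mul_le_mul_of_nonneg_left h3 hc0.le
      _ = _ := by field_simp
  have h6 : c * Fintype.card ι ≤ k / 4 := by
    have h7 : (Fintype.card ι : ℝ) ≤ thr ι := by
      unfold thr; linarith [Nat.cast_nonneg (α := ℝ) (Fintype.card ι)]
    calc c * Fintype.card ι ≤ c * thr ι := mul_le_mul_of_nonneg_left h7 hc0.le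
      _ = k / 4 := by rw [hc]; field_simp
  have h8 : 0 ≤ k * (1 - D.χ a x) := mul_nonneg hk.le (sub_nonneg.2 (D.rg a x).2)
  rw [e, abs_le]
  constructor <;> linarith

theorem Cov.vg_congr {G' : ι → Cn n → ℝ} {x : M} (hV : x ∈ D.V)
    (h : ∀ a, x ∈ tsupport (D.χ a) → G a (A.e (D.c a) x) = G' a (A.e (D.c a) x)) :
    D.vg H k G x = D.vg H k G' x := by
  obtain ⟨a₀, h0⟩ := hV
  unfold Cov.vg
  rw [gl_congr (u' := fun a x => D.pc H k G' a x / (k / (4 * thr ι))) ⟨a₀, D.mem_O h0.self_of_nhds⟩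
    fun a ha => by simp only [Cov.pc, h a (D.tsup ha)]]

/-- the bumps are `T ω₀`-psh -/
theorem Cov.exists_T {H₀ : KP A} (h0 : H₀.Pos) : ∃ T : ℝ, 0 ≤ T ∧ ∀ a, ∀ z ∈ D.K a, ∀ w,
    0 ≤ lvE (H₀.wt (D.c a)) z w ∧
      -(T * lvE (H₀.wt (D.c a)) z w) ≤ lvE (inC A (D.c a) (D.χ a)) z w := by
  have key : ∀ a, ∃ T : ℝ, 0 ≤ T ∧ ∀ z ∈ D.K a, ∀ w, 0 ≤ lvE (H₀.wt (D.c a)) z w ∧
      -(T * lvE (H₀.wt (D.c a)) z w) ≤ lvE (inC A (D.c a) (D.χ a)) z w := fun a => by
    have hs : D.K a ⊆ (A.e (D.c a)).target := fun z hz => (D.K_sub a hz).1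
    obtain ⟨C, hC0, hC⟩ := lev_upper (u := inC A (D.c a) (D.χ a)) (A.e _).open_target
      ((sm_iff.2 (D.sm a) (D.c a)).of_le two_le_top) (D.cpt_K a) hs
    obtain ⟨c, hc0, hc⟩ := lev_lower (A.e _).open_target
      ((wt_smooth H₀ (D.c a)).of_le two_le_top) (D.cpt_K a) hs fun z hz v hv => h0 _ z (hs hz) v hv
    refine ⟨C / c, by positivity, fun z hz w => ?_⟩
    have h1 := (abs_le.1 (hC z hz w)).1
    have h2 := hc z hz w
    rw [lev_eq_lvE] at h1 h2
    have h3 : 0 ≤ c * ‖w‖ ^ 2 := by positivity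
    have h4 := mul_le_mul_of_nonneg_left h2 (show 0 ≤ C / c by positivity)
    have h5 : C / c * (c * ‖w‖ ^ 2) = C * ‖w‖ ^ 2 := by field_simp
    exact ⟨by linarith, by linarith⟩
  choose T hT0 hT using key
  refine ⟨∑ a, T a, Finset.sum_nonneg fun a _ => hT0 a, fun a z hz w => ⟨(hT a z hz w).1, ?_⟩⟩
  have h1 : T a ≤ ∑ a, T a := Finset.single_le_sum (fun a _ => hT0 a) (Finset.mem_univ a)
  have h2 := mul_le_mul_of_nonneg_right h1 (hT a z hz w).1
  linarith [(hT a z hz w).2]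

end Sg

open Sg

theorem Sg.exists_cov [T2Space M] {U K : Set M} (hU : IsOpen U) (hK : IsCompact K) (hKU : K ⊆ U) :
    ∃ (ι : Type) (_ : Fintype ι) (D : Cov A ι U), K ⊆ D.V := by
  classical
  choose c hc using A.cover
  have key : ∀ x : K, ∃ χ : M → ℝ, (∀ y, SmP A χ y) ∧ (∀ y, 0 ≤ χ y ∧ χ y ≤ 1) ∧
      (∀ᶠ y in 𝓝 (x : M), χ y = 1) ∧ IsCompact (tsupport χ) ∧
        tsupport χ ⊆ (A.e (c x)).source ∩ U := fun x =>
    exists_bump_point A (((A.e (c x)).open_source.inter hU).mem_nhds ⟨hc x, hKU x.2⟩)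
  choose χ h1 h2 h3 h4 h5 using key
  obtain ⟨t, ht⟩ := hK.elim_nhds_subcover' (fun x hx => {y | ∀ᶠ w in 𝓝 y, χ ⟨x, hx⟩ w = 1})
    fun x hx => (h3 ⟨x, hx⟩).eventually_nhds
  refine ⟨t, inferInstance, ⟨fun a => c a.1, fun a => χ a.1, fun a => h1 a.1, fun a => h2 a.1,
    fun a => h4 a.1, fun a => h5 a.1⟩, fun x hx => ?_⟩
  obtain ⟨a, ha, hxa⟩ := mem_iUnion₂.1 (ht hx)
  exact ⟨⟨a, ha⟩, hxa⟩

/-- **the smoothing operator** -/
theorem exists_smo [T2Space M] {H₀ : KP A} (h0 : H₀.Pos) {U K : Set M} (hU : IsOpen U)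
    (hK : IsCompact K) (hKU : K ⊆ U) :
    ∃ (V : Set M) (S : ℝ → ℕ → KP A → (M → ℝ) → M → ℝ), IsOpen V ∧ K ⊆ V ∧
      IsCompact (closure V) ∧ closure V ⊆ U ∧ Smo H₀ U V S := by
  obtain ⟨ι, _, D, hD⟩ := exists_cov (A := A) hU hK hKU
  obtain ⟨η, e1, -, e3, e4, e5⟩ := exists_bump A hK D.isOpen_V hD
  obtain ⟨T, hT0, hT⟩ := D.exists_T h0
  choose R hR using fun a => exists_mo (isOpen_chU hU (D.c a)) (D.cpt_K a) (D.K_sub a)
  set V : Set M := {x | ∀ᶠ y in 𝓝 x, η y = 1} with hV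
  have hVo : IsOpen V := isOpen_iff_mem_nhds.2 fun _ hx => hx.eventually_nhds
  have hVs : closure V ⊆ tsupport η := closure_mono fun x hx => by
    rw [Function.mem_support, show η x = 1 from hx.self_of_nhds]; exact one_ne_zero
  have hVD : V ⊆ D.V := subset_closure.trans (hVs.trans e5)
  refine ⟨V, fun κ j H φ x => η x * D.vg H (κ / (T + 1)) (fun a => R a j (pot H φ (D.c a))) x, hVo,
    fun x hx => e3.filter_mono (nhds_le_nhdsSet hx), e4.of_isClosed_subset isClosed_closure hVs,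
    hVs.trans (e5.trans D.V_sub), fun H φ hφ κ hκ => ?_, fun H φ ψ hφ hψ L W hL hW hLW h κ _ => ?_⟩
  · have hk : 0 < κ / (T + 1) := by positivity
    have hk1 : κ / (T + 1) ≤ κ := div_le_self hκ.le (by linarith)
    have hk2 : κ / (T + 1) * T ≤ κ := by
      rw [div_mul_eq_mul_div, div_le_iff₀ (by positivity)]; nlinarith
    set k := κ / (T + 1)
    filter_upwards [eventually_all.2 fun a => Metric.tendstoUniformlyOn_iff.1
      ((hR a).lim _ (hφ.cp (D.c a)).1) (k / 8) (by positivity),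
      eventually_all.2 fun a => (hR a).psd _ (hφ.cp (D.c a))] with j hj1 hj2
    set G : ι → Cn n → ℝ := fun a => R a j (pot H φ (D.c a)) with hG'
    have hG : ∀ a, ContDiff ℝ ∞ (G a) := fun a => (hR a).sm j _ (hφ.cp (D.c a)).1
    have hap : D.Ap H k G φ := fun a x hx => by
      have h1 := (hj1 a _ (mem_image_of_mem _ hx)).le
      rw [Real.dist_eq, abs_sub_comm, pot_apply, KP.wt, (A.e _).left_inv (D.sub a hx).1] at h1
      have e : D.pc H k G a x - (φ x - k * (1 - D.χ a x)) =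
          G a (A.e (D.c a) x) - (H.u (D.c a) x + φ x) := by unfold Cov.pc; ring
      rw [e]
      exact h1
    have hsm : ∀ x, SmP A (fun x => η x * D.vg H k G x) x := fun x => by
      by_cases hx : x ∈ tsupport η
      · exact (e1 x).mul (D.vg_sm hk hG hap (e5 hx))
      · refine SmP.congr (f := fun _ => (0 : ℝ)) (fun _ _ => contDiffAt_const) ?_
        filter_upwards [notMem_tsupport_iff_eventuallyEq.1 hx] with y hy
        rw [hy, Pi.zero_apply, zero_mul]
    refine ⟨sm_iff.2 hsm, ⟨hVo, fun x _ => (hsm x).continuousAt.continuousWithinAt, fun i => ?_⟩,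
      fun x hx => ?_⟩
    · refine (cp_of_smooth (isOpen_chU hVo i) fun z hz => ?_).2
      obtain ⟨x, hx, rfl⟩ : ∃ x ∈ (A.e i).source, A.e i x = z :=
        ⟨_, (A.e i).map_target hz.1, (A.e i).right_inv hz.1⟩
      have hxV : x ∈ V := by have := hz.2; rwa [mem_preimage, (A.e i).left_inv hx] at this
      have h1 : ContDiffAt ℝ ∞ (pot (ad H (sc κ H₀)) (fun x => η x * D.vg H k G x) i) (A.e i x) :=
        (wt_contDiffAt _ i hz.1).add (hsm x i hx)
      refine ⟨h1, (psd_iff h1).2 fun w => ?_⟩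
      have e : inC A i (fun x => η x * D.vg H k G x) =ᶠ[𝓝 (A.e i x)] inC A i (D.vg H k G) := by
        filter_upwards [(tendsto_symm hx).eventually hxV] with y hy
        simp only [inC, hy, one_mul]
      have h2 := D.vg_lev hk hG hap (hVD hxV) hx (v := w)
        (s := -lvE ((ad H (sc κ H₀)).wt i) (A.e i x) w) fun a ha => by
          have ht := D.tsup ha
          have hs := (D.sub a ht).1
          have h3 := lvE_pot_tr (ad H (sc κ H₀)) ⟨hx, hs⟩ (D.pc_sm (H := H) (k := k) hG hs) w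
          rw [lvE_pot _ hx (D.pc_sm hG hs), D.pc_lev hG _ hs] at h3
          generalize fderiv ℂ (Tm A i (D.c a)) (A.e i x) w = w' at h3
          have h4 := (psd_iff (hG a).contDiffAt).1 (hj2 a _ (mem_image_of_mem _ ht)) w'
          obtain ⟨h5, h6⟩ := hT a _ (mem_image_of_mem _ ht) w'
          have h7 : lvE ((sc κ H₀).wt (D.c a)) (A.e (D.c a) x) w' =
              κ * lvE (H₀.wt (D.c a)) (A.e (D.c a) x) w' :=
            lvE_const_mul (wt_contDiffAt H₀ _ ((A.e _).map_source hs)) κ w'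
          have h8 := mul_le_mul_of_nonneg_left h6 hk.le
          have h9 := mul_le_mul_of_nonneg_right hk2 h5
          rw [h7] at h3
          nlinarith
      rw [lvE_pot _ hx (hsm x), lvE_congr e]
      linarith
    · rw [show η x = 1 from hx.self_of_nhds, one_mul]
      exact (D.vg_near hk hap (hVD hx)).trans hk1
  · have key : ∀ a, ∀ᶠ j : ℕ in atTop, ∀ x ∈ tsupport (D.χ a), x ∉ W →
        R a j (pot H φ (D.c a)) (A.e (D.c a) x) = R a j (pot H ψ (D.c a)) (A.e (D.c a) x) := by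
      intro a
      have h1 : IsCompact (A.e (D.c a) '' (tsupport (D.χ a) \ W)) :=
        ((D.cpt a).diff hW).image_of_continuousOn
          ((A.e _).continuousOn.mono fun _ hx => (D.sub a hx.1).1)
      obtain ⟨r, hr, h2⟩ := h1.exists_thickening_subset_open
        (isOpen_chU (A := A) hL.isClosed.isOpen_compl (D.c a)) (by
          rintro _ ⟨x, hx, rfl⟩
          exact mem_chU (D.sub a hx.1).1 fun h3 => hx.2 (hLW h3))
      filter_upwards [tendsto_one_div_add_atTop_nhds_zero_nat.eventually (gt_mem_nhds hr)]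
        with j hj x hx hxW
      rw [← sub_eq_zero, ← (hR a).sub j _ _ (hφ.cp _).1 (hψ.cp _).1]
      refine (hR a).zero j _ _ fun y hy hyU => ?_
      have h3 := h2 (mem_thickening_iff.2 ⟨_, mem_image_of_mem _ ⟨hx, hxW⟩, lt_trans hy hj⟩)
      rw [pot_apply, pot_apply, h _ hyU.2 h3.2, sub_self]
    filter_upwards [eventually_all.2 key] with j hj x hx hxW
    rw [D.vg_congr (hVD hx) fun a ha => hj a x ha hxW]

end

end Crest.Agent.X261.BT
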