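import Mathlib

/-!
# X261 / BT (helper64): supermodularity, comparison and contact masses, abstractly

`Tb Q O P μ E` : `Q` = continuous `ω`-psh functions, `O` = obstacles, `P` = envelope, `μ` =
Monge-Ampère measure, `E` = relative energy.
-/

set_option autoImplicit false
set_option linter.unusedSectionVars false

open Set Filter Topology MeasureTheory

noncomputable section

namespace Crest.Agent.X261.BT.Sup

/-- one-sided Riemann sums -/
theorem riemann {F G φ : ℝ → ℝ}
    (hF : ∀ t t', 0 ≤ t → t ≤ t' → t' ≤ 1 → F t' - F t ≤ (t' - t) * φ t)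
    (hG : ∀ t t', 0 ≤ t → t ≤ t' → t' ≤ 1 → (t' - t) * φ t' ≤ G t' - G t) :
    F 1 - F 0 ≤ G 1 - G 0 := by
  have key : ∀ N : ℕ, F 1 - F 0 ≤ G 1 - G 0 + (φ 0 - φ 1) * (1 / ((N : ℝ) + 1)) := by
    intro N
    set δ : ℝ := 1 / ((N : ℝ) + 1) with hδ
    have h0 : 0 < δ := Nat.one_div_pos_of_nat
    have h1 : ((N + 1 : ℕ) : ℝ) * δ = 1 := by rw [hδ]; push_cast; field_simp
    have h2 : ∀ j : ℕ, j ≤ N + 1 → F (j * δ) - F 0 ≤ G (j * δ) - G 0 + (φ 0 - φ (j * δ)) * δ := by
      intro j
      induction j with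
      | zero => simp
      | succ j ih =>
        intro hj
        have h3 : (j : ℝ) * δ ≤ (j + 1 : ℕ) * δ := by push_cast; linarith
        have h4 : ((j + 1 : ℕ) : ℝ) * δ ≤ 1 :=
          h1 ▸ mul_le_mul_of_nonneg_right (by exact_mod_cast hj) h0.le
        have h5 := hF _ _ (by positivity) h3 h4
        have h6 := hG _ _ (by positivity) h3 h4
        have h7 : ((j + 1 : ℕ) : ℝ) * δ - j * δ = δ := by push_cast; ring
        rw [h7] at h5 h6
        linarith [ih (Nat.le_of_succ_le hj)]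
    have h3 := h2 (N + 1) le_rfl
    rwa [h1] at h3
  have h1 := (tendsto_one_div_add_atTop_nhds_zero_nat.const_mul (φ 0 - φ 1)).const_add (G 1 - G 0)
  rw [mul_zero, add_zero] at h1
  exact ge_of_tendsto' h1 key

section meas

variable {X : Type*} [MeasurableSpace X] {α β γ : Measure X}

theorem sub_anti (h : β ≤ γ) : α - γ ≤ α - β :=
  sInf_le_sInf fun _ hd => le_trans hd (add_le_add le_rfl h)

theorem add_le_inf_add (h : α ≤ γ) (h' : β ≤ γ) : α univ + β univ ≤ (α ⊓ β) univ + γ univ := by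
  rw [Measure.inf_apply MeasurableSet.univ, ENNReal.sInf_add, le_iInf₂_iff]
  rintro _ ⟨t, rfl⟩
  have hm := measurableSet_toMeasurable α t
  rw [inter_univ, inter_univ, ← measure_toMeasurable (μ := α) t,
    ← measure_add_measure_compl (μ := α) hm, ← measure_add_measure_compl (μ := β) hm,
    ← measure_add_measure_compl (μ := γ) hm]
  have h1 : β (toMeasurable α t)ᶜ ≤ β tᶜ :=
    measure_mono (compl_subset_compl.2 (subset_toMeasurable _ _))
  calc _ = α (toMeasurable α t) + β (toMeasurable α t)ᶜ +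
        (β (toMeasurable α t) + α (toMeasurable α t)ᶜ) := by ring
    _ ≤ _ := add_le_add (add_le_add le_rfl h1) (add_le_add (h' _) (h _))

theorem map_sub_le {Y : Type*} [MeasurableSpace Y] (e : X ≃ᵐ Y) (α β : Measure X) :
    (α - β).map e ≤ α.map e - β.map e := by
  refine le_sInf fun d hd => ?_
  have h1 := Measure.map_mono hd e.symm.measurable
  rw [Measure.map_add _ _ e.symm.measurable, e.map_symm_map, e.map_symm_map] at h1
  have h2 := Measure.map_mono (Measure.sub_le_of_le_add h1) e.measurable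
  rwa [e.map_map_symm] at h2

theorem map_sub {Y : Type*} [MeasurableSpace Y] (e : X ≃ᵐ Y) (α β : Measure X) :
    (α - β).map e = α.map e - β.map e := by
  refine le_antisymm (map_sub_le e α β) ?_
  have h1 := map_sub_le e.symm (α.map e) (β.map e)
  rw [e.map_symm_map, e.map_symm_map] at h1
  have h2 := Measure.map_mono h1 e.measurable
  rwa [e.map_map_symm] at h2

end meas

variable {M : Type*} [TopologicalSpace M]

/-- equal off a compact set -/
def ce (a b : M → ℝ) : Prop := ∃ K, IsCompact K ∧ ∀ x ∉ K, a x = b x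

section ce

variable {a b c d : M → ℝ}

theorem ce.refl (a : M → ℝ) : ce a a := ⟨∅, isCompact_empty, fun _ _ => rfl⟩

theorem ce.symm (h : ce a b) : ce b a := let ⟨K, h1, h2⟩ := h; ⟨K, h1, fun x hx => (h2 x hx).symm⟩

theorem ce.map₂ (h : ce a b) (h' : ce c d) (f : M → ℝ → ℝ → ℝ) :
    ce (fun x => f x (a x) (c x)) fun x => f x (b x) (d x) :=
  let ⟨K, h1, h2⟩ := h
  let ⟨K', h3, h4⟩ := h'
  ⟨K ∪ K', h1.union h3, fun x hx =>
    congrArg₂ (f x) (h2 x fun h5 => hx (Or.inl h5)) (h4 x fun h5 => hx (Or.inr h5))⟩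

theorem ce.map (h : ce a b) (f : M → ℝ → ℝ) : ce (fun x => f x (a x)) fun x => f x (b x) :=
  h.map₂ h fun x s _ => f x s

theorem ce.trans (h : ce a b) (h' : ce b c) : ce a c :=
  let ⟨K, h1, h2⟩ := h
  let ⟨K', h3, h4⟩ := h'
  ⟨K ∪ K', h1.union h3, fun x hx =>
    (h2 x fun h5 => hx (Or.inl h5)).trans (h4 x fun h5 => hx (Or.inr h5))⟩

theorem ce.of_le (h : ce a b) (h1 : ∀ x, a x ≤ c x) (h2 : ∀ x, c x ≤ b x) : ce c b :=
  let ⟨K, h3, h4⟩ := h; ⟨K, h3, fun x hx => le_antisymm (h2 x) (h4 x hx ▸ h1 x)⟩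

end ce

variable [MeasurableSpace M]

/-- the toolbox -/
structure Tb (Q O : (M → ℝ) → Prop) (P : (M → ℝ) → M → ℝ) (μ : (M → ℝ) → Measure M)
    (E : (M → ℝ) → (M → ℝ) → ℝ) : Prop where
  cont : ∀ {a}, Q a → Continuous a
  seg : ∀ {a b t}, Q a → Q b → 0 ≤ t → t ≤ 1 → Q fun x => b x + t * (a x - b x)
  max : ∀ {a b}, Q a → Q b → Q fun x => max (a x) (b x)
  addc : ∀ {a}, Q a → ∀ c, Q fun x => a x + c
  O_cont : ∀ {v}, O v → Continuous v
  O_le : ∀ {v w}, O v → Continuous w → (∀ x, v x ≤ w x) → ce v w → O w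
  P_mem : ∀ {v}, O v → Q (P v)
  P_ce : ∀ {v}, O v → ce (P v) v
  P_le : ∀ {f v}, Q f → (∀ x, f x ≤ v x) → ∀ x, P v x ≤ v x
  le_P : ∀ {f v}, Q f → (∀ x, f x ≤ v x) → ∀ x, f x ≤ P v x
  O_bar : ∀ {v}, O v → ∃ f, Q f ∧ ∀ x, f x ≤ v x
  fin : ∀ {a}, Q a → ∀ K, IsCompact K → μ a K < ⊤
  contact : ∀ {u v}, Q u → Q v → (∀ x, u x ≤ v x) → (μ u).restrict {x | u x = v x} ≤ μ v
  loc : ∀ {a b U}, Q a → Q b → IsOpen U → (∀ x ∈ U, a x = b x) →
    (μ a).restrict U = (μ b).restrict U
  mass : ∀ {a b K}, Q a → Q b → IsCompact K → (∀ x ∉ K, a x = b x) → μ a K = μ b K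
  mu_addc : ∀ {a}, Q a → ∀ c, μ (fun x => a x + c) = μ a
  add : ∀ {a b c}, Q a → Q b → Q c → ce a b → ce b c → E a b + E b c = E a c
  le_er : ∀ {a b}, Q a → Q b → ce a b → ∫ x, (a x - b x) ∂μ a ≤ E a b
  er_le : ∀ {a b}, Q a → Q b → ce a b → E a b ≤ ∫ x, (a x - b x) ∂μ b
  shift : ∀ {a b}, Q a → Q b → ce a b → ∀ c, E (fun x => a x + c) (fun x => b x + c) = E a b
  off : ∀ {v}, O v → μ (P v) {x | P v x < v x} = 0

/-- the part of the Monge-Ampère measure of `w` on the contact set with `o` -/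
def zt (μ : (M → ℝ) → Measure M) (o w : M → ℝ) : Measure M := (μ w).restrict {x | w x = o x}

/-- the mass swept away -/
def xi (μ : (M → ℝ) → Measure M) (o w : M → ℝ) : Measure M := μ o - zt μ o w

namespace Tb

variable [T2Space M] [BorelSpace M] {Q O : (M → ℝ) → Prop} {P : (M → ℝ) → M → ℝ}
  {μ : (M → ℝ) → Measure M} {E : (M → ℝ) → (M → ℝ) → ℝ} (T : Tb Q O P μ E)
  {a b c f g u v w o : M → ℝ}
include T

theorem int (hu : Q u) (hf : Continuous f) (hg : Continuous g) (h : ce f g) :
    Integrable (fun x => f x - g x) (μ u) := by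
  have : IsFiniteMeasureOnCompacts (μ u) := ⟨fun K hK => T.fin hu K hK⟩
  obtain ⟨K, h1, h2⟩ := h
  exact (hf.sub hg).integrable_of_hasCompactSupport
    (HasCompactSupport.intro h1 fun x hx => sub_eq_zero.2 (h2 x hx))

theorem subc (ha : Q a) (c : ℝ) : Q fun x => a x - c := by
  simpa only [sub_eq_add_neg] using T.addc ha (-c)

theorem er_self (ha : Q a) : E a a = 0 :=
  le_antisymm (by simpa using T.er_le ha ha (.refl a)) (by simpa using T.le_er ha ha (.refl a))

theorem er_neg (ha : Q a) (hb : Q b) (h : ce a b) : E b a = -E a b := by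
  linarith [T.add ha hb ha h h.symm, T.er_self ha]

theorem er_sub (ha : Q a) (hb : Q b) (hc : Q c) (h : ce a c) (h' : ce b c) :
    E a c - E b c = E a b := by
  linarith [T.add ha hb hc (h.trans h'.symm) h']

theorem er_nonneg (ha : Q a) (hb : Q b) (h : ce a b) (hle : ∀ x, b x ≤ a x) : 0 ≤ E a b :=
  (integral_nonneg fun x => sub_nonneg.2 (hle x)).trans (T.le_er ha hb h)

theorem env_le (hv : O v) (x : M) : P v x ≤ v x :=
  let ⟨_, h1, h2⟩ := T.O_bar hv; T.P_le h1 h2 x

theorem env_self (ha : Q a) : P a = a :=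
  funext fun x => le_antisymm (T.P_le ha (fun _ => le_rfl) x) (T.le_P ha (fun _ => le_rfl) x)

theorem env_eq (ha : Q a) (h : ∀ x, v x = a x) : P v = a := by
  rw [show v = a from funext h, T.env_self ha]

theorem env_mono (hv : O v) (h : ∀ x, v x ≤ w x) (x : M) : P v x ≤ P w x :=
  T.le_P (T.P_mem hv) (fun y => (T.env_le hv y).trans (h y)) x

/-- `P (min a (P g)) = P (min a g)` -/
theorem env_min_env (h : O fun x => min (a x) (g x)) (h' : O fun x => min (a x) (P g x)) :
    P (fun x => min (a x) (P g x)) = P fun x => min (a x) (g x) := by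
  have h1 := T.env_le h
  have h2 : ∀ x, P (fun x => min (a x) (g x)) x ≤ g x := fun x => (h1 x).trans (min_le_right _ _)
  exact funext fun x => le_antisymm
    (T.env_mono h' (fun y => min_le_min le_rfl (T.P_le (T.P_mem h) h2 y)) x)
    (T.le_P (T.P_mem h) (fun y => le_min ((h1 y).trans (min_le_left _ _))
      (T.le_P (T.P_mem h) h2 y)) x)

theorem ae_contact (hv : O v) : ∀ᵐ x ∂μ (P v), P v x = v x :=
  measure_mono_null (fun x hx => lt_of_le_of_ne (T.env_le hv x) hx) (T.off hv)

theorem meas_eq (ha : Continuous a) (hb : Continuous b) : MeasurableSet {x | a x = b x} :=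
  (isClosed_eq ha hb).measurableSet

theorem contact_apply (hu : Q u) (hv : Q v) (h : ∀ x, u x ≤ v x) {S : Set M}
    (hS : ∀ x ∈ S, u x = v x) : μ u S ≤ μ v S := by
  have h1 := T.contact hu hv h S
  rwa [Measure.restrict_eq_self _ (show S ⊆ {x | u x = v x} from hS)] at h1

/-- **one step**: raising an envelope costs at most the gain on the contact set -/
theorem step (hv : O v) (hc : Q c) (hcv : ce c v) {S : Set M} (hS : MeasurableSet S)
    {ν : Measure M} (hν : (μ (P v)).restrict (S ∩ {x | P v x = v x}) ≤ ν) (hg : Integrable g ν)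
    (hg0 : ∀ x, 0 ≤ g x) (hoff : ∀ x ∉ S, c x ≤ v x) (hon : ∀ x ∈ S, c x - v x ≤ g x) :
    E c (P v) ≤ ∫ x, g x ∂ν := by
  have hP := T.P_mem hv
  have h1 := hcv.trans (T.P_ce hv).symm
  have h2 := hS.inter (T.meas_eq (T.cont hP) (T.O_cont hv))
  refine (T.er_le hc hP h1).trans (le_trans ?_
    (integral_mono_measure hν (Eventually.of_forall hg0) hg))
  rw [← integral_indicator h2]
  refine integral_mono_ae (T.int hP (T.cont hc) (T.cont hP) h1)
    ((integrable_indicator_iff h2).2 (hg.mono_measure hν)) ?_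
  filter_upwards [T.ae_contact hv] with x hx
  by_cases h3 : x ∈ S
  · rw [indicator_of_mem (show x ∈ S ∩ {x | P v x = v x} from ⟨h3, hx⟩), hx]
    exact hon x h3
  · rw [indicator_of_notMem fun h4 => h3 h4.1, hx]
    exact sub_nonpos.2 (hoff x h3)

/-- **contraction** -/
theorem contr (ha : Q a) (hb : Q b) (hab : ce a b) (hle : ∀ x, b x ≤ a x) (hg : Continuous g)
    (hO : O fun x => min (b x) (g x)) :
    E (P fun x => min (a x) (g x)) (P fun x => min (b x) (g x)) ≤ E a b := by
  let bt : ℝ → M → ℝ := fun t x => b x + t * (a x - b x)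
  let vt : ℝ → M → ℝ := fun t x => min (bt t x) (g x)
  have h0 : ∀ t, ce (bt t) b := fun t => by
    simpa using hab.map fun x s => b x + t * (s - b x)
  have h1 : ∀ t t', ce (vt t) (vt t') := fun t t' =>
    ((h0 t).trans (h0 t').symm).map fun x s => min s (g x)
  have h2 : bt 0 = b := funext fun x => by simp [bt]
  have h3 : bt 1 = a := funext fun x => by simp [bt]
  have h4 : ∀ t, 0 ≤ t → t ≤ 1 → O (vt t) := fun t ht ht' =>
    T.O_le hO ((T.cont (T.seg ha hb ht ht')).min hg) (fun x => min_le_min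
      (le_add_of_nonneg_right (mul_nonneg ht (sub_nonneg.2 (hle x)))) le_rfl)
      ((h0 t).symm.map fun x s => min s (g x))
  have h5 : ∀ t, 0 ≤ t → t ≤ 1 → ce (P (vt t)) (P (vt 0)) := fun t ht ht' =>
    ((T.P_ce (h4 t ht ht')).trans (h1 t 0)).trans (T.P_ce (h4 0 le_rfl zero_le_one)).symm
  have h6 := riemann (F := fun t => E (P (vt t)) (P (vt 0))) (G := fun t => E (bt t) b)
    (φ := fun t => ∫ x, (a x - b x) ∂μ (bt t)) (fun t t' ht htt ht' => ?_)
    fun t t' ht htt ht' => ?_
  · simp only [vt, h2, h3] at h6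
    rwa [T.er_self hb, T.er_self (T.P_mem hO), sub_zero, sub_zero] at h6
  · have k1 := h4 t ht (htt.trans ht')
    have k2 := h4 t' (ht.trans htt) ht'
    have k3 := T.seg ha hb ht (htt.trans ht')
    rw [T.er_sub (T.P_mem k2) (T.P_mem k1) (T.P_mem (h4 0 le_rfl zero_le_one))
      (h5 t' (ht.trans htt) ht') (h5 t ht (htt.trans ht')), ← integral_const_mul]
    refine T.step k1 (T.P_mem k2) ((T.P_ce k2).trans (h1 t' t))
      (T.meas_eq (T.O_cont k1) (T.cont k3))
      ((Measure.restrict_mono (fun x hx => hx.2.trans hx.1) le_rfl).trans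
        (T.contact (T.P_mem k1) k3 fun x => (T.env_le k1 x).trans (min_le_left _ _)))
      ((T.int k3 (T.cont ha) (T.cont hb) hab).const_mul _)
      (fun x => mul_nonneg (sub_nonneg.2 htt) (sub_nonneg.2 (hle x))) (fun x hx => ?_)
      fun x hx => ?_
    · exact (T.env_le k2 x).trans ((min_le_right _ _).trans
        ((min_choice (bt t x) (g x)).resolve_left hx).ge)
    · have k4 : vt t x = bt t x := hx
      have k5 : P (vt t') x ≤ bt t' x := (T.env_le k2 x).trans (min_le_left _ _)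
      simp only [bt] at k4 k5
      rw [k4]
      linarith
  · have k1 := T.seg ha hb ht (htt.trans ht')
    have k2 := T.seg ha hb (ht.trans htt) ht'
    rw [T.er_sub k2 k1 hb (h0 t') (h0 t), ← integral_const_mul]
    refine le_trans (le_of_eq ?_) (T.le_er k2 k1 ((h0 t').trans (h0 t).symm))
    exact integral_congr_ae (Eventually.of_forall fun x => by ring)

/-- **shifted supermodularity** -/
theorem supmod (ha : Q a) (hb : Q b) (s : ℝ) (hc : ce (fun x => Max.max (b x) (a x - s)) b)
    (hO : O fun x => min (a x) (b x + s)) :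
    E a (P fun x => min (a x) (b x + s)) ≤ E (fun x => Max.max (b x) (a x - s)) b := by
  have hm := T.max hb (T.subc ha s)
  have h1 := T.contr (T.addc hm s) (T.addc hb s) (hc.map fun _ r => r + s)
    (fun x => add_le_add (le_max_left _ _) le_rfl) (T.cont ha) (by simpa only [min_comm] using hO)
  rw [T.shift hm hb hc, T.env_eq ha fun x => min_eq_right
    (sub_le_iff_le_add.1 (le_max_right _ _))] at h1
  simpa only [min_comm] using h1

/-- **comparison principle** -/
theorem comparison (hu : Q u) (hv : Q v) {K : Set M} (hK : IsCompact K)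
    (h : ∀ x ∉ K, v x ≤ u x) : μ v {x | u x < v x} ≤ μ u {x | u x < v x} := by
  have hw := T.max hu hv
  have hA : MeasurableSet {x | u x < v x} := (isOpen_lt (T.cont hu) (T.cont hv)).measurableSet
  have hAK : {x | u x < v x} ⊆ K := fun x hx => by_contra fun h1 => (h x h1).not_gt hx
  have h1 := T.contact_apply hv hw (fun _ => le_max_right _ _) (S := {x | u x < v x})
    fun x hx => (max_eq_right (le_of_lt hx)).symm
  have h2 := T.contact_apply hu hw (fun _ => le_max_left _ _) (S := K \ {x | u x < v x})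
    fun x hx => (max_eq_left (not_lt.1 hx.2)).symm
  have h3 := T.mass hw hu hK fun x hx => max_eq_left (h x hx)
  rw [← measure_inter_add_sdiff K hA, ← measure_inter_add_sdiff K hA,
    inter_eq_right.2 hAK] at h3
  exact ENNReal.le_of_add_le_add_right ((measure_mono sdiff_subset).trans_lt (T.fin hu K hK)).ne
    ((add_le_add h1 h2).trans h3.le)

/-- truncation keeps the mass below the level -/
theorem mass_trunc (hf : Q f) (hg : Q g) {K : Set M} (hK : IsCompact K) (h : ∀ x ∉ K, g x < f x) :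
    μ (fun x => Max.max (f x) (g x)) {x | f x ≤ g x} = μ f {x | f x ≤ g x} := by
  have hw := T.max hf hg
  have hU := isOpen_lt (T.cont hg) (T.cont hf)
  have h1 := T.loc hw hf hU fun x hx => max_eq_left (le_of_lt hx)
  have h2 := T.mass hw hf hK fun x hx => max_eq_left (h x hx).le
  have h3 : K \ {x | g x < f x} = {x | f x ≤ g x} := by
    ext x
    exact ⟨fun hx => not_lt.1 (show ¬ g x < f x from hx.2), fun hx =>
      ⟨by_contra fun h4 => (h x h4).not_ge hx, fun h4 : g x < f x => h4.not_ge hx⟩⟩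
  rw [← measure_inter_add_sdiff K hU.measurableSet, ← measure_inter_add_sdiff K hU.measurableSet,
    ← Measure.restrict_apply hK.measurableSet, ← Measure.restrict_apply hK.measurableSet, h1,
    h3] at h2
  exact (ENNReal.add_right_inj ((Measure.restrict_le_self K).trans_lt (T.fin hf K hK)).ne).1 h2

/-! ### the swept mass -/

theorem zt_mono {w' : M → ℝ} (hw : Q w) (hw' : Q w') (h : ∀ x, w x ≤ w' x) (h' : ∀ x, w' x ≤ o x)
    (ho : Continuous o) : zt μ o w ≤ zt μ o w' := by
  have h1 := Measure.restrict_mono (subset_refl {x | w' x = o x}) (T.contact hw hw' h)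
  rw [Measure.restrict_restrict (T.meas_eq (T.cont hw') ho)] at h1
  refine (Measure.restrict_mono (fun x hx => ?_) le_rfl).trans h1
  have h2 : w' x = o x := le_antisymm (h' x) (hx ▸ h x)
  exact ⟨h2, hx.trans h2.symm⟩

theorem zt_le (ho : Q o) (hw : Q w) (h : ∀ x, w x ≤ o x) : zt μ o w ≤ μ o := T.contact hw ho h

omit T in
theorem xi_le (μ : (M → ℝ) → Measure M) (o w : M → ℝ) : xi μ o w ≤ μ o := Measure.sub_le

/-- the swept mass is monotone -/
theorem xi_anti {w' : M → ℝ} (hw : Q w) (hw' : Q w') (h : ∀ x, w x ≤ w' x) (h' : ∀ x, w' x ≤ o x)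
    (ho : Continuous o) : xi μ o w' ≤ xi μ o w := sub_anti (T.zt_mono hw hw' h h' ho)

theorem xi_off (ho : Q o) (hw : Q w) {K : Set M} (hK : IsClosed K) (h : ∀ x ∉ K, w x = o x) :
    (xi μ o w).restrict Kᶜ = 0 := by
  have hm := hK.isOpen_compl.measurableSet
  rw [xi, Measure.restrict_sub_eq_restrict_sub_restrict hm, zt, Measure.restrict_restrict hm,
    inter_eq_left.2 (show Kᶜ ⊆ {x | w x = o x} from h), T.loc hw ho hK.isOpen_compl h,
    Measure.sub_self]

theorem xi_add_zt (ho : Q o) (hw : Q w) (h : ∀ x, w x ≤ o x) (hc : ce w o) :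
    xi μ o w + zt μ o w = μ o := by
  obtain ⟨K, hK, h1⟩ := hc
  have hm := hK.measurableSet
  have h2 := Measure.restrict_mono (subset_refl K) (T.zt_le ho hw h)
  have : IsFiniteMeasure ((zt μ o w).restrict K) :=
    ⟨(h2 _).trans_lt (by rw [Measure.restrict_apply_univ]; exact T.fin ho K hK)⟩
  rw [← Measure.restrict_add_restrict_compl (μ := _ + _) hm,
    ← Measure.restrict_add_restrict_compl (μ := μ o) hm, Measure.restrict_add,
    Measure.restrict_add, T.xi_off ho hw hK.isClosed h1, zero_add, xi,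
    Measure.restrict_sub_eq_restrict_sub_restrict hm, Measure.sub_add_cancel_of_le h2, zt,
    Measure.restrict_restrict hm.compl, inter_eq_left.2 (show Kᶜ ⊆ {x | w x = o x} from h1),
    T.loc hw ho hK.isClosed.isOpen_compl h1]

theorem lt_top (hu : Q u) (hc : ce w o) : μ u {x | w x < o x} < ⊤ := by
  obtain ⟨K, hK, h1⟩ := hc
  exact (measure_mono fun x hx => by_contra fun h2 => (h1 x h2).not_lt hx).trans_lt (T.fin hu K hK)

/-- the total swept mass -/
theorem xi_univ (ho : Q o) (hw : Q w) (h : ∀ x, w x ≤ o x) (hc : ce w o) :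
    xi μ o w univ = μ w {x | w x < o x} := by
  have h0 := T.xi_add_zt ho hw h hc
  obtain ⟨K, hK, h1⟩ := hc
  have hm := hK.measurableSet
  have h2 : xi μ o w K + μ w (K ∩ {x | w x = o x}) = μ o K := by
    rw [← h0, Measure.add_apply, zt, Measure.restrict_apply hm]
  have h3 : K \ {x | w x = o x} = {x | w x < o x} := by
    ext x
    exact ⟨fun hx => lt_of_le_of_ne (h x) hx.2, fun hx =>
      ⟨by_contra fun h4 => (h1 x h4).not_lt hx, ne_of_lt hx⟩⟩
  rw [← T.mass hw ho hK h1,
    ← measure_inter_add_sdiff (μ := μ w) K (T.meas_eq (T.cont hw) (T.cont ho)), h3, add_comm] at h2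
  rw [← measure_add_measure_compl hm, ← Measure.restrict_apply_univ Kᶜ,
    T.xi_off ho hw hK.isClosed h1, Measure.coe_zero, Pi.zero_apply, add_zero]
  exact (ENNReal.add_right_inj ((measure_mono inter_subset_left).trans_lt (T.fin hw K hK)).ne).1 h2

theorem xi_fin (ho : Q o) (hw : Q w) (h : ∀ x, w x ≤ o x) (hc : ce w o) :
    IsFiniteMeasure (xi μ o w) := ⟨by rw [T.xi_univ ho hw h hc]; exact T.lt_top hw hc⟩

omit T in
/-- equivariance -/
theorem xi_map (γ : M ≃ₜ M) (ho : μ (fun x => o (γ x)) = (μ o).map γ.symm)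
    (hw : μ (fun x => w (γ x)) = (μ w).map γ.symm) :
    xi μ (fun x => o (γ x)) (fun x => w (γ x)) = (xi μ o w).map γ.symm := by
  have h1 := map_sub γ.symm.toMeasurableEquiv (μ o) (zt μ o w)
  have h2 := γ.symm.toMeasurableEquiv.restrict_map (μ w) {x | w (γ x) = o (γ x)}
  simp only [Homeomorph.toMeasurableEquiv_coe] at h1 h2
  rw [xi, xi, h1, ho, zt, zt, hw, h2]
  simp

theorem xi_real (ho : Q o) (hw : Q w) (h : ∀ x, w x ≤ o x) (hc : ce w o) :
    (xi μ o w).real univ = (μ w).real {x | w x < o x} :=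
  congrArg ENNReal.toReal (T.xi_univ ho hw h hc)

/-- (K5) raising by at most `s` costs at most `s` times the swept mass -/
theorem k5 (ho : Q o) (ha : Q a) (hc : Q c) (hao : ∀ x, a x ≤ o x) (hco : ∀ x, c x ≤ o x)
    (ca : ce a o) (cc : ce c o) {s : ℝ} (hs : ∀ x, c x ≤ a x + s) :
    E c a ≤ s * (xi μ o a).real univ := by
  have hA : MeasurableSet {x | a x < o x} := (isOpen_lt (T.cont ha) (T.cont ho)).measurableSet
  refine (T.er_le hc ha (cc.trans ca.symm)).trans ?_
  rw [T.xi_real ho ha hao ca, mul_comm, ← smul_eq_mul, ← integral_indicator_const _ hA]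
  refine integral_mono (T.int ha (T.cont hc) (T.cont ha) (cc.trans ca.symm))
    ((integrable_indicator_iff hA).2 (integrableOn_const (T.lt_top ha ca).ne)) fun x => ?_
  have k1 := hs x
  have k2 := hco x
  simp only [indicator, mem_ofPred_eq]
  split_ifs <;> linarith

/-- (K1) the new swept mass is paid by the energy -/
theorem k1 (ho : Q o) (hb : Q b) (hbo : ∀ x, b x ≤ o x) (cb : ce b o) (hw : Q w) (cw : ce w b)
    (hwb : ∀ x, w x ≤ b x) {s : ℝ} (hs : 0 ≤ s) (hg : ∀ x, w x + s ≤ g x)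
    (hO : O fun x => min (b x) (g x)) :
    s * ((xi μ o (P fun x => min (b x) (g x))).real univ - (xi μ o b).real univ) ≤
      E (P fun x => min (b x) (g x)) w := by
  set W := P fun x => min (b x) (g x)
  have hW : Q W := T.P_mem hO
  have h1 : ∀ x, w x ≤ W x := T.le_P hw fun x => le_min (hwb x) (by linarith [hg x])
  have h2 : ∀ x, W x ≤ b x := fun x => (T.env_le hO x).trans (min_le_left _ _)
  have h3 : ce W b := cw.of_le h1 h2
  have hB : MeasurableSet {x | W x < b x} := (isOpen_lt (T.cont hW) (T.cont hb)).measurableSet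
  have fB := (T.lt_top hW h3).ne
  have h4 : μ W {x | W x < o x} ≤ μ W {x | W x < b x} + μ b {x | b x < o x} := by
    refine (measure_mono (t := {x | W x < b x} ∪ ({x | b x < o x} ∩ {x | W x = b x}))
      fun x hx => (h2 x).lt_or_eq.imp id fun h5 : W x = b x => ⟨h5.symm.trans_lt hx, h5⟩).trans
      ((measure_union_le _ _).trans (add_le_add le_rfl ?_))
    exact (T.contact_apply hW hb h2 fun x hx => hx.2).trans (measure_mono inter_subset_left)
  have h5 := ENNReal.toReal_mono (ENNReal.add_ne_top.2 ⟨fB, (T.lt_top hb cb).ne⟩) h4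
  rw [ENNReal.toReal_add fB (T.lt_top hb cb).ne] at h5
  rw [T.xi_real ho hW (fun x => (h2 x).trans (hbo x)) (h3.trans cb), T.xi_real ho hb hbo cb]
  refine (mul_le_mul_of_nonneg_left (sub_le_iff_le_add.2 h5) hs).trans
    (le_trans ?_ (T.le_er hW hw (h3.trans cw.symm)))
  rw [← measureReal_def, mul_comm, ← smul_eq_mul, ← integral_indicator_const _ hB]
  refine integral_mono_ae ((integrable_indicator_iff hB).2 (integrableOn_const fB))
    (T.int hW (T.cont hW) (T.cont hw) (h3.trans cw.symm)) ?_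
  filter_upwards [T.ae_contact hO] with x hx
  by_cases h6 : x ∈ {x | W x < b x}
  · have h7 : W x = g x := hx.trans ((min_choice _ _).resolve_left fun h7 =>
      (hx.trans h7).not_lt h6)
    rw [indicator_of_mem h6]
    linarith [hg x]
  · rw [indicator_of_notMem h6]
    exact sub_nonneg.2 (h1 x)

theorem xi_self (ho : Q o) : xi μ o o = 0 := by
  rw [← Measure.measure_univ_eq_zero, T.xi_univ ho ho (fun _ => le_rfl) (.refl o)]
  simp

/-- the swept mass of `P (min o (f + s))` is paid by the energy -/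
theorem xi_env_le (ho : Q o) (hf : Q f) (h : ∀ x, f x ≤ o x) (hc : ce f o) {s : ℝ} (hs : 0 ≤ s)
    (hO : O fun x => min (o x) (f x + s)) :
    s * (xi μ o (P fun x => min (o x) (f x + s))).real univ ≤
      E (P fun x => min (o x) (f x + s)) f := by
  simpa [T.xi_self ho] using
    T.k1 ho ho (fun _ => le_rfl) (.refl o) hf hc h hs (fun _ => le_rfl) hO

/-- upper bound for the energy gained by a shift -/
theorem er_env_le (ho : Q o) (hf : Q f) (h : ∀ x, f x ≤ o x) (hc : ce f o) {s S : ℝ} (hs : 0 ≤ s)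
    (hS : 0 < S) (hO : O fun x => min (o x) (f x + s)) :
    E (P fun x => min (o x) (f x + s)) f ≤
      s * (μ f).real {x | f x ≤ o x - S} + S * (xi μ o f).real univ := by
  set ψ := P fun x => min (o x) (f x + s)
  have hψ : Q ψ := T.P_mem hO
  have h1 : ∀ x, f x ≤ ψ x := T.le_P hf fun x => le_min (h x) (le_add_of_nonneg_right hs)
  have h2 : ∀ x, ψ x ≤ o x := fun x => (T.env_le hO x).trans (min_le_left _ _)
  have h2' : ∀ x, ψ x ≤ f x + s := fun x => (T.env_le hO x).trans (min_le_right _ _)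
  have h3 : ce ψ f := (hc.of_le h1 h2).trans hc.symm
  have hA : MeasurableSet {x | f x < o x} := (isOpen_lt (T.cont hf) (T.cont ho)).measurableSet
  have hB : MeasurableSet {x | f x ≤ o x - S} :=
    (isClosed_le (T.cont hf) (T.cont (T.subc ho S))).measurableSet
  have hA' := (integrable_indicator_iff hA).2 (integrableOn_const (C := S) (T.lt_top hf hc).ne)
  have hB' := (integrable_indicator_iff hB).2 (integrableOn_const (C := s)
    ((measure_mono (μ := μ f) fun x hx => (show f x < o x from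
      lt_of_le_of_lt hx (sub_lt_self _ hS))).trans_lt (T.lt_top hf hc)).ne)
  refine (T.er_le hψ hf h3).trans ?_
  rw [T.xi_real ho hf h hc, mul_comm, mul_comm S,
    ← smul_eq_mul, ← smul_eq_mul, ← integral_indicator_const _ hA, ← integral_indicator_const _ hB,
    ← integral_add hB' hA']
  refine integral_mono (T.int hf (T.cont hψ) (T.cont hf) h3) (hB'.add hA') fun x => ?_
  have k1 := h2 x
  have k2 := h2' x
  have k3 := h x
  simp only [indicator, mem_ofPred_eq]
  split_ifs <;> linarith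

/-- inclusion-exclusion for swept masses -/
theorem xi_inf (ho : Q o) (ha : Q a) (hb : Q b) (hw : Q w) (hao : ∀ x, a x ≤ o x)
    (hbo : ∀ x, b x ≤ o x) (hwa : ∀ x, w x ≤ a x) (hwb : ∀ x, w x ≤ b x) (cw : ce w o) :
    (xi μ o a).real univ + (xi μ o b).real univ ≤
      (xi μ o a ⊓ xi μ o b).real univ + (xi μ o w).real univ := by
  have := T.xi_fin ho ha hao (cw.of_le hwa hao)
  have := T.xi_fin ho hb hbo (cw.of_le hwb hbo)
  have := T.xi_fin ho hw (fun x => (hwa x).trans (hao x)) cw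
  have fm : (xi μ o a ⊓ xi μ o b) univ ≠ ⊤ :=
    ne_top_of_le_ne_top (measure_ne_top _ _) (inf_le_left (α := Measure M) _)
  have h := ENNReal.toReal_mono (ENNReal.add_ne_top.2 ⟨fm, measure_ne_top _ _⟩) (add_le_inf_add
    (T.xi_anti hw ha hwa hao (T.cont ho)) (T.xi_anti hw hb hwb hbo (T.cont ho)))
  rwa [ENNReal.toReal_add (measure_ne_top _ _) (measure_ne_top _ _),
    ENNReal.toReal_add fm (measure_ne_top _ _)] at h

/-- **overlap**: the swept masses of `ψ` and `χ ≤ v` overlap if `v` is cheap against `ψ` -/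
theorem overlap {ψ χ : M → ℝ} (ho : Q o) (hO : ∀ w, Continuous w → ce w o → O w) (hψ : Q ψ)
    (hχ : Q χ) (hv : Q v) (hψo : ∀ x, ψ x ≤ o x) (hvo : ∀ x, v x ≤ o x) (hχv : ∀ x, χ x ≤ v x)
    (cψ : ce ψ o) (cχ : ce χ o) {S : ℝ} (hS : 0 ≤ S) (hSv : ∀ x, o x - S ≤ v x) :
    E o v ≤ E ψ (P fun x => min (ψ x) (v x)) + S * (xi μ o ψ ⊓ xi μ o χ).real univ := by
  have cv : ce v o := cχ.of_le hχv hvo
  set m := (xi μ o ψ ⊓ xi μ o χ).real univ
  have k0 : ∀ a, ce a o → (∀ x, a x ≤ o x) → ∀ t, 0 ≤ t → ce (fun x => min (a x) (v x + t * S)) o :=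
    fun a ca ha t ht => ce.of_le (by simpa using ca.map₂ cv fun _ r r' => min r r')
      (fun x => min_le_min le_rfl (le_add_of_nonneg_right (mul_nonneg ht hS)))
      fun x => (min_le_left _ _).trans (ha x)
  have k1 : ∀ a, Q a → ce a o → (∀ x, a x ≤ o x) → ∀ t, 0 ≤ t →
      O fun x => min (a x) (v x + t * S) := fun a ha ca ha' t ht =>
    hO _ ((T.cont ha).min (T.cont (T.addc hv _))) (k0 a ca ha' t ht)
  let U : ℝ → M → ℝ := fun t => P fun x => min (o x) (v x + t * S)
  let W : ℝ → M → ℝ := fun t => P fun x => min (ψ x) (v x + t * S)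
  have oU := k1 o ho (.refl o) fun _ => le_rfl
  have oW := k1 ψ hψ cψ hψo
  have qU : ∀ t, 0 ≤ t → Q (U t) := fun t ht => T.P_mem (oU t ht)
  have qW : ∀ t, 0 ≤ t → Q (W t) := fun t ht => T.P_mem (oW t ht)
  have cU : ∀ t, 0 ≤ t → ce (U t) o := fun t ht =>
    (T.P_ce (oU t ht)).trans (k0 o (.refl o) (fun _ => le_rfl) t ht)
  have cW : ∀ t, 0 ≤ t → ce (W t) o := fun t ht => (T.P_ce (oW t ht)).trans (k0 ψ cψ hψo t ht)
  have lU : ∀ t, 0 ≤ t → ∀ x, U t x ≤ o x := fun t ht x =>
    (T.env_le (oU t ht) x).trans (min_le_left _ _)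
  have lW : ∀ t, 0 ≤ t → ∀ x, W t x ≤ ψ x := fun t ht x =>
    (T.env_le (oW t ht) x).trans (min_le_left _ _)
  have e1 : U 1 = o := T.env_eq ho fun x => min_eq_left (by linarith [hSv x])
  have e2 : U 0 = v := T.env_eq hv fun x => by rw [zero_mul, add_zero, min_eq_right (hvo x)]
  have e3 : W 1 = ψ := T.env_eq hψ fun x => min_eq_left (by linarith [hSv x, hψo x])
  have e4 : W 0 = P fun x => min (ψ x) (v x) := by simp only [W, zero_mul, add_zero]
  have h6 := riemann (F := fun t => E (U t) (U 0)) (G := fun t => E (W t) (W 0) + t * (S * m))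
    (φ := fun t => S * (xi μ o (U t)).real univ) (fun t t' ht htt _ => ?_) fun t t' ht htt _ => ?_
  · simp only [T.er_self (qU 0 le_rfl), T.er_self (qW 0 le_rfl)] at h6
    rw [e1, e2, e3, e4] at h6
    linarith
  · have ht' := ht.trans htt
    have h1 : ∀ x, U t' x - (t' - t) * S ≤ U t x := T.le_P (T.subc (qU t' ht') _) fun x => by
      have h2 := le_min_iff.1 (T.env_le (oU t' ht') x)
      have h3 := mul_nonneg (sub_nonneg.2 htt) hS
      exact le_min (by linarith [h2.1]) (by linarith [h2.2])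
    rw [T.er_sub (qU t' ht') (qU t ht) (qU 0 le_rfl) ((cU t' ht').trans (cU 0 le_rfl).symm)
      ((cU t ht).trans (cU 0 le_rfl).symm), ← mul_assoc]
    exact T.k5 ho (qU t ht) (qU t' ht') (lU t ht) (lU t' ht') (cU t ht) (cU t' ht')
      fun x => by linarith [h1 x]
  · have ht' := ht.trans htt
    have hd := mul_nonneg (sub_nonneg.2 htt) hS
    have h1 := T.k1 ho hψ hψo cψ (qW t ht) ((cW t ht).trans cψ.symm) (lW t ht) hd
      (fun x => by linarith [(T.env_le (oW t ht) x).trans (min_le_right _ _)]) (oW t' ht')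
    have h2 := T.xi_inf ho hψ (qU t' ht') (qW t' ht') hψo (lU t' ht') (lW t' ht')
      (T.env_mono (oW t' ht') fun x => min_le_min (hψo x) le_rfl) (cW t' ht')
    have := T.xi_fin ho hψ hψo cψ
    have h3 : (xi μ o ψ ⊓ xi μ o (U t')).real univ ≤ m := ENNReal.toReal_mono
      (ne_top_of_le_ne_top (measure_ne_top _ _) (inf_le_left (α := Measure M) _))
      (inf_le_inf_left (α := Measure M) _ (T.xi_anti hχ (qU t' ht')
        (T.le_P hχ fun x => le_min ((hχv x).trans (hvo x))
        ((hχv x).trans (le_add_of_nonneg_right (mul_nonneg ht' hS)))) (lU t' ht') (T.cont ho)) _)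
    have h4 := mul_le_mul_of_nonneg_left (h2.trans (add_le_add h3 le_rfl)) hd
    have h5 := T.er_sub (qW t' ht') (qW t ht) (qW 0 le_rfl) ((cW t' ht').trans (cW 0 le_rfl).symm)
      ((cW t ht).trans (cW 0 le_rfl).symm)
    linarith

end Tb

end Crest.Agent.X261.BT.Sup
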