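import Crest.Agent.X261.BT.En
import Crest.Agent.X261.BT.EnvB
import Crest.Agent.X261.BT.SupA

/-!
# X261 / BT (helper64): supermodularity, comparison principle, swept masses

`tb` : the toolbox `Sup.Tb` for `QP`, `Obs`, `env`, `MA`, `Er`;  `Xi H w = ωⁿ - 1_{w = 0} MA w`;
`PE H a b s = env (min a (b + s))`.
-/

set_option autoImplicit false
set_option linter.unusedSectionVars false

open Set Filter Topology MeasureTheory

namespace Crest.Agent.X261.BT

open Crest.Agent.R275.Geo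
open Crest.Agent.R281.Kp_487 (KP pot)

noncomputable section

variable {n : ℕ} {M : Type} [TopologicalSpace M] {A : Atl n M} [MeasurableSpace M] [BorelSpace M]
  [Countable A.ι] [T2Space M] {H : KP A} {a b c f g u v w : M → ℝ} {U K S : Set M}

omit [MeasurableSpace M] [BorelSpace M] in
theorem ce_iff : Sup.ce a b ↔ CE a b := ⟨fun ⟨_, h1, h2⟩ => CE.of_cpt h1 h2, CE.exists_cpt⟩

/-- the toolbox -/
theorem tb (hH : H.Pos) : Sup.Tb (QP H univ) (Obs H) (env H) (MA H) (Er H) where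
  cont h := h.continuous
  seg ha hb h0 h1 := ha.seg hb h0 h1
  max ha hb := ha.max hb
  addc ha c := ha.add_const c
  O_cont h := h.cont
  O_le h hw hle hc := h.of_le hw hle (ce_iff.1 hc)
  P_mem h := h.qp hH
  P_ce h := ce_iff.2 (h.ce (pos_semi hH))
  P_le hf hle := env_le (hf.hasC hle)
  le_P hf hle := le_env hf hle
  O_bar h := h.hasC (pos_semi hH)
  fin ha _ hK := MA_lt_top ha hK
  contact hu hv h := MA_contact hu hv h (isClosed_eq hu.continuous hv.continuous).measurableSet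
    fun _ hx => hx.ge
  loc ha hb hU h := MA_restrict_eq hb ha hU 0 fun x hx => by rw [h x hx, add_zero]
  mass ha hb hK h := MA_mass hH ha hb hK h
  mu_addc ha c := MA_const ha c
  add ha hb hc h h' := Er_add hH ha hb hc (ce_iff.1 h) (ce_iff.1 h')
  le_er ha hb h := le_Er hH ha hb (ce_iff.1 h)
  er_le ha hb h := Er_le hH ha hb (ce_iff.1 h)
  shift ha hb _ c := Er_shift ha hb c
  off h := env_contact hH h

section rel

variable (hH : H.Pos)
include hH

/-- one step: raising an envelope costs at most the gain on the contact set -/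
theorem Er_step (hv : Obs H v) (hc : QP H univ c) (hcv : CE c v) (hS : MeasurableSet S)
    {ν : Measure M} (hν : (MA H (env H v)).restrict (S ∩ {x | env H v x = v x}) ≤ ν)
    (hg : Integrable g ν) (hg0 : ∀ x, 0 ≤ g x) (hoff : ∀ x ∉ S, c x ≤ v x)
    (hon : ∀ x ∈ S, c x - v x ≤ g x) : Er H c (env H v) ≤ ∫ x, g x ∂ν :=
  (tb hH).step hv hc (ce_iff.2 hcv) hS hν hg hg0 hoff hon

/-- **local obstacle step**: on `S ⊆ U` the obstacle `v` is the local `H'`-psh function `F` -/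
theorem Er_step_loc {H' : KP A} (hH' : H'.Semipos) {F : M → ℝ} (hv : Obs H v) (hc : QP H univ c)
    (hcv : CE c v) (hF : QP (ad H H') U F) (hle : ∀ x ∈ U, v x ≤ F x) (hS : MeasurableSet S)
    (hSU : S ⊆ U) (hge : ∀ x ∈ S, F x ≤ v x) (hg : IntegrableOn g S (MAo (ad H H') U F))
    (hg0 : ∀ x, 0 ≤ g x) (hoff : ∀ x ∉ S, c x ≤ v x) (hon : ∀ x ∈ S, c x - v x ≤ g x) :
    Er H c (env H v) ≤ ∫ x in S, g x ∂MAo (ad H H') U F := by
  have h1 := hv.qp hH
  have h2 := hS.inter (isClosed_eq h1.continuous hv.cont).measurableSet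
  refine Er_step hH hv hc hcv hS ?_ hg hg0 hoff hon
  exact (Measure.restrict_mono subset_rfl (MX_le_ad isOpen_univ (fun _ => h1) fun _ => hH')).trans
    ((MA_touch (h1.ad_right hH') hF (fun x hx => (hv.env_le (pos_semi hH) x).trans (hle x hx)) h2
      (inter_subset_left.trans hSU) fun x hx => (hge x hx.1).trans hx.2.ge).trans
      (Measure.restrict_mono inter_subset_left le_rfl))

/-- the same with the form `H` -/
theorem Er_step_loc' {F : M → ℝ} (hv : Obs H v) (hc : QP H univ c)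
    (hcv : CE c v) (hF : QP H U F) (hle : ∀ x ∈ U, v x ≤ F x) (hS : MeasurableSet S)
    (hSU : S ⊆ U) (hge : ∀ x ∈ S, F x ≤ v x) (hg : IntegrableOn g S (MAo H U F))
    (hg0 : ∀ x, 0 ≤ g x) (hoff : ∀ x ∉ S, c x ≤ v x) (hon : ∀ x ∈ S, c x - v x ≤ g x) :
    Er H c (env H v) ≤ ∫ x in S, g x ∂MAo H U F := by
  have h1 := hv.qp hH
  have h2 := hS.inter (isClosed_eq h1.continuous hv.cont).measurableSet
  refine Er_step hH hv hc hcv hS ?_ hg hg0 hoff hon
  exact (MA_touch h1 hF (fun x hx => (hv.env_le (pos_semi hH) x).trans (hle x hx)) h2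
    (inter_subset_left.trans hSU) fun x hx => (hge x hx.1).trans hx.2.ge).trans
    (Measure.restrict_mono inter_subset_left le_rfl)

/-- **contraction** -/
theorem Er_contr (ha : QP H univ a) (hb : QP H univ b) (hab : CE a b) (hle : ∀ x, b x ≤ a x)
    (hg : Continuous g) (hO : Obs H fun x => min (b x) (g x)) :
    Er H (env H fun x => min (a x) (g x)) (env H fun x => min (b x) (g x)) ≤ Er H a b :=
  (tb hH).contr ha hb (ce_iff.2 hab) hle hg hO

/-- **shifted supermodularity** -/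
theorem Er_supmod (ha : QP H univ a) (hb : QP H univ b) (s : ℝ)
    (hc : CE (fun x => max (b x) (a x - s)) b) (hO : Obs H fun x => min (a x) (b x + s)) :
    Er H a (env H fun x => min (a x) (b x + s)) ≤ Er H (fun x => max (b x) (a x - s)) b :=
  (tb hH).supmod ha hb s (ce_iff.2 hc) hO

/-- **comparison principle** -/
theorem MA_comparison (hu : QP H univ u) (hv : QP H univ v) (hK : IsCompact K)
    (h : ∀ x ∉ K, v x ≤ u x) : MA H v {x | u x < v x} ≤ MA H u {x | u x < v x} :=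
  (tb hH).comparison hu hv hK h

theorem MA_trunc (hf : QP H univ f) (hg : QP H univ g) (hK : IsCompact K)
    (h : ∀ x ∉ K, g x < f x) :
    MA H (fun x => max (f x) (g x)) {x | f x ≤ g x} = MA H f {x | f x ≤ g x} :=
  (tb hH).mass_trunc hf hg hK h

end rel

/-! ### compactly supported functions -/

/-- the envelope of `min a (b + s)` -/
def PE (H : KP A) (a b : M → ℝ) (s : ℝ) : M → ℝ := env H fun x => min (a x) (b x + s)

/-- the swept mass `ωⁿ - 1_{w = 0} MA w` -/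
def Xi (H : KP A) (w : M → ℝ) : Measure M := Sup.xi (MA H) 0 w

section pp

variable (hH : H.Pos) (hS : Slow H) {s : ℝ}
include hH

theorem Xi_fin (hw : PP H w) (h : w ≤ 0) : IsFiniteMeasure (Xi H w) :=
  (tb hH).xi_fin (qp_zero (pos_semi hH)) hw.qp h (ce_iff.2 hw.ce0)

theorem Xi_univ (hw : PP H w) (h : w ≤ 0) : Xi H w univ = MA H w {x | w x < 0} :=
  (tb hH).xi_univ (qp_zero (pos_semi hH)) hw.qp h (ce_iff.2 hw.ce0)

theorem Xi_real (hw : PP H w) (h : w ≤ 0) : (Xi H w).real univ = (MA H w).real {x | w x < 0} :=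
  (tb hH).xi_real (qp_zero (pos_semi hH)) hw.qp h (ce_iff.2 hw.ce0)

theorem Xi_anti (hv : QP H univ v) (hw : QP H univ w) (h : v ≤ w) (h0 : w ≤ 0) :
    Xi H w ≤ Xi H v := (tb hH).xi_anti hv hw h h0 continuous_const

theorem Xi_zero : Xi H 0 = 0 := (tb hH).xi_self (qp_zero (pos_semi hH))

omit hH in
theorem Xi_le (H : KP A) (w : M → ℝ) : Xi H w ≤ MA H 0 := Sup.Tb.xi_le _ _ _

theorem Xi_off (hw : QP H univ w) (hK : IsClosed K) (h : ∀ x ∉ K, w x = 0) : Xi H w Kᶜ = 0 := by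
  rw [← Measure.restrict_apply_univ, Xi, (tb hH).xi_off (qp_zero (pos_semi hH)) hw hK h]
  rfl

theorem Xi_add (hw : PP H w) (h : w ≤ 0) :
    Xi H w + (MA H w).restrict {x | w x = 0} = MA H 0 :=
  (tb hH).xi_add_zt (qp_zero (pos_semi hH)) hw.qp h (ce_iff.2 hw.ce0)

omit hH in
theorem MA_iso' {γ : M ≃ₜ M} (hγ : Iso H γ) (ha : QP H univ a) :
    (MA H fun x => a (γ x)) = (MA H a).map γ.symm := by
  rw [← MA_iso hγ ha, Measure.map_map γ.symm.continuous.measurable γ.continuous.measurable]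
  simp

theorem Xi_iso {γ : M ≃ₜ M} (hγ : Iso H γ) (hw : QP H univ w) :
    (Xi H fun x => w (γ x)) = (Xi H w).map γ.symm :=
  Sup.Tb.xi_map (o := 0) γ (MA_iso' hγ (qp_zero (pos_semi hH))) (MA_iso' hγ hw)

omit hH [MeasurableSpace M] [BorelSpace M] in
theorem PE_iso {γ : M ≃ₜ M} (hγ : Iso H γ) (a b : M → ℝ) (s : ℝ) :
    PE H (fun x => a (γ x)) (fun x => b (γ x)) s = fun x => PE H a b s (γ x) :=
  funext (env_iso hγ fun x => min (a x) (b x + s))

omit hH [MeasurableSpace M] [BorelSpace M] in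
theorem le_PE (hf : QP H univ f) (h1 : ∀ x, f x ≤ a x) (h2 : ∀ x, f x ≤ b x + s) (x : M) :
    f x ≤ PE H a b s x := le_env hf (fun y => le_min (h1 y) (h2 y)) x

/-- (K5) -/
theorem En_k5' (ha : PP H a) (hc : PP H c) (ha0 : a ≤ 0) (hc0 : c ≤ 0) (h : ∀ x, c x ≤ a x + s) :
    En H c - En H a ≤ s * (Xi H a).real univ := by
  rw [En_sub hH hc ha]
  exact (tb hH).k5 (qp_zero (pos_semi hH)) ha.qp hc.qp ha0 hc0 (ce_iff.2 ha.ce0)
    (ce_iff.2 hc.ce0) h

theorem Xi_inf (ha : QP H univ a) (hb : QP H univ b) (hw : PP H w) (ha0 : a ≤ 0) (hb0 : b ≤ 0)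
    (hwa : w ≤ a) (hwb : w ≤ b) : (Xi H a).real univ + (Xi H b).real univ ≤
      (Xi H a ⊓ Xi H b).real univ + (Xi H w).real univ :=
  (tb hH).xi_inf (qp_zero (pos_semi hH)) ha hb hw.qp ha0 hb0 hwa hwb (ce_iff.2 hw.ce0)

include hS

theorem obs_PE (ha : PP H a) (hb : PP H b) (hs : 0 ≤ s) : Obs H fun x => min (a x) (b x + s) := by
  obtain ⟨K, hK, h1⟩ := ha.exists_cpt
  obtain ⟨L, hL, h2⟩ := hb.exists_cpt
  refine hS.obs0 (pos_semi hH) (ha.qp.continuous.min (hb.qp.add_const s).continuous)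
    (HasCompactSupport.intro (hK.union hL) fun x hx => ?_)
  rw [h1 x fun h => hx (Or.inl h), h2 x fun h => hx (Or.inr h), zero_add, min_eq_left hs]

theorem PE_le (ha : PP H a) (hb : PP H b) (hs : 0 ≤ s) (x : M) : PE H a b s x ≤ a x :=
  ((obs_PE hH hS ha hb hs).env_le (pos_semi hH) x).trans (min_le_left _ _)

theorem PE_le' (ha : PP H a) (hb : PP H b) (hs : 0 ≤ s) (x : M) : PE H a b s x ≤ b x + s :=
  ((obs_PE hH hS ha hb hs).env_le (pos_semi hH) x).trans (min_le_right _ _)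

theorem pp_PE (ha : PP H a) (hb : PP H b) (hs : 0 ≤ s) : PP H (PE H a b s) := by
  have h := obs_PE hH hS ha hb hs
  obtain ⟨L, hL, h2⟩ := hb.exists_cpt
  obtain ⟨K, hK, h1⟩ := ha.exists_cpt
  refine PP.of_ce (h.qp hH) ha ((h.ce (pos_semi hH)).trans (CE.of_cpt (hK.union hL) fun x hx => ?_))
  rw [h1 x fun h => hx (Or.inl h), h2 x fun h => hx (Or.inr h), zero_add, min_eq_left hs]

/-- **S3** -/
theorem En_s3 (ha : PP H a) (hb : PP H b) (hs : 0 ≤ s) :
    En H a + En H b ≤ En H (fun x => max (b x) (a x - s)) + En H (PE H a b s) := by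
  have h1 := Er_supmod hH ha.qp hb.qp s ((ha.maxs hb hs).ce2 hb) (obs_PE hH hS ha hb hs)
  have h2 := En_sub hH ha (pp_PE hH hS ha hb hs)
  have h3 := En_sub hH (ha.maxs hb hs) hb
  unfold PE at *
  linarith

/-- (K5) -/
theorem En_k5 (ha : PP H a) (ha0 : a ≤ 0) (hs : 0 ≤ s) :
    En H (PE H 0 a s) - En H a ≤ s * (Xi H a).real univ :=
  have h0 : PP H 0 := PP.zero (pos_semi hH)
  En_k5' hH ha (pp_PE hH hS h0 ha hs) ha0 (PE_le hH hS h0 ha hs) (PE_le' hH hS h0 ha hs)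

/-- (K1), two levels -/
theorem En_k1' (ha : PP H a) (hb : PP H b) (hb0 : b ≤ 0) (hs : 0 ≤ s) {t : ℝ} (ht : s ≤ t) :
    (t - s) * ((Xi H (PE H b a t)).real univ - (Xi H b).real univ) ≤
      En H (PE H b a t) - En H (PE H b a s) := by
  have h1 := pp_PE hH hS hb ha hs
  rw [En_sub hH (pp_PE hH hS hb ha (hs.trans ht)) h1]
  exact (tb hH).k1 (qp_zero (pos_semi hH)) hb.qp hb0 (ce_iff.2 hb.ce0) h1.qp
    (ce_iff.2 (h1.ce2 hb)) (PE_le hH hS hb ha hs) (sub_nonneg.2 ht)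
    (fun x => by linarith [PE_le' hH hS hb ha hs x]) (obs_PE hH hS hb ha (hs.trans ht))

/-- (K1) -/
theorem En_k1 (ha : PP H a) (hb : PP H b) (hb0 : b ≤ 0) (hs : 0 ≤ s) :
    s * ((Xi H (PE H b a s)).real univ - (Xi H b).real univ) ≤
      En H (PE H b a s) - En H (PE H b a 0) := by
  simpa only [sub_zero] using En_k1' hH hS ha hb hb0 le_rfl hs

theorem En_shift_le (hf : PP H f) (hf0 : f ≤ 0) (hs : 0 ≤ s) {T : ℝ} (hT : 0 < T) :
    En H (PE H 0 f s) - En H f ≤
      s * (MA H f).real {x | f x ≤ -T} + T * (Xi H f).real univ := by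
  have h0 : PP H 0 := PP.zero (pos_semi hH)
  rw [En_sub hH (pp_PE hH hS h0 hf hs) hf]
  unfold PE Xi
  simpa only [Pi.zero_apply, zero_sub] using (tb hH).er_env_le h0.qp hf.qp hf0 (ce_iff.2 hf.ce0)
    hs hT (obs_PE hH hS h0 hf hs)

/-- **overlap of swept masses** -/
theorem En_overlap {ψ χ : M → ℝ} (hψ : PP H ψ) (hχ : PP H χ) (hv : PP H v) (hψ0 : ψ ≤ 0)
    (hv0 : v ≤ 0) (hχv : χ ≤ v) (hs : 0 ≤ s) (hsv : ∀ x, -s ≤ v x) :
    -En H v ≤ En H ψ - En H (PE H ψ v 0) + s * (Xi H ψ ⊓ Xi H χ).real univ := by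
  have h0 : PP H 0 := PP.zero (pos_semi hH)
  have h1 := (tb hH).overlap h0.qp
    (fun w hw hc => hS.obs (pos_semi hH) hw (c := 0) (ce_iff.1 hc)) hψ.qp hχ.qp hv.qp hψ0 hv0 hχv
    (ce_iff.2 hψ.ce0) (ce_iff.2 hχ.ce0) hs fun x => by simpa using hsv x
  rw [← En_sub hH h0 hv, En_zero, zero_sub] at h1
  rw [En_sub hH hψ (pp_PE hH hS hψ hv le_rfl)]
  simpa only [PE, Xi, add_zero] using h1

end pp

end

end Crest.Agent.X261.BT
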